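import Vale.Agent.P254.Defs

/-!
P254, unconditional bodies: interface between the volume inequality `UNCR` and the isotropic
constant.
-/

open MeasureTheory Set

namespace Vale.Agent.P254.Unc

variable {n : ℕ}

/-- `K` lies in the positive orthant and is closed downwards. -/
def Down (K : Set (Fin n → ℝ)) : Prop :=
  (∀ x ∈ K, 0 ≤ x) ∧ ∀ x ∈ K, ∀ y, 0 ≤ y → y ≤ x → y ∈ K

/-- `|K| ≥ ∏ 2 E x_i` for the convex bodies of the positive orthant which are closed downwards. -/
def UNCR (n : ℕ) : Prop :=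
  ∀ K : Set (Fin n → ℝ), Convex ℝ K → IsCompact K → K.Nonempty → Down K →
    ∏ i, (2 * ∫ x in K, x i) ≤ (volume K).toReal ^ (n + 1)

/-- `K` is unconditional: invariant under the changes of sign of the coordinates. -/
def Uncond (K : Set (Fin n → ℝ)) : Prop :=
  ∀ x ∈ K, ∀ y : Fin n → ℝ, (∀ i, |y i| = |x i|) → y ∈ K

end Vale.Agent.P254.Unc
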