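import Vale.Agent.P254.Unc.E2
import Vale.Agent.P254.Unc.FinDefs

open MeasureTheory Set

namespace Vale.Agent.P254.Unc

/-- Bridge between the cube form `UNC` and the form `UNCR` for compact sets of the orthant. -/
theorem uncr_of_unc {n : ℕ} (h : UNC n) : UNCR n := fun K hc hK hne hD =>
  unc_real h K hK hc hne (fun x hx k => hD.1 x hx k)
    (fun x hx y hy => hD.2 x hx y (fun k => (hy k).1) (fun k => (hy k).2))

end Vale.Agent.P254.Unc
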