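import Vale.Agent.P254.Unc.Defs2

open MeasureTheory Set
open scoped NNReal

namespace Vale.Agent.P254.Unc

variable {n : ℕ}

theorem d3x_sq_mid (a b : unitInterval) :
    ((a : ℝ) ^ 2 + (b : ℝ) ^ 2) / 2 - ((mid1 a b : unitInterval) : ℝ) ^ 2 = ((a : ℝ) - b) ^ 2 / 4 := by
  have : ((mid1 a b : unitInterval) : ℝ) = ((a : ℝ) + b) / 2 := rfl
  rw [this]; ring

theorem d3x_lip_sq (k : Fin n) :
    LipschitzWith 2 (fun x : X n => ((x k : unitInterval) : ℝ) ^ 2) := by
  apply LipschitzWith.of_dist_le_mul
  intro x y
  have h1 : dist (x k) (y k) ≤ dist x y := dist_le_pi_dist x y k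
  have h2 : dist (x k) (y k) = |((x k : unitInterval) : ℝ) - y k| := by
    rw [Subtype.dist_eq, Real.dist_eq]
  rw [Real.dist_eq]
  have h3 : ((x k : unitInterval) : ℝ) ^ 2 - ((y k : unitInterval) : ℝ) ^ 2
      = (((x k : unitInterval) : ℝ) - y k) * (((x k : unitInterval) : ℝ) + y k) := by ring
  rw [h3, abs_mul]
  have h4 : |((x k : unitInterval) : ℝ) + y k| ≤ 2 := by
    have a1 := (x k).2.1; have a2 := (x k).2.2; have a3 := (y k).2.1; have a4 := (y k).2.2
    rw [abs_of_nonneg (by linarith)]; linarith
  have h5 : (0 : ℝ) ≤ |((x k : unitInterval) : ℝ) - y k| := abs_nonneg _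
  have : ((2 : ℝ≥0) : ℝ) = 2 := rfl
  rw [this]
  calc |((x k : unitInterval) : ℝ) - y k| * |((x k : unitInterval) : ℝ) + y k|
      ≤ |((x k : unitInterval) : ℝ) - y k| * 2 := by gcongr
    _ ≤ 2 * dist x y := by rw [← h2]; linarith

theorem d3x_lip_sum : LipschitzWith (2 * (n : ℝ≥0)) (fun x : X n => ∑ k, ((x k : unitInterval) : ℝ) ^ 2) := by
  apply LipschitzWith.of_dist_le_mul
  intro x y
  rw [Real.dist_eq, ← Finset.sum_sub_distrib]
  calc |∑ k, (((x k : unitInterval) : ℝ) ^ 2 - ((y k : unitInterval) : ℝ) ^ 2)|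
      ≤ ∑ k, |((x k : unitInterval) : ℝ) ^ 2 - ((y k : unitInterval) : ℝ) ^ 2| :=
        Finset.abs_sum_le_sum_abs _ _
    _ ≤ ∑ _k : Fin n, 2 * dist x y := by
        apply Finset.sum_le_sum
        intro k _
        have := (d3x_lip_sq k).dist_le_mul x y
        rw [Real.dist_eq] at this
        exact this
    _ = _ := by simp; ring

/-- D3: remove strong concavity and normalisation -/
theorem cx_of_cxs (n : ℕ) (h : CXs n) : CX n := by
  intro ρ G K M hanti h0 hlip hG hR
  have hρc : Continuous ρ := hlip.continuous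
  have hGc : Continuous G := hG.continuous
  have hint : ∀ F : X n → ℝ, Continuous F → Integrable F := fun F hF =>
    hF.integrable_of_hasCompactSupport (HasCompactSupport.of_compactSpace F)
  set c : ℝ := ∫ x, ρ x with hc
  have hc0 : 0 ≤ c := integral_nonneg h0
  rcases hc0.eq_or_lt with hc0 | hcpos
  · -- ρ = 0 a.e.
    have hz : ρ =ᵐ[volume] 0 := (integral_eq_zero_iff_of_nonneg h0 (hint ρ hρc)).1 hc0.symm
    have h1 : ∫ x, G x * ρ x = 0 := by
      rw [← integral_zero (X n) ℝ]
      apply integral_congr_ae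
      filter_upwards [hz] with x hx
      simp only [Pi.zero_apply] at hx
      rw [hx, mul_zero]
    rw [h1, ← hc0]
    simp
  · set σ : X n → ℝ := fun x => ρ x / c with hσ
    have hD : Dens n σ := by
      refine ⟨?_, ?_, ?_, ?_⟩
      · intro x y hxy
        exact div_le_div_of_nonneg_right (hanti hxy) hcpos.le
      · intro x; exact div_nonneg (h0 x) hcpos.le
      · refine ⟨Real.toNNReal c⁻¹ * K, ?_⟩
        apply LipschitzWith.of_dist_le_mul
        intro x y
        have := hlip.dist_le_mul x y
        rw [Real.dist_eq] at this ⊢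
        have e : σ x - σ y = c⁻¹ * (ρ x - ρ y) := by simp only [hσ]; ring
        rw [e, abs_mul, abs_of_pos (inv_pos.2 hcpos)]
        push_cast
        calc c⁻¹ * |ρ x - ρ y| ≤ c⁻¹ * (K * dist x y) := by gcongr
          _ = _ := by rw [Real.coe_toNNReal _ (inv_nonneg.2 hcpos.le)]; ring
      · rw [integral_div]; exact div_self hcpos.ne'
    set A : ℝ := ∫ x, G x * σ x with hA
    set B : ℝ := ∫ x, (∑ k, ((x k : unitInterval) : ℝ) ^ 2) * σ x with hB
    set P : ℝ := ∏ k : Fin n, (2 * ∫ x, ((x k : unitInterval) : ℝ) * σ x) with hP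
    have hσc : Continuous σ := hρc.div_const c
    have hsc : Continuous (fun x : X n => ∑ k, ((x k : unitInterval) : ℝ) ^ 2) := d3x_lip_sum.continuous
    have key : ∀ ε : ℝ, 0 < ε → (A - ε * B) * P ≤ ∫ x, max (G x) 0 := by
      intro ε hε
      have h1 := h σ (fun x => G x - ε * ∑ k, ((x k : unitInterval) : ℝ) ^ 2)
        (M + Real.toNNReal ε * (2 * (n : ℝ≥0))) (ε / 4) (by positivity) hD
        (by
          apply LipschitzWith.of_dist_le_mul
          intro x y
          have e1 := hG.dist_le_mul x y
          have e2 := (d3x_lip_sum (n := n)).dist_le_mul x y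
          rw [Real.dist_eq] at e1 e2 ⊢
          have e : (G x - ε * ∑ k, ((x k : unitInterval) : ℝ) ^ 2) - (G y - ε * ∑ k, ((y k : unitInterval) : ℝ) ^ 2)
            = (G x - G y) - ε * ((∑ k, ((x k : unitInterval) : ℝ) ^ 2) - ∑ k, ((y k : unitInterval) : ℝ) ^ 2) := by ring
          rw [e]
          refine (abs_sub _ _).trans ?_
          rw [abs_mul, abs_of_pos hε]
          push_cast at e2 ⊢
          rw [Real.coe_toNNReal _ hε.le]
          calc _ ≤ (M : ℝ) * dist x y + ε * (2 * (n : ℝ) * dist x y) := by gcongr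
            _ = _ := by ring)
        (by
          intro x y
          have e1 := hR x y
          have e2 : (∑ k, ((x k : unitInterval) : ℝ) ^ 2 + ∑ k, ((y k : unitInterval) : ℝ) ^ 2) / 2
              - ∑ k, ((mid x y k : unitInterval) : ℝ) ^ 2 = (∑ k, (((x k : unitInterval) : ℝ) - y k) ^ 2) / 4 := by
            rw [← Finset.sum_add_distrib, Finset.sum_div, Finset.sum_div, ← Finset.sum_sub_distrib]
            apply Finset.sum_congr rfl
            intro k _
            exact d3x_sq_mid (x k) (y k)
          nlinarith [e1, e2])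
      have h2 : ∫ x, (G x - ε * ∑ k, ((x k : unitInterval) : ℝ) ^ 2) * σ x = A - ε * B := by
        have e : ∀ x : X n, (G x - ε * ∑ k, ((x k : unitInterval) : ℝ) ^ 2) * σ x
          = G x * σ x - ε * ((∑ k, ((x k : unitInterval) : ℝ) ^ 2) * σ x) := by intro x; ring
        simp_rw [e]
        have i1 : Integrable (fun x : X n => G x * σ x) := hint _ (hGc.mul hσc)
        have i2 : Integrable (fun x : X n => ε * ((∑ k, ((x k : unitInterval) : ℝ) ^ 2) * σ x)) :=
          (hint _ (hsc.mul hσc)).const_mul ε
        rw [integral_sub i1 i2, integral_const_mul]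
      rw [h2] at h1
      refine h1.trans ?_
      apply integral_mono
      · apply hint; exact ((hGc.sub (hsc.const_mul ε)).max continuous_const)
      · apply hint; exact (hGc.max continuous_const)
      · intro x
        have : 0 ≤ ε * ∑ k, ((x k : unitInterval) : ℝ) ^ 2 := by positivity
        exact max_le_max (by linarith) le_rfl
    have key2 : A * P ≤ ∫ x, max (G x) 0 := by
      by_contra hcon
      push Not at hcon
      set δ := A * P - ∫ x, max (G x) 0 with hδ
      have hδpos : 0 < δ := by rw [hδ]; linarith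
      have h3 := key (δ / (2 * (|B * P| + 1))) (by positivity)
      have h4 : δ / (2 * (|B * P| + 1)) * (B * P) ≤ δ / 2 := by
        rw [div_mul_eq_mul_div, div_le_div_iff₀ (by positivity) (by norm_num)]
        have := le_abs_self (B * P)
        nlinarith
      nlinarith
    -- unnormalise
    have hA' : ∫ x, G x * ρ x = c * A := by
      rw [hA, ← integral_const_mul]
      apply integral_congr_ae
      refine Filter.Eventually.of_forall (fun x => ?_)
      simp only [hσ]
      field_simp
    have hP' : ∏ k : Fin n, (2 * ∫ x, ((x k : unitInterval) : ℝ) * ρ x) = c ^ n * P := by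
      have e0 : c ^ n = ∏ _k : Fin n, c := by simp
      rw [hP, e0, ← Finset.prod_mul_distrib]
      apply Finset.prod_congr rfl
      intro k _
      have : ∫ x : X n, ((x k : unitInterval) : ℝ) * ρ x = c * ∫ x : X n, ((x k : unitInterval) : ℝ) * σ x := by
        rw [← integral_const_mul]
        apply integral_congr_ae
        refine Filter.Eventually.of_forall (fun x => ?_)
        simp only [hσ]
        field_simp
      rw [this]; ring
    rw [hA', hP']
    calc c * A * (c ^ n * P) = c ^ (n + 1) * (A * P) := by ring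
      _ ≤ _ := by gcongr

end Vale.Agent.P254.Unc
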