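import Vale.Agent.P254.Unc.Defs

open MeasureTheory Set
open scoped NNReal

namespace Vale.Agent.P254.Unc

/-- E0 -/
theorem unc_zero : UNC 0 := by
  intro L _ hne _ _
  have : L = univ := by
    obtain ⟨x, hx⟩ := hne
    ext y
    simp [Subsingleton.elim y x, hx]
  subst this
  simp

end Vale.Agent.P254.Unc
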