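import Vale.Agent.P254.Unc.E1w

/-! P254 (UNCOND), block E1: `UNC (n+1)` from `CX n` (helper232). -/

namespace Vale.Agent.P254.Unc

/-- E1 -/
theorem unc_succ (n : ℕ) (h : CX n) : UNC (n + 1) := E1w.unc_succ_w n h

end Vale.Agent.P254.Unc
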