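import Vale.Agent.P254.Unc.D2
import Vale.Agent.P254.Unc.D3
import Vale.Agent.P254.Unc.E0
import Vale.Agent.P254.Unc.E1
import Vale.Agent.P254.Unc.Bridge

/-! P254-UNC: the volume inequality `|K| ≥ ∏ 2 E x_k` in all dimensions. -/

namespace Vale.Agent.P254.Unc

/-- `|L| ≥ ∏ 2 E x_k` in all dimensions, in the cube. -/
theorem unc_all (n : ℕ) : UNC n := by
  induction n with
  | zero => exact unc_zero
  | succ n ih => exact unc_succ n (cx_of_cxs n (cxs_of_unc n ih))

/-- `|K| ≥ ∏ 2 E x_k` for all compact convex sets of the orthant closed downwards. -/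
theorem uncr_all (n : ℕ) : UNCR n := uncr_of_unc (unc_all n)

end Vale.Agent.P254.Unc
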