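import Vale.Agent.P254.Unc.Stab

/-!
From a bound for `det Σ_U / |U|²` to the bodies `K` nearly filling an affine image of `U`.
-/

open MeasureTheory Set Matrix

namespace Vale.Agent.P254

variable {n : ℕ} {K U S : Set (Fin n → ℝ)}

/-- The bodies nearly filling an affine image of a body `U` with `det Σ_U / |U|² ≤ B`. -/
theorem near_of_bound (hn : 1 ≤ n) (hK : IsConvexBody K) (hS : IsSimplex S)
    (hU : IsConvexBody U) {A : Matrix (Fin n) (Fin n) ℝ} (hA : A.det ≠ 0) {b : Fin n → ℝ}
    {s B : ℝ} (hKU : K ⊆ aff A b '' U)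
    (hvol : (volume (aff A b '' U)).toReal ≤ s * (volume K).toReal)
    (hbody : (covMatrix U).det / (volume U).toReal ^ 2 ≤ B)
    (hnum : s ^ (n + 2) * B < FV.simpC n) :
    isoConst K < isoConst S := by
  have hn0 : 0 < n := by omega
  have hV := volume_pos_of_body hK
  have hVU := volume_pos_of_body hU
  set U' := aff A b '' U with hU'
  have hUb : IsConvexBody U' := isConvexBody_aff_image hA b hU
  have hVU' := volume_pos_of_body hUb
  have h1 := det_cov_le_of_subset hn0 hK.2.1 hV hUb hKU
  have h2 : (covMatrix U').det / (volume U').toReal ^ 2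
      = (covMatrix U).det / (volume U).toReal ^ 2 := by
    rw [hU', cov_aff_image hA b hU.2.1 hVU.ne', volume_aff_image hA b hU.2.1.measurableSet,
      det_mul, det_mul, det_transpose, mul_pow, sq_abs]
    field_simp
  set V := (volume K).toReal with hVd
  set W := (volume U').toReal with hWd
  have hr : W / V ≤ s := by
    rw [div_le_iff₀ hV]
    linarith
  have hr0 : 0 < W / V := div_pos hVU' hV
  have hdU : 0 ≤ (covMatrix U').det / W ^ 2 :=
    div_nonneg (covMatrix_posSemidef hUb.2.1).det_nonneg (by positivity)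
  have h3 : (covMatrix K).det / V ^ 2 ≤ (W / V) ^ (n + 2) * ((covMatrix U').det / W ^ 2) := by
    rw [div_le_iff₀ (by positivity)]
    refine h1.trans (le_of_eq ?_)
    rw [pow_add]
    field_simp
  have h4 : (covMatrix K).det / V ^ 2 ≤ s ^ (n + 2) * B := by
    refine h3.trans ?_
    rw [h2] at hdU ⊢
    exact mul_le_mul (pow_le_pow_left₀ hr0.le hr _) hbody hdU
      (pow_nonneg (hr0.le.trans hr) _)
  rw [isoConst_simplex hS, isoConst, isoConst, FV.det_simplex (by omega)]
  have hn' : (0 : ℝ) < n := by exact_mod_cast hn0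
  exact Real.rpow_lt_rpow (div_nonneg (covMatrix_posSemidef hK.2.1).det_nonneg (by positivity))
    (h4.trans_lt hnum) (by positivity)

/-- The case `U = K`. -/
theorem lt_of_bound (hn : 1 ≤ n) (hK : IsConvexBody K) (hS : IsSimplex S) {B : ℝ}
    (hbody : (covMatrix K).det / (volume K).toReal ^ 2 ≤ B) (hnum : B < FV.simpC n) :
    isoConst K < isoConst S := by
  rw [isoConst_simplex hS, isoConst, isoConst, FV.det_simplex (by omega)]
  have hn' : (0 : ℝ) < n := by exact_mod_cast hn
  exact Real.rpow_lt_rpow (div_nonneg (covMatrix_posSemidef hK.2.1).det_nonneg (by positivity))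
    (hbody.trans_lt hnum) (by positivity)

/-- A strict inequality settles the conjecture for `K` together with its equality case. -/
theorem conj_of_lt (hS : IsSimplex S) (h : isoConst K < isoConst S) :
    isoConst K ≤ isoConst S ∧ (isoConst K = isoConst S ↔ IsSimplex K) := by
  refine ⟨h.le, fun h' => absurd h' h.ne, fun h' => ?_⟩
  rw [isoConst_simplex h', isoConst_simplex hS]

end Vale.Agent.P254
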