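import Mathlib

/-!
The numeric inequality `(n+1)^(2n+1) < 8^n (n!)^2` for `n ≥ 2`.
-/

namespace Vale.Agent.P254.Unc

/-- `((m+1)/m)^(2m+1) ≤ 8` for `m ≥ 2`. -/
theorem ratio_le_eight {m : ℕ} (hm : 2 ≤ m) :
    ((m : ℝ) + 1) ^ (2 * m + 1) ≤ 8 * (m : ℝ) ^ (2 * m + 1) := by
  rcases Nat.lt_or_ge m 3 with h3 | h3
  · have : m = 2 := by omega
    subst this
    norm_num
  · have hm0 : (0 : ℝ) < m := by positivity
    have h3' : (3 : ℝ) ≤ m := by exact_mod_cast h3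
    set y : ℝ := ((m : ℝ) + 1) / m with hy
    have hy1 : 1 ≤ y := by rw [hy, le_div_iff₀ hm0]; linarith
    have hy0 : 0 < y := by linarith
    have hlog : Real.log y ≤ (y - y⁻¹) / 2 := by
      have h := Real.self_le_sinh_iff.2 (Real.log_nonneg hy1)
      rwa [Real.sinh_log hy0] at h
    have h2 : (y - y⁻¹) / 2 = (2 * (m : ℝ) + 1) / (2 * (m * (m + 1))) := by
      rw [hy, inv_div]
      field_simp
      ring
    have h4 : ((2 * m + 1 : ℕ) : ℝ) * Real.log y ≤ 2 + 1 / 24 := by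
      have h5 : ((2 * m + 1 : ℕ) : ℝ) * Real.log y
          ≤ (2 * (m : ℝ) + 1) * ((2 * (m : ℝ) + 1) / (2 * (m * (m + 1)))) := by
        push_cast
        rw [← h2]
        gcongr
      refine h5.trans ?_
      rw [← mul_div_assoc, div_le_iff₀ (by positivity)]
      nlinarith
    have h6 : y ^ (2 * m + 1) ≤ 8 := by
      have h7 : y ^ (2 * m + 1) = Real.exp (((2 * m + 1 : ℕ) : ℝ) * Real.log y) := by
        rw [Real.exp_nat_mul, Real.exp_log hy0]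
      rw [h7]
      refine (Real.exp_le_exp.2 h4).trans ?_
      have he1 := Real.exp_one_lt_d9
      have he0 : 0 < Real.exp 1 := Real.exp_pos 1
      have e2 : Real.exp (2 + 1 / 24) = Real.exp 1 * Real.exp 1 * Real.exp (1 / 24) := by
        rw [← Real.exp_add, ← Real.exp_add]
        norm_num
      have e3 : Real.exp (1 / 24) ≤ 24 / 23 := by
        have h8 := Real.add_one_le_exp (-(1 / 24) : ℝ)
        rw [Real.exp_neg] at h8
        have h9 : (23 / 24 : ℝ) ≤ (Real.exp (1 / 24))⁻¹ := by linarith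
        rw [le_inv_comm₀ (by norm_num) (Real.exp_pos _)] at h9
        linarith [h9, (by norm_num : (23 / 24 : ℝ)⁻¹ = 24 / 23)]
      rw [e2]
      have e4 : Real.exp 1 * Real.exp 1 ≤ 2.7182818286 * 2.7182818286 := by
        gcongr
      calc Real.exp 1 * Real.exp 1 * Real.exp (1 / 24)
          ≤ (2.7182818286 * 2.7182818286) * (24 / 23) := by gcongr
        _ ≤ 8 := by norm_num
    rw [hy, div_pow, div_le_iff₀ (by positivity)] at h6
    exact h6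

/-- `((m+1)/m)^(2m+1) (80/79) ≤ 8` for `m ≥ 3`. -/
theorem ratio_le_eight' {m : ℕ} (h3 : 3 ≤ m) :
    ((m : ℝ) + 1) ^ (2 * m + 1) * (80 / 79) ≤ 8 * (m : ℝ) ^ (2 * m + 1) := by
  have hm0 : (0 : ℝ) < m := by positivity
  have h3' : (3 : ℝ) ≤ m := by exact_mod_cast h3
  set y : ℝ := ((m : ℝ) + 1) / m with hy
  have hy1 : 1 ≤ y := by rw [hy, le_div_iff₀ hm0]; linarith
  have hy0 : 0 < y := by linarith
  have hlog : Real.log y ≤ (y - y⁻¹) / 2 := by
    have h := Real.self_le_sinh_iff.2 (Real.log_nonneg hy1)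
    rwa [Real.sinh_log hy0] at h
  have h2 : (y - y⁻¹) / 2 = (2 * (m : ℝ) + 1) / (2 * (m * (m + 1))) := by
    rw [hy, inv_div]
    field_simp
    ring
  have h4 : ((2 * m + 1 : ℕ) : ℝ) * Real.log y ≤ 2 + 1 / 24 := by
    have h5 : ((2 * m + 1 : ℕ) : ℝ) * Real.log y
        ≤ (2 * (m : ℝ) + 1) * ((2 * (m : ℝ) + 1) / (2 * (m * (m + 1)))) := by
      push_cast
      rw [← h2]
      gcongr
    refine h5.trans ?_
    rw [← mul_div_assoc, div_le_iff₀ (by positivity)]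
    nlinarith
  have h6 : y ^ (2 * m + 1) ≤ 79 / 10 := by
    have h7 : y ^ (2 * m + 1) = Real.exp (((2 * m + 1 : ℕ) : ℝ) * Real.log y) := by
      rw [Real.exp_nat_mul, Real.exp_log hy0]
    rw [h7]
    refine (Real.exp_le_exp.2 h4).trans ?_
    have he1 := Real.exp_one_lt_d9
    have he0 : 0 < Real.exp 1 := Real.exp_pos 1
    have e2 : Real.exp (2 + 1 / 24) = Real.exp 1 * Real.exp 1 * Real.exp (1 / 24) := by
      rw [← Real.exp_add, ← Real.exp_add]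
      norm_num
    have e3 : Real.exp (1 / 24) ≤ 24 / 23 := by
      have h8 := Real.add_one_le_exp (-(1 / 24) : ℝ)
      rw [Real.exp_neg] at h8
      have h9 : (23 / 24 : ℝ) ≤ (Real.exp (1 / 24))⁻¹ := by linarith
      rw [le_inv_comm₀ (by norm_num) (Real.exp_pos _)] at h9
      linarith [h9, (by norm_num : (23 / 24 : ℝ)⁻¹ = 24 / 23)]
    rw [e2]
    have e4 : Real.exp 1 * Real.exp 1 ≤ 2.7182818286 * 2.7182818286 := by
      gcongr
    calc Real.exp 1 * Real.exp 1 * Real.exp (1 / 24)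
        ≤ (2.7182818286 * 2.7182818286) * (24 / 23) := by gcongr
      _ ≤ 79 / 10 := by norm_num
  rw [hy, div_pow, div_le_iff₀ (by positivity)] at h6
  have : (0 : ℝ) < (m : ℝ) ^ (2 * m + 1) := by positivity
  linarith

/-- `(n+1)^(2n+1) (80/79)^(n+2) < 8^n (n!)^2` for `n ≥ 2`. -/
theorem pow_lt_factorial' {n : ℕ} (hn : 2 ≤ n) :
    ((n : ℝ) + 1) ^ (2 * n + 1) * (80 / 79) ^ (n + 2) < 8 ^ n * (n.factorial : ℝ) ^ 2 := by
  induction n, hn using Nat.le_induction with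
  | base => norm_num [Nat.factorial]
  | succ n hn ih =>
    have h := ratio_le_eight' (m := n + 1) (by omega)
    push_cast at h ⊢
    have hn0 : (0 : ℝ) < (n : ℝ) + 1 := by positivity
    have e1 : ((n : ℝ) + 1 + 1) ^ (2 * (n + 1) + 1) * (80 / 79) ≤
        8 * ((n : ℝ) + 1) ^ (2 * (n + 1) + 1) := h
    have e2 : ((n : ℝ) + 1) ^ (2 * (n + 1) + 1) = ((n : ℝ) + 1) ^ 2 * ((n : ℝ) + 1) ^ (2 * n + 1) := by
      rw [← pow_add]; congr 1; ring
    have e3 : ((n : ℝ) + 1) ^ 2 * (((n : ℝ) + 1) ^ (2 * n + 1) * (80 / 79) ^ (n + 2))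
        < ((n : ℝ) + 1) ^ 2 * (8 ^ n * (n.factorial : ℝ) ^ 2) := by gcongr
    rw [Nat.factorial_succ]
    push_cast
    calc ((n : ℝ) + 1 + 1) ^ (2 * (n + 1) + 1) * (80 / 79) ^ (n + 1 + 2)
        = (((n : ℝ) + 1 + 1) ^ (2 * (n + 1) + 1) * (80 / 79)) * (80 / 79) ^ (n + 2) := by ring
      _ ≤ (8 * ((n : ℝ) + 1) ^ (2 * (n + 1) + 1)) * (80 / 79) ^ (n + 2) := by gcongr
      _ = 8 * (((n : ℝ) + 1) ^ 2 * (((n : ℝ) + 1) ^ (2 * n + 1) * (80 / 79) ^ (n + 2))) := by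
          rw [e2]; ring
      _ < 8 * (((n : ℝ) + 1) ^ 2 * (8 ^ n * (n.factorial : ℝ) ^ 2)) := by gcongr
      _ = 8 ^ (n + 1) * (((n : ℝ) + 1) * n.factorial) ^ 2 := by ring

/-- `(n+1)^(2n+1) < 8^n (n!)^2` for `n ≥ 2`. -/
theorem pow_lt_factorial {n : ℕ} (hn : 2 ≤ n) :
    ((n : ℝ) + 1) ^ (2 * n + 1) < 8 ^ n * (n.factorial : ℝ) ^ 2 := by
  induction n, hn using Nat.le_induction with
  | base => norm_num [Nat.factorial]
  | succ n hn ih =>
    have h := ratio_le_eight (m := n + 1) (by omega)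
    push_cast at h ⊢
    have hn0 : (0 : ℝ) < (n : ℝ) + 1 := by positivity
    have e1 : ((n : ℝ) + 1 + 1) ^ (2 * (n + 1) + 1) ≤ 8 * ((n : ℝ) + 1) ^ (2 * (n + 1) + 1) := h
    have e2 : ((n : ℝ) + 1) ^ (2 * (n + 1) + 1) = ((n : ℝ) + 1) ^ 2 * ((n : ℝ) + 1) ^ (2 * n + 1) := by
      rw [← pow_add]; congr 1; ring
    have e3 : ((n : ℝ) + 1) ^ 2 * ((n : ℝ) + 1) ^ (2 * n + 1)
        < ((n : ℝ) + 1) ^ 2 * (8 ^ n * (n.factorial : ℝ) ^ 2) := by gcongr
    rw [Nat.factorial_succ]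
    push_cast
    calc ((n : ℝ) + 1 + 1) ^ (2 * (n + 1) + 1) ≤ 8 * ((n : ℝ) + 1) ^ (2 * (n + 1) + 1) := e1
      _ < 8 * (((n : ℝ) + 1) ^ 2 * (8 ^ n * (n.factorial : ℝ) ^ 2)) := by rw [e2]; gcongr
      _ = 8 ^ (n + 1) * (((n : ℝ) + 1) * n.factorial) ^ 2 := by ring

end Vale.Agent.P254.Unc
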