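import Vale.Agent.P254.Simplex

/-!
In dimension one every convex body is a simplex.
-/

open MeasureTheory Set Matrix

namespace Vale.Agent.P254

lemma isSimplex_of_dim_one {K : Set (Fin 1 → ℝ)} (hK : IsConvexBody K) : IsSimplex K := by
  obtain ⟨hconv, hcomp, hint⟩ := hK
  have hne : K.Nonempty := hint.mono interior_subset
  set s : Set ℝ := (fun x : Fin 1 → ℝ => x 0) '' K with hs
  have hcont : Continuous fun x : Fin 1 → ℝ => x 0 := continuous_apply 0
  have hsc : IsCompact s := hcomp.image hcont
  have hscon : IsConnected s :=
    ⟨hne.image _, (hconv.isPreconnected).image _ hcont.continuousOn⟩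
  have hsI := eq_Icc_of_connected_compact hscon hsc
  set a := sInf s
  set b := sSup s
  have hKmem : ∀ x : Fin 1 → ℝ, x ∈ K ↔ x 0 ∈ Icc a b := by
    intro x
    rw [← hsI, hs]
    constructor
    · intro hx; exact ⟨x, hx, rfl⟩
    · rintro ⟨y, hy, hyx⟩
      have : y = x := by
        ext i
        rw [Subsingleton.elim i 0]; exact hyx
      rwa [← this]
  have hab : a < b := by
    obtain ⟨x, hx⟩ := hint
    obtain ⟨r, hr, hball⟩ := Metric.isOpen_iff.mp isOpen_interior x hx
    have h1 : x - (fun _ => r / 2) ∈ K := by
      refine interior_subset (hball ?_)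
      rw [Metric.mem_ball, dist_eq_norm]
      have : x - (fun _ => r / 2) - x = fun _ => -(r / 2) := by ext i; simp
      rw [this, pi_norm_const, Real.norm_eq_abs, abs_neg, abs_of_pos (by positivity)]
      linarith
    have h2 := (hKmem _).1 h1
    have h3 := (hKmem x).1 (interior_subset hx)
    simp only [Pi.sub_apply, mem_Icc] at h2 h3
    linarith [h2.1, h3.2]
  have hA : (Matrix.of fun (_ _ : Fin 1) => b - a).det ≠ 0 := by
    simp
    linarith
  have : K = aff (Matrix.of fun (_ _ : Fin 1) => b - a) (fun _ => a) '' stdS 1 := by
    ext x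
    rw [hKmem]
    constructor
    · intro hx
      refine ⟨fun _ => (x 0 - a) / (b - a), ⟨fun i => ?_, ?_⟩, ?_⟩
      · have : 0 < b - a := by linarith
        have := hx.1
        show 0 ≤ (x 0 - a) / (b - a)
        apply div_nonneg <;> linarith
      · show ∑ i : Fin 1, (x 0 - a) / (b - a) ≤ 1
        simp only [Finset.univ_unique, Finset.sum_const, Finset.card_singleton, one_smul]
        rw [div_le_one (by linarith)]
        linarith [hx.2]
      · ext i
        rw [Subsingleton.elim i 0, aff_apply]
        simp only [of_apply, Finset.univ_unique, Finset.sum_const, Finset.card_singleton, one_smul]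
        have : b - a ≠ 0 := by linarith
        field_simp
        ring
    · rintro ⟨y, ⟨hy1, hy2⟩, rfl⟩
      rw [aff_apply]
      simp only [of_apply, Finset.univ_unique, Finset.sum_singleton, Fin.default_eq_zero] at *
      have h1 := hy1 0
      have hba : 0 < b - a := by linarith
      have hy2' : y 0 ≤ 1 := by simpa using hy2
      constructor
      · nlinarith
      · nlinarith
  rw [this]
  exact isSimplex_image hA _

end Vale.Agent.P254
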