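import Vale.Agent.P254.Unc.Near
import Vale.Agent.P254.Unc.DimOne
import Vale.Agent.P254.FV.Final

/-!
From the bound for a body `U` to the bodies `K` nearly filling an affine image of `U`.
-/

open MeasureTheory Set Matrix

namespace Vale.Agent.P254

variable {n : ℕ} {K U S : Set (Fin n → ℝ)}

lemma volume_pos_of_body (hK : IsConvexBody K) : 0 < (volume K).toReal :=
  ENNReal.toReal_pos ((isOpen_interior.measure_pos volume hK.2.2).trans_le
    (measure_mono interior_subset)).ne' hK.2.1.measure_ne_top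

lemma isConvexBody_aff_image {A : Matrix (Fin n) (Fin n) ℝ} (hA : A.det ≠ 0) (b : Fin n → ℝ)
    (hU : IsConvexBody U) : IsConvexBody (aff A b '' U) := by
  refine ⟨?_, isCompact_aff_image A b hU.2.1, ?_⟩
  · rw [← coe_affMap]
    exact hU.1.affine_image _
  · have hconv : Convex ℝ (aff A b '' U) := by
      rw [← coe_affMap]
      exact hU.1.affine_image _
    have hV : 0 < (volume (aff A b '' U)).toReal := by
      rw [volume_aff_image hA b hU.2.1.measurableSet]
      exact mul_pos (abs_pos.mpr hA) (volume_pos_of_body hU)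
    by_contra hne
    rw [not_nonempty_iff_eq_empty] at hne
    have h8 := hconv.addHaar_frontier (volume : Measure (Fin n → ℝ))
    rw [(isCompact_aff_image A b hU.2.1).isClosed.frontier_eq, hne, sdiff_empty] at h8
    rw [h8] at hV
    simp at hV

/-- the class of the bodies nearly filling an affine image of a body `U` with a small
isotropic constant -/
lemma isoConst_lt_of_near (hn : 2 ≤ n) (hK : IsConvexBody K) (hS : IsSimplex S)
    (hU : IsConvexBody U) {A : Matrix (Fin n) (Fin n) ℝ} (hA : A.det ≠ 0) {b : Fin n → ℝ}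
    (hKU : K ⊆ aff A b '' U)
    (hvol : 79 / 80 * (volume (aff A b '' U)).toReal ≤ (volume K).toReal)
    (hnum : ((n : ℝ) + 1) ^ (2 * n + 1) * (80 / 79) ^ (n + 2) < 8 ^ n * (n.factorial : ℝ) ^ 2)
    (hbody : (covMatrix U).det / (volume U).toReal ^ 2 ≤ (((n : ℝ) + 1) / (8 * (n + 2))) ^ n) :
    isoConst K < isoConst S := by
  have hn0 : 0 < n := by omega
  have hV := volume_pos_of_body hK
  have hVU := volume_pos_of_body hU
  set U' := aff A b '' U with hU'
  have hUb : IsConvexBody U' := isConvexBody_aff_image hA b hU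
  have hVU' := volume_pos_of_body hUb
  have h1 := det_cov_le_of_subset hn0 hK.2.1 hV hUb hKU
  have h2 : (covMatrix U').det / (volume U').toReal ^ 2
      = (covMatrix U).det / (volume U).toReal ^ 2 := by
    rw [hU', cov_aff_image hA b hU.2.1 hVU.ne', volume_aff_image hA b hU.2.1.measurableSet,
      det_mul, det_mul, det_transpose, mul_pow, sq_abs]
    field_simp
  set V := (volume K).toReal with hVd
  set W := (volume U').toReal with hWd
  have hr : W / V ≤ 80 / 79 := by
    rw [div_le_iff₀ hV]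
    linarith
  have hr0 : 0 < W / V := div_pos hVU' hV
  have hdU : 0 ≤ (covMatrix U').det / W ^ 2 :=
    div_nonneg (covMatrix_posSemidef hUb.2.1).det_nonneg (by positivity)
  have h3 : (covMatrix K).det / V ^ 2 ≤ (W / V) ^ (n + 2) * ((covMatrix U').det / W ^ 2) := by
    rw [div_le_iff₀ (by positivity)]
    refine h1.trans (le_of_eq ?_)
    rw [pow_add]
    field_simp
  have h4 : (covMatrix K).det / V ^ 2
      ≤ (80 / 79) ^ (n + 2) * (((n : ℝ) + 1) / (8 * (n + 2))) ^ n := by
    refine h3.trans ?_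
    rw [h2] at hdU ⊢
    exact mul_le_mul (pow_le_pow_left₀ hr0.le hr _) hbody hdU (by positivity)
  have h5 : ∀ θ : ℝ, ((n : ℝ) + 1) ^ (2 * n + 1) * θ < 8 ^ n * (n.factorial : ℝ) ^ 2 →
      θ * (((n : ℝ) + 1) / (8 * (n + 2))) ^ n < FV.simpC n := by
    intro θ hθ
    unfold FV.simpC
    rw [div_pow, mul_pow, mul_pow, lt_div_iff₀ (by positivity), ← mul_div_assoc,
      div_mul_eq_mul_div, div_lt_iff₀ (by positivity)]
    have e1 : θ * ((n : ℝ) + 1) ^ n
        * (((n : ℝ) + 1) * (((n : ℝ) + 1) ^ n * ((n : ℝ) + 2) ^ n))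
        = ((n : ℝ) + 1) ^ (2 * n + 1) * θ * ((n : ℝ) + 2) ^ n := by
      ring
    have e2 : (n.factorial : ℝ) ^ 2 * (8 ^ n * ((n : ℝ) + 2) ^ n)
        = 8 ^ n * (n.factorial : ℝ) ^ 2 * ((n : ℝ) + 2) ^ n := by ring
    rw [e1, e2]
    exact mul_lt_mul_of_pos_right hθ (by positivity)
  rw [isoConst_simplex hS, isoConst, isoConst, FV.det_simplex (by omega)]
  have hn' : (0 : ℝ) < n := by exact_mod_cast hn0
  exact Real.rpow_lt_rpow (div_nonneg (covMatrix_posSemidef hK.2.1).det_nonneg (by positivity))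
    (h4.trans_lt (h5 _ hnum)) (by positivity)

/-- The strong isotropic constant conjecture with its equality case. -/
theorem conj_of_near (hn : 1 ≤ n) (hK : IsConvexBody K) (hS : IsSimplex S)
    (hU : IsConvexBody U) {A : Matrix (Fin n) (Fin n) ℝ} (hA : A.det ≠ 0) {b : Fin n → ℝ}
    (hKU : K ⊆ aff A b '' U)
    (hvol : 79 / 80 * (volume (aff A b '' U)).toReal ≤ (volume K).toReal)
    (hnum : 2 ≤ n →
      ((n : ℝ) + 1) ^ (2 * n + 1) * (80 / 79) ^ (n + 2) < 8 ^ n * (n.factorial : ℝ) ^ 2)
    (hbody : (covMatrix U).det / (volume U).toReal ^ 2 ≤ (((n : ℝ) + 1) / (8 * (n + 2))) ^ n) :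
    isoConst K ≤ isoConst S ∧ (isoConst K = isoConst S ↔ IsSimplex K) := by
  rcases Nat.lt_or_ge n 2 with h | h
  · have h1 : n = 1 := by omega
    subst h1
    have hKs := isSimplex_of_dim_one hK
    have e : isoConst K = isoConst S := by rw [isoConst_simplex hKs, isoConst_simplex hS]
    exact ⟨e.le, fun _ => hKs, fun _ => e⟩
  · have hlt := isoConst_lt_of_near h hK hS hU hA hKU hvol (hnum h) hbody
    refine ⟨hlt.le, fun h' => absurd h' hlt.ne, fun h' => ?_⟩
    rw [isoConst_simplex h', isoConst_simplex hS]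

end Vale.Agent.P254
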