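import Vale.Agent.P254.Unc.FinBody
import Vale.Agent.P254.Unc.Num
import Vale.Agent.P254.Unc.Stab

/-!
The strong isotropic constant conjecture for the unconditional bodies and for the bodies nearly
filling an unconditional body.
-/

open MeasureTheory Set Matrix

namespace Vale.Agent.P254

open Unc

theorem top_near {n : ℕ} (hUNC : UNCR n) (hn : 1 ≤ n) {K S : Set (Fin n → ℝ)}
    (hK : IsConvexBody K) (hS : IsSimplex S)
    (h : ∃ (A : Matrix (Fin n) (Fin n) ℝ) (b : Fin n → ℝ) (U : Set (Fin n → ℝ)), A.det ≠ 0 ∧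
      IsConvexBody U ∧ Uncond U ∧ K ⊆ (fun x => A *ᵥ x + b) '' U ∧
      79 / 80 * (volume ((fun x => A *ᵥ x + b) '' U)).toReal ≤ (volume K).toReal) :
    isoConst K ≤ isoConst S ∧ (isoConst K = isoConst S ↔ IsSimplex K) ∧
      (2 ≤ n → isoConst K < isoConst S) := by
  obtain ⟨A, b, U, hA, hU, hu, hKU, hvol⟩ := h
  obtain ⟨h1, h2⟩ := conj_of_near hn hK hS hU hA hKU hvol (fun h => pow_lt_factorial' h)
    (unc_body hUNC hU hu)
  exact ⟨h1, h2, fun h => isoConst_lt_of_near h hK hS hU hA hKU hvol (pow_lt_factorial' h)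
    (unc_body hUNC hU hu)⟩

theorem top_uncond {n : ℕ} (hUNC : UNCR n) (hn : 1 ≤ n) {K : Set (Fin n → ℝ)}
    (h : ∃ (A : Matrix (Fin n) (Fin n) ℝ) (b : Fin n → ℝ) (U : Set (Fin n → ℝ)), A.det ≠ 0 ∧
      IsConvexBody U ∧ Uncond U ∧ K = (fun x => A *ᵥ x + b) '' U) :
    isoConst K ≤ Real.sqrt (((n : ℝ) + 1) / (8 * ((n : ℝ) + 2))) := by
  obtain ⟨A, b, U, hA, hU, hu, rfl⟩ := h
  have e : isoConst ((fun x => A *ᵥ x + b) '' U) = isoConst U :=
    isoConst_aff_image hA b hU.2.1 (volume_pos_of_body hU).ne'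
  rw [e]
  have h1 := unc_body hUNC hU hu
  have hn0 : (0 : ℝ) < n := by exact_mod_cast hn
  have hd : 0 ≤ (covMatrix U).det / (volume U).toReal ^ 2 :=
    div_nonneg (covMatrix_posSemidef hU.2.1).det_nonneg (by positivity)
  have hc : (0 : ℝ) ≤ ((n : ℝ) + 1) / (8 * ((n : ℝ) + 2)) := by positivity
  rw [isoConst, Real.sqrt_eq_rpow]
  refine (Real.rpow_le_rpow hd h1 (by positivity)).trans (le_of_eq ?_)
  rw [← Real.rpow_natCast, ← Real.rpow_mul hc]
  congr 1
  field_simp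

end Vale.Agent.P254
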