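import Vale.Agent.P254.Unc.BM

/-! P254, unconditional bodies: a sharp inequality between the first two moments of a coordinate. -/

open MeasureTheory Set
open scoped ENNReal NNReal Pointwise Interval

namespace Vale.Agent.P254.Unc

section Layer

variable {α : Type*} [MeasurableSpace α] (μ : Measure α) [IsFiniteMeasure μ]

theorem antitone_meas_le (f : α → ℝ) : Antitone fun t : ℝ => μ.real {a | t ≤ f a} := by
  intro s t hst
  exact measureReal_mono (fun a (ha : t ≤ f a) => hst.trans ha)

theorem layer {f : α → ℝ} (hf : Measurable f) (h0 : ∀ᵐ x ∂μ, 0 ≤ f x) {M : ℝ}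
    (hM : ∀ᵐ x ∂μ, f x ≤ M) (hM0 : 0 ≤ M) {g : ℝ → ℝ} (hg : Continuous g)
    (hg0 : ∀ t, 0 ≤ t → 0 ≤ g t) :
    ∫ x, (∫ t in (0 : ℝ)..f x, g t) ∂μ = ∫ t in (0 : ℝ)..M, g t * μ.real {a | t ≤ f a} := by
  have key := lintegral_comp_eq_lintegral_meas_le_mul μ h0 hf.aemeasurable
    (g := g) (fun t _ => hg.intervalIntegrable 0 t)
    (by
      filter_upwards [ae_restrict_mem measurableSet_Ioi] with t ht
      exact hg0 t (le_of_lt ht))
  have hG : Continuous fun x : ℝ => ∫ t in (0 : ℝ)..x, g t :=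
    intervalIntegral.continuous_primitive (fun a b => hg.intervalIntegrable a b) 0
  rw [integral_eq_lintegral_of_nonneg_ae (by
      filter_upwards [h0] with x hx
      exact intervalIntegral.integral_nonneg hx fun t ht => hg0 t ht.1)
    (show AEStronglyMeasurable (fun x => ∫ t in (0 : ℝ)..f x, g t) μ from
      (hG.measurable.comp hf).aestronglyMeasurable), key, intervalIntegral.integral_of_le hM0]
  have hmeas : Measurable fun t : ℝ => g t * μ.real {a | t ≤ f a} :=
    hg.measurable.mul (antitone_meas_le μ f).measurable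
  rw [integral_eq_lintegral_of_nonneg_ae (by
      filter_upwards [ae_restrict_mem measurableSet_Ioc] with t ht
      exact mul_nonneg (hg0 t ht.1.le) measureReal_nonneg) hmeas.aestronglyMeasurable]
  congr 1
  have h1 : ∫⁻ t in Ioi (0 : ℝ), μ {a : α | t ≤ f a} * ENNReal.ofReal (g t) =
      ∫⁻ t in Ioc (0 : ℝ) M, μ {a : α | t ≤ f a} * ENNReal.ofReal (g t) := by
    rw [← lintegral_indicator measurableSet_Ioi, ← lintegral_indicator measurableSet_Ioc]
    congr 1
    funext t
    by_cases ht : t ∈ Ioc (0 : ℝ) M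
    · rw [indicator_of_mem ht, indicator_of_mem (show t ∈ Ioi (0 : ℝ) from ht.1)]
    · rw [indicator_of_notMem ht]
      by_cases ht0 : t ∈ Ioi (0 : ℝ)
      · rw [indicator_of_mem ht0]
        have hMt : M < t := by
          by_contra hlt
          exact ht ⟨ht0, not_lt.1 hlt⟩
        have : μ {a : α | t ≤ f a} = 0 := by
          refine measure_mono_null (t := {a | ¬ f a ≤ M}) ?_ (ae_iff.1 hM)
          intro a (ha : t ≤ f a)
          exact not_le.2 (hMt.trans_le ha)
        rw [this, zero_mul]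
      · rw [indicator_of_notMem ht0]
  rw [h1]
  refine lintegral_congr_ae ?_
  filter_upwards [ae_restrict_mem measurableSet_Ioc] with t ht
  rw [mul_comm, ENNReal.ofReal_mul (hg0 t ht.1.le)]
  congr 1
  exact (ENNReal.ofReal_toReal (measure_ne_top μ _)).symm

end Layer

/-- comparison of first moments, one crossing. -/
theorem crossing {F H : ℝ → ℝ} {M : ℝ} (hM : 0 ≤ M) (hF : IntervalIntegrable F volume 0 M)
    (hH : IntervalIntegrable H volume 0 M)
    (hcross : ∀ s t, 0 < s → s < t → t ≤ M → H t < F t → H s ≤ F s)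
    (heq : ∫ t in (0 : ℝ)..M, F t = ∫ t in (0 : ℝ)..M, H t) :
    ∫ t in (0 : ℝ)..M, t * F t ≤ ∫ t in (0 : ℝ)..M, t * H t := by
  set S : Set ℝ := {t | 0 < t ∧ t ≤ M ∧ H t < F t} with hS
  set t₀ := sSup S with ht₀
  have hbdd : BddAbove S := ⟨M, fun t ht => ht.2.1⟩
  have hpt : ∀ t ∈ Ioo (0 : ℝ) M, (t - t₀) * (F t - H t) ≤ 0 := by
    intro t ht
    rcases lt_or_ge t t₀ with h1 | h1
    · have hne : S.Nonempty := by
        by_contra hne
        rw [not_nonempty_iff_eq_empty] at hne
        rw [ht₀, hne, Real.sSup_empty] at h1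
        exact absurd ht.1 (not_lt.2 h1.le)
      obtain ⟨t', ht', htt'⟩ := exists_lt_of_lt_csSup hne h1
      have := hcross t t' ht.1 htt' ht'.2.1 ht'.2.2
      exact mul_nonpos_of_nonpos_of_nonneg (by linarith) (by linarith)
    · rcases eq_or_lt_of_le h1 with h2 | h2
      · rw [h2]
        simp
      · have h3 : F t ≤ H t := by
          by_contra hlt
          push Not at hlt
          have : t ∈ S := ⟨ht.1, ht.2.le, hlt⟩
          exact absurd (le_csSup hbdd this) (not_le.2 h2)
        exact mul_nonpos_of_nonneg_of_nonpos (by linarith) (by linarith)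
  have hcF : IntervalIntegrable (fun t => t * F t) volume 0 M :=
    hF.continuousOn_mul continuousOn_id
  have hcH : IntervalIntegrable (fun t => t * H t) volume 0 M :=
    hH.continuousOn_mul continuousOn_id
  have h1 : ∫ t in (0 : ℝ)..M, (t - t₀) * (F t - H t) ≤ 0 := by
    have h2 : ∫ t in (0 : ℝ)..M, (t - t₀) * (F t - H t) ≤ ∫ t in (0 : ℝ)..M, (0 : ℝ) := by
      refine intervalIntegral.integral_mono_on_of_le_Ioo hM ?_ (by simp) hpt
      exact (hF.sub hH).continuousOn_mul (continuousOn_id.sub continuousOn_const)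
    simpa using h2
  have h3 : ∫ t in (0 : ℝ)..M, (t - t₀) * (F t - H t) =
      (∫ t in (0 : ℝ)..M, t * F t) - (∫ t in (0 : ℝ)..M, t * H t) := by
    have e1 : (fun t => (t - t₀) * (F t - H t)) =
        fun t => (t * F t - t * H t) - t₀ * (F t - H t) := by
      funext t
      ring
    rw [e1, intervalIntegral.integral_sub (hcF.sub hcH) ((hF.sub hH).const_mul t₀),
      intervalIntegral.integral_sub hcF hcH, intervalIntegral.integral_const_mul,
      intervalIntegral.integral_sub hF hH, heq]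
    ring
  linarith

/-- the comparison function. -/
noncomputable def cmp (V b : ℝ) (n : ℕ) (t : ℝ) : ℝ := V * (max 0 (1 - t / b)) ^ n

theorem cmp_continuous (V b : ℝ) (n : ℕ) : Continuous (cmp V b n) := by
  unfold cmp
  fun_prop

theorem cmp_of_le {V b t : ℝ} (hb : 0 < b) (h : t ≤ b) (n : ℕ) :
    cmp V b n t = V * (1 - t / b) ^ n := by
  unfold cmp
  rw [max_eq_right]
  have : t / b ≤ 1 := (div_le_one hb).2 h
  linarith

theorem cmp_of_ge {V b t : ℝ} (hb : 0 < b) (h : b ≤ t) {n : ℕ} (hn : n ≠ 0) :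
    cmp V b n t = 0 := by
  unfold cmp
  rw [max_eq_left, zero_pow hn, mul_zero]
  have : 1 ≤ t / b := (one_le_div hb).2 h
  linarith

theorem integral_cmp {V b M : ℝ} (hb : 0 < b) (hbM : b ≤ M) {n : ℕ} (hn : n ≠ 0) :
    ∫ t in (0 : ℝ)..M, cmp V b n t = V * b / (n + 1) := by
  have hc := cmp_continuous V b n
  rw [← intervalIntegral.integral_add_adjacent_intervals (hc.intervalIntegrable 0 b)
    (hc.intervalIntegrable b M)]
  have h1 : ∫ t in b..M, cmp V b n t = 0 := by
    rw [intervalIntegral.integral_congr (g := fun _ => (0 : ℝ)) (fun t ht => ?_)]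
    · simp
    · rw [uIcc_of_le hbM] at ht
      exact cmp_of_ge hb ht.1 hn
  have h2 : ∫ t in (0 : ℝ)..b, cmp V b n t = ∫ t in (0 : ℝ)..b, V * (1 - t / b) ^ n := by
    refine intervalIntegral.integral_congr (fun t ht => ?_)
    rw [uIcc_of_le hb.le] at ht
    exact cmp_of_le hb ht.2 n
  have hn1 : ((n : ℝ) + 1) ≠ 0 := by positivity
  have h3 : ∀ t ∈ uIcc (0 : ℝ) b,
      HasDerivAt (fun t => -(V * b / (n + 1)) * (1 - t / b) ^ (n + 1)) (V * (1 - t / b) ^ n) t := by
    intro t _
    have hd : HasDerivAt (fun t : ℝ => 1 - t / b) (-(1 / b)) t := by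
      have := ((hasDerivAt_id t).div_const b).const_sub 1
      simpa using this
    refine ((hd.pow (n + 1)).const_mul (-(V * b / (n + 1)))).congr_deriv ?_
    rw [Nat.add_sub_cancel]
    push_cast
    field_simp
  rw [h1, h2, intervalIntegral.integral_eq_sub_of_hasDerivAt h3
    ((by fun_prop : Continuous fun t : ℝ => V * (1 - t / b) ^ n).intervalIntegrable 0 b),
    div_self hb.ne']
  simp

theorem integral_mul_cmp {V b M : ℝ} (hb : 0 < b) (hbM : b ≤ M) {n : ℕ} (hn : n ≠ 0) :
    ∫ t in (0 : ℝ)..M, t * cmp V b n t = V * b ^ 2 / ((n + 1) * (n + 2)) := by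
  have hc : Continuous fun t => t * cmp V b n t := continuous_id.mul (cmp_continuous V b n)
  rw [← intervalIntegral.integral_add_adjacent_intervals (hc.intervalIntegrable 0 b)
    (hc.intervalIntegrable b M)]
  have h1 : ∫ t in b..M, t * cmp V b n t = 0 := by
    rw [intervalIntegral.integral_congr (g := fun _ => (0 : ℝ)) (fun t ht => ?_)]
    · simp
    · rw [uIcc_of_le hbM] at ht
      show t * cmp V b n t = 0
      rw [cmp_of_ge hb ht.1 hn, mul_zero]
  have h2 : ∫ t in (0 : ℝ)..b, t * cmp V b n t =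
      ∫ t in (0 : ℝ)..b, t * (V * (1 - t / b) ^ n) := by
    refine intervalIntegral.integral_congr (fun t ht => ?_)
    rw [uIcc_of_le hb.le] at ht
    show t * cmp V b n t = _
    rw [cmp_of_le hb ht.2 n]
  have hn1 : ((n : ℝ) + 1) ≠ 0 := by positivity
  have hn2 : ((n : ℝ) + 2) ≠ 0 := by positivity
  -- `t = b - b (1 - t / b)`
  have h3 : ∀ t ∈ uIcc (0 : ℝ) b,
      HasDerivAt (fun t => -(V * b ^ 2 / (n + 1)) * (1 - t / b) ^ (n + 1) +
        (V * b ^ 2 / (n + 2)) * (1 - t / b) ^ (n + 2)) (t * (V * (1 - t / b) ^ n)) t := by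
    intro t _
    have hd : HasDerivAt (fun t : ℝ => 1 - t / b) (-(1 / b)) t := by
      have := ((hasDerivAt_id t).div_const b).const_sub 1
      simpa using this
    have h4 := (hd.pow (n + 1)).const_mul (-(V * b ^ 2 / (n + 1)))
    have h5 := (hd.pow (n + 2)).const_mul (V * b ^ 2 / (n + 2))
    refine (h4.add h5).congr_deriv ?_
    have hu : t = b * (1 - (1 - t / b)) := by field_simp; ring
    rw [Nat.add_sub_cancel, show n + 2 - 1 = n + 1 from rfl, pow_succ]
    push_cast
    generalize 1 - t / b = u at hu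
    subst hu
    field_simp
    ring
  rw [h1, h2, intervalIntegral.integral_eq_sub_of_hasDerivAt h3
    ((by fun_prop : Continuous fun t : ℝ => t * (V * (1 - t / b) ^ n)).intervalIntegrable 0 b),
    div_self hb.ne']
  simp
  field_simp
  ring

/-- **Berwald's inequality** for a coordinate of a convex body in a half space. -/
theorem berwald {n : ℕ} {K : Set (Fin n → ℝ)} (hc : Convex ℝ K) (hK : IsCompact K) (k : Fin n)
    (h0 : ∀ x ∈ K, 0 ≤ x k) :
    (volume K).toReal * ∫ x in K, x k ^ 2 ≤ 2 * (n + 1) / (n + 2) * (∫ x in K, x k) ^ 2 := by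
  have hn : 0 < n := Fin.pos k
  have hn0 : n ≠ 0 := hn.ne'
  set μ : Measure (Fin n → ℝ) := volume.restrict K with hμ
  have : IsFiniteMeasure μ := ⟨by rw [hμ, Measure.restrict_apply_univ]; exact hK.measure_lt_top⟩
  have hf : Measurable fun x : Fin n → ℝ => x k := measurable_pi_apply k
  have h0' : ∀ᵐ x ∂μ, 0 ≤ x k := by
    filter_upwards [ae_restrict_mem hK.measurableSet] with x hx
    exact h0 x hx
  set V := (volume K).toReal with hV
  have hV0 : 0 ≤ V := ENNReal.toReal_nonneg
  obtain ⟨M₁, hM₁⟩ : ∃ M₁ : ℝ, ∀ x ∈ K, x k ≤ M₁ := by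
    obtain ⟨M₁, hM₁⟩ := (hK.image (continuous_apply k)).bddAbove
    exact ⟨M₁, fun x hx => hM₁ ⟨x, hx, rfl⟩⟩
  set m := ∫ x in K, x k with hm
  have hm0 : 0 ≤ m := setIntegral_nonneg hK.measurableSet h0
  rcases eq_or_lt_of_le hm0 with hm1 | hm1
  · -- the coordinate vanishes almost everywhere
    have hint : Integrable (fun x : Fin n → ℝ => x k) μ :=
      (continuous_apply k).continuousOn.integrableOn_compact hK
    have h1 : (fun x : Fin n → ℝ => x k) =ᵐ[μ] 0 :=
      (integral_eq_zero_iff_of_nonneg_ae h0' hint).1 hm1.symm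
    have h2 : ∫ x in K, x k ^ 2 = 0 := by
      refine integral_eq_zero_of_ae ?_
      filter_upwards [h1] with x hx
      simp only [Pi.zero_apply] at hx ⊢
      rw [hx]
      simp
    rw [h2, mul_zero]
    positivity
  rcases eq_or_lt_of_le hV0 with hV1 | hV1
  · rw [← hV1, zero_mul]
    positivity
  set b := (n + 1) * m / V with hb
  have hbpos : 0 < b := by positivity
  set M := max b M₁ with hM
  have hbM : b ≤ M := le_max_left _ _
  have hM0 : 0 ≤ M := hbpos.le.trans hbM
  have hMx : ∀ᵐ x ∂μ, x k ≤ M := by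
    filter_upwards [ae_restrict_mem hK.measurableSet] with x hx
    exact (hM₁ x hx).trans (le_max_right _ _)
  set F : ℝ → ℝ := fun t => μ.real {x : Fin n → ℝ | t ≤ x k} with hF
  have e1 : m = ∫ t in (0 : ℝ)..M, F t := by
    have := layer μ hf h0' hMx hM0 (g := fun _ => 1) continuous_const (fun _ _ => zero_le_one)
    simp only [intervalIntegral.integral_const, smul_eq_mul, mul_one, sub_zero, one_mul] at this
    exact this
  have e2 : ∫ x in K, x k ^ 2 = ∫ t in (0 : ℝ)..M, 2 * (t * F t) := by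
    have := layer μ hf h0' hMx hM0 (g := fun t => 2 * t) (by fun_prop)
      (fun t ht => by positivity)
    have e3 : ∀ x : Fin n → ℝ, ∫ t in (0 : ℝ)..x k, 2 * t = x k ^ 2 := by
      intro x
      rw [intervalIntegral.integral_const_mul, integral_id]
      ring
    simp only [e3] at this
    rw [this]
    exact intervalIntegral.integral_congr fun t _ => by ring
  have hFint : IntervalIntegrable F volume 0 M := (antitone_meas_le μ _).intervalIntegrable
  have hHint : IntervalIntegrable (cmp V b n) volume 0 M :=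
    (cmp_continuous V b n).intervalIntegrable 0 M
  have hFv : ∀ t, F t = (volume (K ∩ {x : Fin n → ℝ | t ≤ x k})).toReal := by
    intro t
    show (μ {x : Fin n → ℝ | t ≤ x k}).toReal = _
    have h1 : MeasurableSet {x : Fin n → ℝ | t ≤ x k} := hf measurableSet_Ici
    rw [hμ, Measure.restrict_apply h1, inter_comm]
  have hcl : ∀ t, MeasurableSet (K ∩ {x : Fin n → ℝ | t ≤ x k}) := fun t =>
    hK.measurableSet.inter (hf measurableSet_Ici)
  have hroot : ∀ y : ℝ, 0 ≤ y → ∃ c : ℝ, 0 ≤ c ∧ y = c ^ n := fun y hy =>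
    ⟨y ^ ((n : ℝ)⁻¹), Real.rpow_nonneg hy _, (Real.rpow_inv_natCast_pow hy hn0).symm⟩
  obtain ⟨v, hv0, hv⟩ := hroot V hV0
  have hvpos : 0 < v := by
    rcases eq_or_lt_of_le hv0 with h | h
    · rw [← h, zero_pow hn0] at hv
      exact absurd hv hV1.ne'
    · exact h
  have hcross : ∀ s t, 0 < s → s < t → t ≤ M → cmp V b n t < F t → cmp V b n s ≤ F s := by
    intro s t hs hst _ hlt
    obtain ⟨a, ha0, ha⟩ := hroot (F t) measureReal_nonneg
    obtain ⟨c, hc0, hc'⟩ := hroot (F s) measureReal_nonneg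
    have ht : 0 < t := hs.trans hst
    have hcmp : ∀ r, cmp V b n r = (v * max 0 (1 - r / b)) ^ n := by
      intro r
      unfold cmp
      rw [hv, mul_pow]
    rw [hcmp, ha] at hlt
    have hlt' : v * max 0 (1 - t / b) < a := lt_of_pow_lt_pow_left₀ n ha0 hlt
    have ha1 : 0 < a := lt_of_le_of_lt (mul_nonneg hv0 (le_max_left _ _)) hlt'
    set l := s / t with hl
    have hl0 : 0 < l := div_pos hs ht
    have hl1 : l < 1 := (div_lt_one ht).2 hst
    have key := bm_add hn (A := l • (K ∩ {x : Fin n → ℝ | t ≤ x k})) (B := (1 - l) • K)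
      (C := K ∩ {x : Fin n → ℝ | s ≤ x k}) ((hcl t).const_smul₀ l)
      (hK.measurableSet.const_smul₀ _) (hcl s) (a := l * a) (b := (1 - l) * v) (c := c)
      (mul_pos hl0 ha1) (mul_pos (by linarith) hvpos) hc0
      (by rw [volume_smul_real hl0, ← hFv, ha, mul_pow])
      (by rw [volume_smul_real (by linarith), ← hV, hv, mul_pow])
      (by rw [← hFv, hc'])
      (ne_top_of_le_ne_top hK.measure_lt_top.ne (measure_mono inter_subset_left))
      (by
        rintro _ ⟨x, ⟨hx, hxt⟩, rfl⟩ _ ⟨y, hy, rfl⟩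
        refine ⟨hc hx hy hl0.le (by linarith) (by ring), ?_⟩
        show s ≤ l * x k + (1 - l) * y k
        have h3 : l * t ≤ l * x k := mul_le_mul_of_nonneg_left hxt hl0.le
        have h4 : l * t = s := div_mul_cancel₀ s ht.ne'
        have h5 : 0 ≤ (1 - l) * y k := mul_nonneg (by linarith) (h0 y hy)
        linarith)
    rw [hcmp, hc']
    refine pow_le_pow_left₀ (mul_nonneg hv0 (le_max_left _ _)) ?_ n
    rw [mul_max_of_nonneg _ _ hv0, mul_zero]
    refine max_le hc0 ?_
    have h6 : v * (1 - t / b) ≤ a :=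
      (mul_le_mul_of_nonneg_left (le_max_right _ _) hv0).trans hlt'.le
    have h7 : l * (v * (1 - t / b)) ≤ l * a := mul_le_mul_of_nonneg_left h6 hl0.le
    have h8 : v * (1 - s / b) = l * (v * (1 - t / b)) + (1 - l) * v := by
      rw [← div_mul_cancel₀ s ht.ne', ← hl]
      ring
    linarith
  have heq : ∫ t in (0 : ℝ)..M, F t = ∫ t in (0 : ℝ)..M, cmp V b n t := by
    rw [← e1, integral_cmp hbpos hbM hn0, hb]
    field_simp
  have hfin := crossing hM0 hFint hHint hcross heq
  rw [integral_mul_cmp hbpos hbM hn0] at hfin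
  rw [e2, intervalIntegral.integral_const_mul]
  have h9 : V * (2 * ∫ t in (0 : ℝ)..M, t * F t) ≤
      V * (2 * (V * b ^ 2 / ((n + 1) * (n + 2)))) :=
    mul_le_mul_of_nonneg_left (by linarith) hV0
  refine h9.trans (le_of_eq ?_)
  rw [hb]
  field_simp

end Vale.Agent.P254.Unc
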