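import Vale.Agent.P254.Unc.FinDefs
import Vale.Agent.P254.Unc.Ber

/-!
P254, unconditional bodies: the volume inequality `UNCR` and the inequality of Berwald between the
first two moments give the bound `L_K ^ 2 ≤ (n + 1) / (8 (n + 2))` for all unconditional convex
bodies.
-/

open MeasureTheory Set

namespace Vale.Agent.P254.Unc

variable {n : ℕ}

namespace FB

/-- Change of the sign of the coordinate `j`. -/
def refl (j : Fin n) (x : Fin n → ℝ) : Fin n → ℝ := fun i => if i = j then -x i else x i

lemma refl_self (j : Fin n) (x : Fin n → ℝ) : refl j x j = -x j := by simp [refl]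

lemma refl_ne {i j : Fin n} (h : i ≠ j) (x : Fin n → ℝ) : refl j x i = x i := by simp [refl, h]

lemma refl_refl (j : Fin n) (x : Fin n → ℝ) : refl j (refl j x) = x := by
  funext i
  by_cases h : i = j <;> simp [refl, h]

lemma refl_abs (j i : Fin n) (x : Fin n → ℝ) : |refl j x i| = |x i| := by
  by_cases h : i = j <;> simp [refl, h]

lemma refl_cont (j : Fin n) : Continuous (refl j) := by
  refine continuous_pi fun i => ?_
  by_cases h : i = j
  · simp only [refl, h, if_true]; fun_prop
  · simp only [refl, h, if_false]; fun_prop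

/-- The reflection as a homeomorphism. -/
def reflH (j : Fin n) : (Fin n → ℝ) ≃ₜ (Fin n → ℝ) where
  toFun := refl j
  invFun := refl j
  left_inv := refl_refl j
  right_inv := refl_refl j
  continuous_toFun := refl_cont j
  continuous_invFun := refl_cont j

lemma refl_mp (j : Fin n) : MeasurePreserving (refl j) (volume : Measure (Fin n → ℝ)) volume := by
  have h : ∀ i : Fin n, MeasurePreserving (fun t : ℝ => if i = j then -t else t) volume volume := by
    intro i
    by_cases hi : i = j
    · simp only [hi, if_true]; exact Measure.measurePreserving_neg volume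
    · simp only [hi, if_false]; exact MeasurePreserving.id volume
  exact volume_preserving_pi h

lemma refl_int (j : Fin n) (K : Set (Fin n → ℝ)) (f : (Fin n → ℝ) → ℝ) :
    ∫ x in refl j ⁻¹' K, f (refl j x) = ∫ x in K, f x :=
  (refl_mp j).setIntegral_preimage_emb (reflH j).measurableEmbedding f K

lemma half {K : Set (Fin n → ℝ)} (j : Fin n) (hs : refl j ⁻¹' K = K)
    {f : (Fin n → ℝ) → ℝ} (hf : IntegrableOn f K) (hfs : ∀ x, f (refl j x) = f x) :
    ∫ x in K, f x = 2 * ∫ x in K ∩ {x | 0 ≤ x j}, f x := by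
  have hH : MeasurableSet {x : Fin n → ℝ | 0 ≤ x j} :=
    measurableSet_le measurable_const (measurable_pi_apply j)
  have h1 := integral_inter_add_sdiff hH hf
  have h2 : ∫ x in K \ {x : Fin n → ℝ | 0 ≤ x j}, f x = ∫ x in K ∩ {x | 0 ≤ x j}, f x := by
    have e : K \ {x : Fin n → ℝ | 0 ≤ x j} = refl j ⁻¹' (K ∩ {x | 0 < x j}) := by
      ext x
      have hx : refl j x ∈ K ↔ x ∈ K := by
        rw [← mem_preimage, hs]
      simp only [mem_sdiff, mem_ofPred_eq, not_le, mem_preimage, mem_inter_iff, hx, refl_self,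
        Left.neg_pos_iff]
    rw [e]
    have h3 := refl_int j (K ∩ {x | 0 < x j}) f
    simp_rw [hfs] at h3
    rw [h3]
    refine setIntegral_congr_set ?_
    have hnull : volume {x : Fin n → ℝ | x j = 0} = 0 := by
      rw [volume_pi]
      exact Measure.pi_hyperplane _ _ _
    have h4 : ({x : Fin n → ℝ | 0 < x j} : Set (Fin n → ℝ)) =ᵐ[volume] {x | 0 ≤ x j} := by
      filter_upwards [compl_mem_ae_iff.2 hnull] with x hx
      have hx' : x j ≠ 0 := hx
      exact propext ⟨fun h => le_of_lt h, fun h => lt_of_le_of_ne h hx'.symm⟩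
    exact Filter.EventuallyEq.rfl.inter h4
  rw [← h1, h2]
  ring

lemma reduct {K : Set (Fin n → ℝ)} (hs : ∀ j, refl j ⁻¹' K = K)
    {f : (Fin n → ℝ) → ℝ} (hf : IntegrableOn f K) (hfs : ∀ j x, f (refl j x) = f x)
    (S : Finset (Fin n)) :
    ∫ x in K, f x = 2 ^ S.card * ∫ x in K ∩ {x | ∀ i ∈ S, 0 ≤ x i}, f x := by
  classical
  induction S using Finset.induction_on with
  | empty => simp
  | insert j S hj ih =>
    rw [ih, Finset.card_insert_of_notMem hj]
    have hinv : refl j ⁻¹' (K ∩ {x | ∀ i ∈ S, 0 ≤ x i}) = K ∩ {x | ∀ i ∈ S, 0 ≤ x i} := by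
      ext x
      have hx : refl j x ∈ K ↔ x ∈ K := by
        rw [← mem_preimage, hs]
      simp only [mem_preimage, mem_inter_iff, hx, mem_ofPred_eq]
      refine and_congr_right fun _ => forall₂_congr fun i hi => ?_
      have hne : i ≠ j := by
        rintro rfl
        exact hj hi
      rw [refl_ne hne]
    have h1 := half j hinv (hf.mono_set inter_subset_left) (hfs j)
    rw [h1]
    have e : K ∩ {x : Fin n → ℝ | ∀ i ∈ S, 0 ≤ x i} ∩ {x | 0 ≤ x j} =
        K ∩ {x | ∀ i ∈ insert j S, 0 ≤ x i} := by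
      ext x
      simp only [mem_inter_iff, mem_ofPred_eq, Finset.forall_mem_insert]
      tauto
    rw [e]
    ring

section Sym

variable {K : Set (Fin n → ℝ)}

lemma sym_refl (hu : Uncond K) (j : Fin n) : refl j ⁻¹' K = K := by
  ext x
  constructor
  · intro h
    exact hu _ h x fun i => (refl_abs j i x).symm
  · intro h
    exact hu _ h _ fun i => refl_abs j i x

lemma update_mem (hc : Convex ℝ K) (hu : Uncond K) {x : Fin n → ℝ} (hx : x ∈ K) (j : Fin n)
    {t : ℝ} (ht : |t| ≤ |x j|) : Function.update x j t ∈ K := by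
  by_cases h0 : x j = 0
  · rw [h0, abs_zero, abs_nonpos_iff] at ht
    rw [ht, ← h0, Function.update_eq_self]
    exact hx
  · set s : ℝ := t / x j with hs
    have hs1 : |s| ≤ 1 := by
      rw [hs, abs_div]
      exact div_le_one_of_le₀ ht (abs_nonneg _)
    rw [abs_le] at hs1
    have hr : refl j x ∈ K := hu _ hx _ fun i => refl_abs j i x
    have h := hc hx hr (a := (1 + s) / 2) (b := (1 - s) / 2) (by linarith) (by linarith) (by ring)
    have e : ((1 + s) / 2) • x + ((1 - s) / 2) • refl j x = Function.update x j t := by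
      funext i
      by_cases hi : i = j
      · subst hi
        rw [Pi.add_apply, Pi.smul_apply, Pi.smul_apply, refl_self, Function.update_self,
          smul_eq_mul, smul_eq_mul]
        have : s * x i = t := by rw [hs]; field_simp
        linear_combination this
      · rw [Pi.add_apply, Pi.smul_apply, Pi.smul_apply, refl_ne hi, Function.update_of_ne hi,
          smul_eq_mul, smul_eq_mul]
        ring
    rwa [e] at h

lemma solid (hc : Convex ℝ K) (hu : Uncond K) {x : Fin n → ℝ} (hx : x ∈ K) {y : Fin n → ℝ}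
    (hy : ∀ i, |y i| ≤ |x i|) : y ∈ K := by
  classical
  have h : ∀ S : Finset (Fin n), (fun i => if i ∈ S then y i else x i) ∈ K := by
    intro S
    induction S using Finset.induction_on with
    | empty => simpa using hx
    | insert j S hj ih =>
      have h1 := update_mem hc hu ih j (t := y j) (by simpa [hj] using hy j)
      have e : Function.update (fun i => if i ∈ S then y i else x i) j (y j) =
          fun i => if i ∈ insert j S then y i else x i := by
        funext i
        by_cases hi : i = j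
        · subst hi; simp
        · simp [hi]
      rwa [e] at h1
  have h1 := h Finset.univ
  simpa using h1

lemma down (hc : Convex ℝ K) (hu : Uncond K) : Down (K ∩ {x | ∀ i, 0 ≤ x i}) := by
  refine ⟨fun x hx => hx.2, fun x hx y hy0 hyx => ⟨?_, hy0⟩⟩
  refine solid hc hu hx.1 fun i => ?_
  rw [abs_of_nonneg (hy0 i), abs_of_nonneg (hx.2 i)]
  exact hyx i

lemma orth_closed : IsClosed {x : Fin n → ℝ | ∀ i, 0 ≤ x i} := by
  have : {x : Fin n → ℝ | ∀ i, 0 ≤ x i} = ⋂ i, {x | 0 ≤ x i} := by
    ext x; simp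
  rw [this]
  exact isClosed_iInter fun i => isClosed_le continuous_const (continuous_apply i)

lemma orth_convex : Convex ℝ {x : Fin n → ℝ | ∀ i, 0 ≤ x i} := by
  intro x hx y hy a b ha hb _ i
  have h1 := hx i
  have h2 := hy i
  simp only [Pi.add_apply, Pi.smul_apply, smul_eq_mul]
  positivity

lemma reduct_univ (hu : Uncond K) {f : (Fin n → ℝ) → ℝ} (hf : IntegrableOn f K)
    (hfs : ∀ j x, f (refl j x) = f x) :
    ∫ x in K, f x = 2 ^ n * ∫ x in K ∩ {x | ∀ i, 0 ≤ x i}, f x := by
  have h := reduct (sym_refl hu) hf hfs Finset.univ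
  simpa using h

lemma int_odd (hu : Uncond K) (j : Fin n) {f : (Fin n → ℝ) → ℝ}
    (hfs : ∀ x, f (refl j x) = -f x) : ∫ x in K, f x = 0 := by
  have h := refl_int j K f
  rw [sym_refl hu j] at h
  simp_rw [hfs] at h
  rw [integral_neg] at h
  linarith

lemma cov_diag (hu : Uncond K) :
    covMatrix K = Matrix.diagonal fun i => (volume K).toReal⁻¹ * ∫ x in K, x i ^ 2 := by
  have hc : ∀ i, centroid K i = 0 := by
    intro i
    rw [centroid, int_odd hu i (f := fun x => x i) (refl_self i), mul_zero]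
  ext i j
  rw [covMatrix, Matrix.diagonal_apply]
  simp only [hc, sub_zero]
  by_cases hij : i = j
  · subst hij
    simp only [if_true, pow_two]
  · rw [if_neg hij, int_odd hu i (f := fun x => x i * x j), mul_zero]
    intro x
    rw [refl_self, refl_ne (Ne.symm hij)]
    ring

end Sym

end FB

open FB in
/-- The bound `det Cov / |K| ^ 2 ≤ ((n + 1) / (8 (n + 2))) ^ n` for unconditional bodies. -/
theorem unc_body {n : ℕ} (hUNC : UNCR n) {K : Set (Fin n → ℝ)} (hK : IsConvexBody K)
    (hu : Uncond K) :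
    (covMatrix K).det / (volume K).toReal ^ 2 ≤
      (((n : ℝ) + 1) / (8 * ((n : ℝ) + 2))) ^ n := by
  obtain ⟨hc, hcp, hint⟩ := hK
  have hfin : volume K ≠ ⊤ := hcp.measure_lt_top.ne
  have hV : 0 < (volume K).toReal := by
    refine ENNReal.toReal_pos ?_ hfin
    have h1 := isOpen_interior.measure_pos volume hint
    exact (h1.trans_le (measure_mono interior_subset)).ne'
  set P : Set (Fin n → ℝ) := K ∩ {x | ∀ i, 0 ≤ x i} with hP
  have hPc : Convex ℝ P := hc.inter orth_convex
  have hPk : IsCompact P := hcp.inter_right orth_closed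
  have hPd : Down P := down hc hu
  have hcont : ∀ i : Fin n, Continuous fun x : Fin n → ℝ => x i ^ 2 := fun i => by fun_prop
  have hVP : (volume K).toReal = 2 ^ n * (volume P).toReal := by
    have h := reduct_univ hu (f := fun _ => (1 : ℝ)) (integrableOn_const hfin) (fun _ _ => rfl)
    rw [setIntegral_const, setIntegral_const] at h
    simpa [Measure.real] using h
  have hAP : ∀ i, ∫ x in K, x i ^ 2 = 2 ^ n * ∫ x in P, x i ^ 2 := by
    intro i
    refine reduct_univ hu (f := fun x => x i ^ 2)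
      ((hcont i).continuousOn.integrableOn_compact hcp) ?_
    intro j x
    rw [← sq_abs, refl_abs, sq_abs]
  have h2n : (0 : ℝ) < 2 ^ n := by positivity
  have hVp : 0 < (volume P).toReal := by
    rw [hVP] at hV
    exact pos_of_mul_pos_right hV h2n.le
  have hPne : P.Nonempty := by
    rw [nonempty_iff_ne_empty]
    intro h
    rw [h, measure_empty, ENNReal.toReal_zero] at hVp
    exact lt_irrefl _ hVp
  set V : ℝ := (volume P).toReal with hVdef
  set A : Fin n → ℝ := fun i => ∫ x in P, x i ^ 2 with hA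
  set M : Fin n → ℝ := fun i => ∫ x in P, x i with hM
  have hA0 : ∀ i, 0 ≤ A i := fun i => integral_nonneg fun x => sq_nonneg _
  have hM0 : ∀ i, 0 ≤ M i := fun i =>
    setIntegral_nonneg hPk.measurableSet fun x hx => hx.2 i
  have hn1 : (0 : ℝ) < (n : ℝ) + 1 := by positivity
  have hn2 : (0 : ℝ) < (n : ℝ) + 2 := by positivity
  have hAM : ∀ i, A i / V ≤ (2 * ((n : ℝ) + 1) / ((n : ℝ) + 2)) * (M i / V) ^ 2 := by
    intro i
    have h := berwald hPc hPk i (fun x hx => hx.2 i)
    change V * A i ≤ 2 * ((n : ℝ) + 1) / ((n : ℝ) + 2) * M i ^ 2 at h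
    rw [div_pow, ← mul_div_assoc, div_le_div_iff₀ hVp (by positivity)]
    nlinarith
  have hU : ∏ i, (M i / V) ≤ V / 2 ^ n := by
    have h := hUNC P hPc hPk hPne hPd
    change ∏ i, (2 * M i) ≤ V ^ (n + 1) at h
    rw [Finset.prod_mul_distrib, Finset.prod_const, Finset.card_univ, Fintype.card_fin] at h
    rw [Finset.prod_div_distrib, Finset.prod_const, Finset.card_univ, Fintype.card_fin,
      div_le_div_iff₀ (by positivity) h2n]
    rw [pow_succ] at h
    linarith
  have hU0 : 0 ≤ ∏ i, (M i / V) := Finset.prod_nonneg fun i _ => div_nonneg (hM0 i) hVp.le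
  have hdet : (covMatrix K).det = ∏ i, (A i / V) := by
    rw [cov_diag hu, Matrix.det_diagonal]
    refine Finset.prod_congr rfl fun i _ => ?_
    rw [hAP i, hVP]
    field_simp
    simp only [hA]
  have h1 : ∏ i, (A i / V) ≤
      ∏ i : Fin n, ((2 * ((n : ℝ) + 1) / ((n : ℝ) + 2)) * (M i / V) ^ 2) :=
    Finset.prod_le_prod (fun i _ => div_nonneg (hA0 i) hVp.le) fun i _ => hAM i
  have h2 : ∏ i : Fin n, ((2 * ((n : ℝ) + 1) / ((n : ℝ) + 2)) * (M i / V) ^ 2) =
      (2 * ((n : ℝ) + 1) / ((n : ℝ) + 2)) ^ n * (∏ i, (M i / V)) ^ 2 := by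
    rw [Finset.prod_mul_distrib, Finset.prod_const, Finset.card_univ, Fintype.card_fin,
      Finset.prod_pow]
  have h3 : (∏ i, (M i / V)) ^ 2 ≤ (V / 2 ^ n) ^ 2 := by
    exact pow_le_pow_left₀ hU0 hU 2
  rw [hdet, hVP, div_le_iff₀ (by positivity)]
  have h4 : (2 * ((n : ℝ) + 1) / ((n : ℝ) + 2)) ^ n * (∏ i, (M i / V)) ^ 2 ≤
      (2 * ((n : ℝ) + 1) / ((n : ℝ) + 2)) ^ n * (V / 2 ^ n) ^ 2 :=
    mul_le_mul_of_nonneg_left h3 (by positivity)
  refine (h1.trans (h2.le.trans h4)).trans (le_of_eq ?_)
  have e1 : (2 * ((n : ℝ) + 1) / ((n : ℝ) + 2)) ^ n =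
      (((n : ℝ) + 1) / (8 * ((n : ℝ) + 2))) ^ n * 16 ^ n := by
    rw [← mul_pow]
    congr 1
    field_simp
    ring
  have e2 : (16 : ℝ) ^ n = 2 ^ n * 2 ^ n * (2 ^ n * 2 ^ n) := by
    rw [← mul_pow, ← mul_pow]
    norm_num
  rw [e1, e2]
  field_simp

end Vale.Agent.P254.Unc
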