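import Vale.Agent.P254.Unc.PL

/-! P254, unconditional bodies: Brunn-Minkowski, additive form. -/

open MeasureTheory Set
open scoped ENNReal NNReal Pointwise

namespace Vale.Agent.P254.Unc

theorem volume_smul_real {n : ℕ} {c : ℝ} (hc : 0 < c) (A : Set (Fin n → ℝ)) :
    (volume (c • A)).toReal = c ^ n * (volume A).toReal := by
  rw [Measure.addHaar_smul, ENNReal.toReal_mul, Module.finrank_fin_fun, abs_of_pos (pow_pos hc n),
    ENNReal.toReal_ofReal (pow_pos hc n).le]

/-- additive Brunn-Minkowski inequality. -/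
theorem bm_add {n : ℕ} (hn : 0 < n) {A B C : Set (Fin n → ℝ)} (hA : MeasurableSet A)
    (hB : MeasurableSet B) (hC : MeasurableSet C) {a b c : ℝ} (ha : 0 < a) (hb : 0 < b)
    (hc : 0 ≤ c) (hAv : (volume A).toReal = a ^ n) (hBv : (volume B).toReal = b ^ n)
    (hCv : (volume C).toReal = c ^ n) (hCf : volume C ≠ ⊤)
    (h : ∀ x ∈ A, ∀ y ∈ B, x + y ∈ C) : a + b ≤ c := by
  have hab : 0 < a + b := add_pos ha hb
  have hA1 : volume (a⁻¹ • A) = 1 := by
    have h1 := volume_smul_real (inv_pos.2 ha) A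
    rw [hAv, ← mul_pow, inv_mul_cancel₀ ha.ne', one_pow] at h1
    rw [← ENNReal.toReal_eq_one_iff]
    exact h1
  have hB1 : volume (b⁻¹ • B) = 1 := by
    have h1 := volume_smul_real (inv_pos.2 hb) B
    rw [hBv, ← mul_pow, inv_mul_cancel₀ hb.ne', one_pow] at h1
    rw [← ENNReal.toReal_eq_one_iff]
    exact h1
  have key := bm_mul (s := a / (a + b)) (t := b / (a + b)) (by positivity) (by positivity)
    (by field_simp) (hA.const_smul₀ a⁻¹) (hB.const_smul₀ b⁻¹) (hC.const_smul₀ (a + b)⁻¹) (by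
      rintro _ ⟨x, hx, rfl⟩ _ ⟨y, hy, rfl⟩
      refine ⟨x + y, h x hx y hy, ?_⟩
      have e1 : a / (a + b) * a⁻¹ = (a + b)⁻¹ := by field_simp
      have e2 : b / (a + b) * b⁻¹ = (a + b)⁻¹ := by field_simp
      show (a + b)⁻¹ • (x + y) = (a / (a + b)) • a⁻¹ • x + (b / (a + b)) • b⁻¹ • y
      rw [smul_smul, smul_smul, e1, e2, smul_add])
  rw [hA1, hB1, ENNReal.one_rpow, ENNReal.one_rpow, mul_one] at key
  have hfin : volume ((a + b)⁻¹ • C) ≠ ⊤ := by
    rw [Measure.addHaar_smul]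
    exact ENNReal.mul_ne_top ENNReal.ofReal_ne_top hCf
  have h2 := ENNReal.toReal_mono hfin key
  rw [ENNReal.toReal_one, volume_smul_real (inv_pos.2 hab), hCv, ← mul_pow] at h2
  have h3 : 1 ≤ (a + b)⁻¹ * c := by
    by_contra hlt
    push Not at hlt
    have h4 : ((a + b)⁻¹ * c) ^ n < 1 :=
      pow_lt_one₀ (by positivity) hlt hn.ne'
    linarith
  rw [← div_eq_inv_mul, le_div_iff₀ hab, one_mul] at h3
  exact h3

end Vale.Agent.P254.Unc
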