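import Vale.Agent.P227.PL

/-!
# P254, unconditional bodies: Berwald's inequality

For a convex body `K` in the half space `x_k ≥ 0` of `ℝⁿ`, `n = d + 1`:
`(n + 2) |K| ∫_K x_k² ≤ 2 (n + 1) (∫_K x_k)²`.
-/

open MeasureTheory Set
open scoped ENNReal Pointwise

namespace Vale.Agent.P254.Unc.BerH

section BM

variable {d : ℕ} {A B C : Set (Fin d → ℝ)}

/-- Brunn-Minkowski for two sets compared with cones. -/
theorem bm_scaled (hA : MeasurableSet A) (hB : MeasurableSet B) (hC : MeasurableSet C)
    {a b c l m : ℝ} (ha : 0 < a) (hb : 0 < b) (hc : 0 < c) (hl : 0 < l) (hm : 0 < m)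
    (h : ∀ x ∈ A, ∀ y ∈ B, l • x + m • y ∈ C)
    (vA : ENNReal.ofReal (c * a ^ d) ≤ volume A) (vB : ENNReal.ofReal (c * b ^ d) ≤ volume B) :
    ENNReal.ofReal (c * (l * a + m * b) ^ d) ≤ volume C := by
  have hg : 0 < l * a + m * b := by positivity
  set g := l * a + m * b with hgdef
  have h1 : volume (a⁻¹ • A) ^ (l * a / g) * volume (b⁻¹ • B) ^ (m * b / g) ≤
      volume (g⁻¹ • C) := by
    refine P227.bm_mul (by positivity) (by positivity) (by rw [← add_div, ← hgdef, div_self hg.ne'])
      (hA.const_smul₀ _) (hB.const_smul₀ _) (hC.const_smul₀ _) ?_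
    rintro _ ⟨x, hx, rfl⟩ _ ⟨y, hy, rfl⟩
    refine ⟨l • x + m • y, h x hx y hy, ?_⟩
    simp only [smul_add, smul_smul]
    congr 2 <;> field_simp
  have hs : ∀ {r : ℝ}, 0 < r → ∀ {S : Set (Fin d → ℝ)},
      ENNReal.ofReal (c * r ^ d) ≤ volume S → ENNReal.ofReal c ≤ volume (r⁻¹ • S) := by
    intro r hr S hS
    rw [Measure.addHaar_smul, Module.finrank_fin_fun, abs_of_pos (by positivity)]
    calc ENNReal.ofReal c = ENNReal.ofReal (r⁻¹ ^ d) * ENNReal.ofReal (c * r ^ d) := by
          rw [← ENNReal.ofReal_mul (by positivity)]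
          congr 1
          rw [mul_left_comm, ← mul_pow, inv_mul_cancel₀ hr.ne']
          simp
      _ ≤ _ := by gcongr
  have h2 : ENNReal.ofReal c ≤ volume (g⁻¹ • C) := by
    refine le_trans (le_of_eq ?_) ((mul_le_mul' (ENNReal.rpow_le_rpow (hs ha vA) (by positivity))
      (ENNReal.rpow_le_rpow (hs hb vB) (by positivity))).trans h1)
    rw [← ENNReal.rpow_add _ _ (by simpa using hc) ENNReal.ofReal_ne_top, ← add_div, ← hgdef,
      div_self hg.ne', ENNReal.rpow_one]
  rw [Measure.addHaar_smul, Module.finrank_fin_fun, abs_of_pos (by positivity)] at h2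
  calc ENNReal.ofReal (c * g ^ d) = ENNReal.ofReal (g ^ d) * ENNReal.ofReal c := by
        rw [← ENNReal.ofReal_mul (by positivity), mul_comm]
    _ ≤ ENNReal.ofReal (g ^ d) * (ENNReal.ofReal (g⁻¹ ^ d) * volume C) := by gcongr
    _ = volume C := by
        rw [← mul_assoc, ← ENNReal.ofReal_mul (by positivity), ← mul_pow, mul_inv_cancel₀ hg.ne']
        simp

/-- the same with a point -/
theorem bm_point {l m : ℝ} (hl : 0 < l) {y : Fin d → ℝ}
    (h : ∀ x ∈ A, l • x + m • y ∈ C) :
    ENNReal.ofReal (l ^ d) * volume A ≤ volume C := by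
  have h1 : (fun x => x + m • y) '' (l • A) ⊆ C := by
    rintro _ ⟨_, ⟨x, hx, rfl⟩, rfl⟩
    exact h x hx
  calc ENNReal.ofReal (l ^ d) * volume A = volume (l • A) := by
        rw [Measure.addHaar_smul, Module.finrank_fin_fun, abs_of_pos (by positivity)]
    _ = volume ((fun x => x + m • y) '' (l • A)) := by
        rw [image_add_right, measure_preimage_add_right]
    _ ≤ _ := measure_mono h1

end BM

variable {d : ℕ}

/-- the slice of `K` at height `t` of the coordinate `k` -/
def slice (K : Set (Fin (d + 1) → ℝ)) (k : Fin (d + 1)) (t : ℝ) : Set (Fin d → ℝ) :=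
  {y | k.insertNth t y ∈ K}

theorem continuous_insertNth (k : Fin (d + 1)) :
    Continuous (fun p : ℝ × (Fin d → ℝ) => (k.insertNth p.1 p.2 : Fin (d + 1) → ℝ)) := by
  refine continuous_pi fun i => ?_
  induction i using Fin.succAboveCases k with
  | x => simpa using continuous_fst
  | p i =>
    simp only [Fin.insertNth_apply_succAbove]
    exact (continuous_apply i).comp continuous_snd

theorem measurableSet_slice {K : Set (Fin (d + 1) → ℝ)} (hK : IsCompact K) (k : Fin (d + 1))
    (t : ℝ) : MeasurableSet (slice K k t) := by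
  have : Continuous (fun y : Fin d → ℝ => (k.insertNth t y : Fin (d + 1) → ℝ)) :=
    (continuous_insertNth k).comp (g := fun p : ℝ × (Fin d → ℝ) =>
      (k.insertNth p.1 p.2 : Fin (d + 1) → ℝ)) (f := fun y : Fin d → ℝ => (t, y)) (by fun_prop)
  exact (hK.isClosed.preimage this).measurableSet

theorem slice_conv {K : Set (Fin (d + 1) → ℝ)} (hK : Convex ℝ K) (k : Fin (d + 1))
    {s t l m : ℝ} (hl : 0 ≤ l) (hm : 0 ≤ m) (hlm : l + m = 1) {x y : Fin d → ℝ}
    (hx : x ∈ slice K k s) (hy : y ∈ slice K k t) :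
    l • x + m • y ∈ slice K k (l * s + m * t) := by
  have := hK hx hy hl hm hlm
  unfold slice
  simp only [mem_ofPred_eq]
  convert this using 1
  ext i
  induction i using Fin.succAboveCases k with
  | x => simp
  | p i => simp

/-- Fubini for functions of one coordinate. -/
theorem fubini_slice {K : Set (Fin (d + 1) → ℝ)} (hK : IsCompact K) (k : Fin (d + 1))
    {φ : ℝ → ℝ} (hφ : Continuous φ) :
    Integrable (fun t => φ t * volume.real (slice K k t)) ∧
    ∫ x in K, φ (x k) = ∫ t, φ t * volume.real (slice K k t) := by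
  have mp := (volume_preserving_piFinSuccAbove (fun _ : Fin (d + 1) => ℝ) k).symm
  have hint : Integrable (K.indicator (fun x => φ (x k))) :=
    (integrable_indicator_iff hK.measurableSet).2
      ((hφ.comp (continuous_apply k)).continuousOn.integrableOn_compact hK)
  have e1 : ∫ x in K, φ (x k) = ∫ x, K.indicator (fun x => φ (x k)) x :=
    (integral_indicator hK.measurableSet).symm
  have hint2 : Integrable (fun p : ℝ × (Fin d → ℝ) => K.indicator (fun x => φ (x k))
      ((MeasurableEquiv.piFinSuccAbove (fun _ : Fin (d + 1) => ℝ) k).symm p))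
      (volume.prod volume) := (mp.integrable_comp_emb (MeasurableEquiv.measurableEmbedding _)).2 hint
  have e2 := mp.integral_comp' (g := K.indicator (fun x => φ (x k)))
  have e3 : ∀ t, ∫ y : Fin d → ℝ, K.indicator (fun x => φ (x k))
      ((MeasurableEquiv.piFinSuccAbove (fun _ : Fin (d + 1) => ℝ) k).symm (t, y)) =
      φ t * volume.real (slice K k t) := by
    intro t
    have : (fun y : Fin d → ℝ => K.indicator (fun x => φ (x k))
      ((MeasurableEquiv.piFinSuccAbove (fun _ : Fin (d + 1) => ℝ) k).symm (t, y))) =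
      (slice K k t).indicator (fun _ => φ t) := by
      ext y
      have h0 : (MeasurableEquiv.piFinSuccAbove (fun _ : Fin (d + 1) => ℝ) k).symm (t, y) =
        k.insertNth t y := rfl
      rw [h0]
      by_cases h : (k.insertNth t y : Fin (d + 1) → ℝ) ∈ K
      · rw [indicator_of_mem h, indicator_of_mem (show y ∈ slice K k t from h)]
        simp
      · rw [indicator_of_notMem h, indicator_of_notMem (show y ∉ slice K k t from h)]
    rw [this, integral_indicator_const _ (measurableSet_slice hK k t), smul_eq_mul, mul_comm]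
  constructor
  · have := hint2.integral_prod_left
    simpa only [e3] using this
  · rw [e1, ← e2]
    rw [show (volume : Measure (ℝ × (Fin d → ℝ))) = volume.prod volume from rfl,
      integral_prod _ hint2]
    exact integral_congr_ae (Filter.Eventually.of_forall e3)


/-- moments of the cone -/
theorem cone_moment {b : ℝ} (hb : 0 < b) (d j : ℕ) :
    ∫ t in (0 : ℝ)..b, t ^ j * (1 - t / b) ^ d =
      b ^ (j + 1) * ∫ u in (0 : ℝ)..1, (1 - u) ^ j * u ^ d := by
  have h1 : ∫ t in (0 : ℝ)..b, t ^ j * (1 - t / b) ^ d =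
      b ^ (j + 1) * ∫ v in (0 : ℝ)..1, v ^ j * (1 - v) ^ d := by
    have := intervalIntegral.integral_comp_div (a := 0) (b := b)
      (fun v : ℝ => v ^ j * (1 - v) ^ d) hb.ne'
    rw [div_self hb.ne', zero_div, smul_eq_mul] at this
    rw [pow_succ, mul_assoc, ← this, ← intervalIntegral.integral_const_mul]
    refine intervalIntegral.integral_congr fun t _ => ?_
    simp only [div_pow]
    field_simp
  rw [h1]
  congr 1
  have := intervalIntegral.integral_comp_sub_left (a := 0) (b := 1)
    (fun u : ℝ => (1 - u) ^ j * u ^ d) 1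
  simp only [sub_sub_cancel, sub_self, sub_zero] at this
  exact this

theorem cone0 (d : ℕ) : ∫ u in (0 : ℝ)..1, (1 - u) ^ 0 * u ^ d = 1 / ((d : ℝ) + 1) := by
  simp [integral_pow]

theorem cone1 (d : ℕ) : ∫ u in (0 : ℝ)..1, (1 - u) ^ 1 * u ^ d = 1 / (((d : ℝ) + 1) * (d + 2)) := by
  have : ∀ u : ℝ, (1 - u) ^ 1 * u ^ d = u ^ d - u ^ (d + 1) := fun u => by ring
  simp only [this]
  rw [intervalIntegral.integral_sub (by simp) (by simp), integral_pow, integral_pow]
  push_cast
  field_simp
  ring_nf

theorem cone2 (d : ℕ) :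
    ∫ u in (0 : ℝ)..1, (1 - u) ^ 2 * u ^ d = 2 / (((d : ℝ) + 1) * (d + 2) * (d + 3)) := by
  have : ∀ u : ℝ, (1 - u) ^ 2 * u ^ d = u ^ d - 2 * u ^ (d + 1) + u ^ (d + 2) := fun u => by ring
  simp only [this]
  rw [intervalIntegral.integral_add (Continuous.intervalIntegrable (by fun_prop) _ _)
      (Continuous.intervalIntegrable (by fun_prop) _ _),
    intervalIntegral.integral_sub (Continuous.intervalIntegrable (by fun_prop) _ _)
      (Continuous.intervalIntegrable (by fun_prop) _ _),
    intervalIntegral.integral_const_mul, integral_pow, integral_pow, integral_pow]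
  push_cast
  field_simp
  ring_nf

/-- the cone profile -/
noncomputable def cone (d : ℕ) (c b t : ℝ) : ℝ := (Ico 0 b).indicator (fun t => c * (1 - t / b) ^ d) t

theorem cone_integral (d j : ℕ) (c : ℝ) {b : ℝ} (hb : 0 < b) :
    Integrable (fun t => t ^ j * cone d c b t) ∧
    ∫ t, t ^ j * cone d c b t = c * b ^ (j + 1) * ∫ u in (0 : ℝ)..1, (1 - u) ^ j * u ^ d := by
  have e : (fun t => t ^ j * cone d c b t) =
      (Ico 0 b).indicator (fun t => c * (t ^ j * (1 - t / b) ^ d)) := by
    ext t
    unfold cone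
    by_cases h : t ∈ Ico 0 b
    · rw [indicator_of_mem h, indicator_of_mem h]; ring
    · rw [indicator_of_notMem h, indicator_of_notMem h]; ring
  have hcont : Continuous (fun t : ℝ => c * (t ^ j * (1 - t / b) ^ d)) := by fun_prop
  constructor
  · rw [e, integrable_indicator_iff measurableSet_Ico]
    exact (hcont.continuousOn.integrableOn_compact isCompact_Icc).mono_set Ico_subset_Icc_self
  · rw [e, integral_indicator measurableSet_Ico, integral_Ico_eq_integral_Ioo,
      ← integral_Ioc_eq_integral_Ioo, ← intervalIntegral.integral_of_le hb.le,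
      intervalIntegral.integral_const_mul, cone_moment hb, mul_assoc]

/-- Comparison lemma in one variable. -/
theorem berwald_one (d : ℕ) {F : ℝ → ℝ} {R : ℝ}
    (hF : ∀ t, t < 0 → F t = 0) (i0 : Integrable F) (i1 : Integrable (fun t => t * F t))
    (i2 : Integrable (fun t => t ^ 2 * F t)) (hm0 : 0 < ∫ t, F t) (hm1 : 0 < ∫ t, t * F t)
    (hT : ∀ c b : ℝ, 0 < c → 0 < b → ∃ T : Set ℝ, T ⊆ Icc 0 R ∧ T.OrdConnected ∧
      (∀ t ∈ T, cone d c b t ≤ F t) ∧ ∀ t, 0 ≤ t → t ∉ T → F t ≤ cone d c b t) :
    (d + 3) * (∫ t, F t) * ∫ t, t ^ 2 * F t ≤ 2 * (d + 2) * (∫ t, t * F t) ^ 2 := by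
  set M0 := ∫ t, F t with hM0
  set M1 := ∫ t, t * F t with hM1
  set M2 := ∫ t, t ^ 2 * F t with hM2
  set b := (d + 2) * M1 / M0 with hb
  have hbp : 0 < b := by positivity
  set c := (d + 1) * M0 / b with hc
  have hcp : 0 < c := by positivity
  obtain ⟨T, hT1, hT2, hT3, hT4⟩ := hT c b hcp hbp
  have hbb : BddBelow T := ⟨0, fun t ht => (hT1 ht).1⟩
  have hba : BddAbove T := ⟨R, fun t ht => (hT1 ht).2⟩
  set α := sInf T
  set β := sSup T
  have key : ∀ t, (t - α) * (t - β) * (F t - cone d c b t) ≤ 0 := by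
    intro t
    rcases lt_or_ge t 0 with h0 | h0
    · rw [hF t h0]
      unfold cone
      rw [indicator_of_notMem (fun h => absurd h.1 (not_le.2 h0))]
      simp
    · by_cases ht : t ∈ T
      · have h1 : α ≤ t := csInf_le hbb ht
        have h2 : t ≤ β := le_csSup hba ht
        have h3 := hT3 t ht
        have : (t - α) * (t - β) ≤ 0 := mul_nonpos_of_nonneg_of_nonpos (by linarith) (by linarith)
        exact mul_nonpos_of_nonpos_of_nonneg this (by linarith)
      · have h3 := hT4 t h0 ht
        refine mul_nonpos_of_nonneg_of_nonpos ?_ (by linarith)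
        rcases T.eq_empty_or_nonempty with hE | hE
        · have ha : α = 0 := by simp [α, hE]
          have hb' : β = 0 := by simp [β, hE]
          rw [ha, hb']
          nlinarith
        · have hab : α ≤ β := csInf_le_csSup hE hbb hba
          rcases le_or_gt t α with h | h
          · exact mul_nonneg_of_nonpos_of_nonpos (by linarith) (by linarith)
          · rcases le_or_gt β t with h' | h'
            · exact mul_nonneg (by linarith) (by linarith)
            · obtain ⟨s, hs, hs'⟩ := exists_lt_of_csInf_lt hE h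
              obtain ⟨s2, hs2, hs2'⟩ := exists_lt_of_lt_csSup hE h'
              exact absurd (hT2.out hs hs2 ⟨hs'.le, hs2'.le⟩) ht
  have hint : ∫ t, (t - α) * (t - β) * (F t - cone d c b t) ≤ 0 :=
    integral_nonpos key
  obtain ⟨j0, g0⟩ := cone_integral d 0 c hbp
  obtain ⟨j1, g1⟩ := cone_integral d 1 c hbp
  obtain ⟨j2, g2⟩ := cone_integral d 2 c hbp
  rw [cone0] at g0
  rw [cone1] at g1
  rw [cone2] at g2
  simp only [pow_zero, one_mul, pow_one, zero_add] at j0 j1 j2 g0 g1 g2
  have hexp : ∫ t, (t - α) * (t - β) * (F t - cone d c b t) =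
      (M2 - ∫ t, t ^ 2 * cone d c b t) - (α + β) * (M1 - ∫ t, t * cone d c b t) +
        α * β * (M0 - ∫ t, cone d c b t) := by
    have e1 : ∀ t, (t - α) * (t - β) * (F t - cone d c b t) =
        (t ^ 2 * F t - t ^ 2 * cone d c b t) - (α + β) * (t * F t - t * cone d c b t) +
          α * β * (F t - cone d c b t) := fun t => by ring
    simp only [e1]
    have k2 : Integrable (fun t => t ^ 2 * F t - t ^ 2 * cone d c b t) := i2.sub j2
    have k1 : Integrable (fun t => (α + β) * (t * F t - t * cone d c b t)) :=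
      (i1.sub j1).const_mul _
    have k0 : Integrable (fun t => α * β * (F t - cone d c b t)) := (i0.sub j0).const_mul _
    have k21 : Integrable (fun t => t ^ 2 * F t - t ^ 2 * cone d c b t -
      (α + β) * (t * F t - t * cone d c b t)) := k2.sub k1
    rw [integral_add k21 k0, integral_sub k2 k1, integral_const_mul, integral_const_mul,
      integral_sub i2 j2, integral_sub i1 j1, integral_sub i0 j0]
  rw [hexp, g0, g1, g2] at hint
  have hcb : c * b = (d + 1) * M0 := by rw [hc]; field_simp
  have hb0 : b * M0 = (d + 2) * M1 := by rw [hb]; field_simp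
  have h0 : c * b * (1 / ((d : ℝ) + 1)) = M0 := by rw [hcb]; field_simp
  have h1 : c * b ^ (1 + 1) * (1 / (((d : ℝ) + 1) * (d + 2))) = M1 := by
    have : c * b ^ (1 + 1) = (d + 1) * ((d + 2) * M1) := by rw [← hb0, pow_succ, pow_one, ← mul_assoc, hcb]; ring
    rw [this]; field_simp
  have h2 : M0 * (c * b ^ (2 + 1) * (2 / (((d : ℝ) + 1) * (d + 2) * (d + 3)))) * (d + 3) =
      2 * (d + 2) * M1 ^ 2 := by
    have : M0 * (c * b ^ (2 + 1)) = (d + 1) * ((d + 2) * M1) ^ 2 := by
      rw [← hb0, show M0 * (c * b ^ (2 + 1)) = (c * b) * (b ^ 2 * M0) by ring, hcb]; ring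
    rw [← mul_assoc, this]; field_simp
  rw [h0, h1] at hint
  simp only [sub_self, mul_zero, sub_zero, add_zero] at hint
  rw [← h2]
  have h3 : M2 ≤ c * b ^ (2 + 1) * (2 / (((d : ℝ) + 1) * (d + 2) * (d + 3))) := by linarith
  calc (d + 3) * M0 * M2 ≤ (d + 3) * M0 *
      (c * b ^ (2 + 1) * (2 / (((d : ℝ) + 1) * (d + 2) * (d + 3)))) := by gcongr
    _ = _ := by ring

/-- **Berwald's inequality** for a convex body in a half space. -/
theorem berwald {K : Set (Fin (d + 1) → ℝ)} (hK : Convex ℝ K) (hc : IsCompact K)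
    (k : Fin (d + 1)) (hk : ∀ x ∈ K, 0 ≤ x k) (hv : 0 < volume.real K) :
    (d + 3) * volume.real K * ∫ x in K, x k ^ 2 ≤ 2 * (d + 2) * (∫ x in K, x k) ^ 2 := by
  obtain ⟨i0, f0⟩ := fubini_slice hc k (φ := fun _ => 1) continuous_const
  obtain ⟨i1, f1⟩ := fubini_slice hc k (φ := fun t => t) continuous_id
  obtain ⟨i2, f2⟩ := fubini_slice hc k (φ := fun t => t ^ 2) (by fun_prop)
  simp only [one_mul] at i0 f0
  have f0' : ∫ x in K, (1 : ℝ) = volume.real K := by simp
  rw [f0'] at f0
  obtain ⟨R, hR⟩ : ∃ R : ℝ, ∀ x ∈ K, x k ≤ R := by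
    obtain ⟨R, hR⟩ := (hc.image (continuous_apply k)).bddAbove
    exact ⟨R, fun x hx => hR ⟨x, hx, rfl⟩⟩
  have hneg : ∀ t, t < 0 → slice K k t = ∅ := by
    intro t ht
    ext y
    simp only [slice, mem_ofPred_eq, mem_empty_iff_false, iff_false]
    intro h
    have := hk _ h
    simp at this
    linarith
  have hle : ∀ t, (slice K k t).Nonempty → t ≤ R := by
    rintro t ⟨y, hy⟩
    have := hR _ hy
    simpa using this
  have hge : ∀ t, (slice K k t).Nonempty → 0 ≤ t := by
    rintro t ⟨y, hy⟩
    have := hk _ hy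
    simpa using this
  have hfin : ∀ t, volume (slice K k t) ≠ ∞ := by
    intro t
    have hb : Bornology.IsBounded (slice K k t) := by
      obtain ⟨r, hr⟩ := hc.isBounded.exists_norm_le
      refine (Metric.isBounded_iff_subset_closedBall 0).2 ⟨r, fun y hy => ?_⟩
      rw [mem_closedBall_zero_iff]
      have h1 := hr _ hy
      have h0 : 0 ≤ r := (norm_nonneg _).trans h1
      rw [pi_norm_le_iff_of_nonneg h0] at h1 ⊢
      intro i
      simpa using h1 (k.succAbove i)
    exact hb.measure_lt_top.ne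
  have hpos1 : 0 < ∫ t, t * volume.real (slice K k t) := by
    have hnn : 0 ≤ fun t => t * volume.real (slice K k t) := by
      intro t
      rcases lt_or_ge t 0 with h | h
      · simp [hneg t h]
      · exact mul_nonneg h measureReal_nonneg
    refine lt_of_le_of_ne (integral_nonneg hnn) fun h0 => ?_
    have h1 := (integral_eq_zero_iff_of_nonneg hnn i1).1 h0.symm
    have h2 : ∀ᵐ t : ℝ, t ≠ 0 := by
      rw [ae_iff]
      simp
    have h3 : (fun t => volume.real (slice K k t)) =ᵐ[volume] 0 := by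
      filter_upwards [h1, h2] with t h1 h2
      simpa [h2] using h1
    have h4 := integral_congr_ae h3
    simp only [Pi.zero_apply, integral_zero] at h4
    rw [f0] at hv
    rw [h4] at hv
    exact lt_irrefl _ hv
  rw [f1, f2, f0]
  refine berwald_one d (R := R) (fun t ht => by simp [hneg t ht]) i0 i1 i2 (f0 ▸ hv) hpos1 ?_
  intro c b hcp hbp
  have hcone : ∀ t, 0 ≤ t → t < b → cone d c b t = c * (1 - t / b) ^ d := fun t h1 h2 => by
    unfold cone; rw [indicator_of_mem (show t ∈ Ico 0 b from ⟨h1, h2⟩)]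
  have hcone' : ∀ t, b ≤ t → cone d c b t = 0 := fun t h1 => by
    unfold cone; rw [indicator_of_notMem (fun h => absurd h.2 (not_lt.2 h1))]
  have hpos : ∀ t, 0 ≤ t → t < b → 0 < 1 - t / b := fun t _ h2 => by
    rw [sub_pos, div_lt_one hbp]; exact h2
  have hmem : ∀ t, 0 ≤ t → t < b → cone d c b t ≤ volume.real (slice K k t) →
      ENNReal.ofReal (c * (1 - t / b) ^ d) ≤ volume (slice K k t) := by
    intro t h1 h2 h3
    rw [hcone t h1 h2] at h3
    exact ENNReal.ofReal_le_of_le_toReal h3
  have hmem' : ∀ t, 0 ≤ t → t < b → ENNReal.ofReal (c * (1 - t / b) ^ d) ≤ volume (slice K k t) →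
      cone d c b t ≤ volume.real (slice K k t) := by
    intro t h1 h2 h3
    rw [hcone t h1 h2]
    exact (ENNReal.ofReal_le_iff_le_toReal (hfin t)).1 h3
  have hne : ∀ t, 0 ≤ t → t < b → cone d c b t ≤ volume.real (slice K k t) →
      (slice K k t).Nonempty := by
    intro t h1 h2 h3
    rw [nonempty_iff_ne_empty]
    intro h
    have := hmem t h1 h2 h3
    rw [h, measure_empty, nonpos_iff_eq_zero, ENNReal.ofReal_eq_zero] at this
    have h4 := hpos t h1 h2
    have : 0 < c * (1 - t / b) ^ d := by positivity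
    linarith
  refine ⟨{t | (0 ≤ t ∧ t < b ∧ cone d c b t ≤ volume.real (slice K k t)) ∨
    (b ≤ t ∧ (slice K k t).Nonempty)}, ?_, ?_, ?_, ?_⟩
  · rintro t (⟨h1, h2, h3⟩ | ⟨h1, h2⟩)
    · exact ⟨h1, hle t (hne t h1 h2 h3)⟩
    · exact ⟨hbp.le.trans h1, hle t h2⟩
  · rw [ordConnected_iff]
    intro s hs t ht _ u hu
    rcases hu.1.eq_or_lt with rfl | hsu
    · exact hs
    rcases hu.2.eq_or_lt with rfl | hut
    · exact ht
    have hst : s < t := hsu.trans hut
    have hts : 0 < t - s := sub_pos.2 hst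
    set l := (t - u) / (t - s) with hl
    set m := (u - s) / (t - s) with hm
    have hl0 : 0 < l := div_pos (sub_pos.2 hut) hts
    have hm0 : 0 < m := div_pos (sub_pos.2 hsu) hts
    have hlm : l + m = 1 := by rw [hl, hm]; field_simp; ring
    have hu' : l * s + m * t = u := by rw [hl, hm]; field_simp; ring
    have hsne : (slice K k s).Nonempty := by
      rcases hs with ⟨h1, h2, h3⟩ | ⟨h1, h2⟩
      · exact hne s h1 h2 h3
      · exact h2
    have htne : (slice K k t).Nonempty := by
      rcases ht with ⟨h1, h2, h3⟩ | ⟨h1, h2⟩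
      · exact hne t h1 h2 h3
      · exact h2
    have hs0 : 0 ≤ s := hge s hsne
    have hu0 : 0 ≤ u := hs0.trans hsu.le
    have hune : (slice K k u).Nonempty := by
      obtain ⟨x, hx⟩ := hsne
      obtain ⟨y, hy⟩ := htne
      exact ⟨_, hu' ▸ slice_conv hK k hl0.le hm0.le hlm hx hy⟩
    rcases le_or_gt b u with hbu | hub
    · exact Or.inr ⟨hbu, hune⟩
    refine Or.inl ⟨hu0, hub, hmem' u hu0 hub ?_⟩
    have hs3 : cone d c b s ≤ volume.real (slice K k s) := by
      rcases hs with ⟨h1, h2, h3⟩ | ⟨h1, h2⟩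
      · exact h3
      · linarith
    have hsb : s < b := hsu.trans hub
    have hS := hmem s hs0 hsb hs3
    rcases le_or_gt b t with hbt | htb
    · obtain ⟨y, hy⟩ := htne
      have := bm_point (A := slice K k s) (C := slice K k u) (m := m) hl0 (y := y)
        (fun x hx => hu' ▸ slice_conv hK k hl0.le hm0.le hlm hx hy)
      refine le_trans ?_ this
      refine le_trans ?_ (mul_le_mul_right hS _)
      rw [← ENNReal.ofReal_mul (by positivity)]
      apply ENNReal.ofReal_le_ofReal
      have h1 : 1 - u / b ≤ l * (1 - s / b) := by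
        have e : 1 - u / b = l * (1 - s / b) + m * (1 - t / b) := by
          rw [← hu']
          have : (1 : ℝ) = l + m := hlm.symm
          field_simp
          linear_combination (b : ℝ) * this
        have h2 : m * (1 - t / b) ≤ 0 := by
          apply mul_nonpos_of_nonneg_of_nonpos hm0.le
          rw [sub_nonpos, one_le_div hbp]
          exact hbt
        linarith
      have h2 := hpos u hu0 hub
      calc c * (1 - u / b) ^ d ≤ c * (l * (1 - s / b)) ^ d := by gcongr
        _ = _ := by rw [mul_pow]; ring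
    · have ht0 : 0 ≤ t := hge t htne
      have ht3 : cone d c b t ≤ volume.real (slice K k t) := by
        rcases ht with ⟨h1, h2, h3⟩ | ⟨h1, h2⟩
        · exact h3
        · linarith
      have := bm_scaled (measurableSet_slice hc k s) (measurableSet_slice hc k t)
        (measurableSet_slice hc k u) (hpos s hs0 hsb) (hpos t ht0 htb) hcp hl0 hm0
        (fun x hx y hy => hu' ▸ slice_conv hK k hl0.le hm0.le hlm hx hy) hS (hmem t ht0 htb ht3)
      convert this using 4
      rw [← hu']
      have : (1 : ℝ) = l + m := hlm.symm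
      field_simp
      linear_combination (b : ℝ) * this
  · rintro t (⟨h1, h2, h3⟩ | ⟨h1, h2⟩)
    · exact h3
    · rw [hcone' t h1]; exact measureReal_nonneg
  · intro t h0 ht
    rcases lt_or_ge t b with h | h
    · by_contra hcon
      exact ht (Or.inl ⟨h0, h, (not_le.1 hcon).le⟩)
    · have : slice K k t = ∅ := by
        rw [← not_nonempty_iff_eq_empty]
        exact fun h' => ht (Or.inr ⟨h, h'⟩)
      rw [this, hcone' t h]
      simp

end BerH

open BerH in
/-- Berwald's inequality in the form of the plan. -/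
theorem berwald_two {n : ℕ} (K : Set (Fin n → ℝ)) (hK : IsCompact K)
    (hc : Convex ℝ K) (hne : (interior K).Nonempty) (hpos : ∀ x ∈ K, ∀ k, 0 ≤ x k)
    (_hlow : ∀ x ∈ K, ∀ y : Fin n → ℝ, (∀ k, 0 ≤ y k ∧ y k ≤ x k) → y ∈ K) (k : Fin n) :
    ((n : ℝ) + 2) * ((volume K).toReal * ∫ x in K, x k ^ 2) ≤
      2 * ((n : ℝ) + 1) * (∫ x in K, x k) ^ 2 := by
  obtain ⟨d, rfl⟩ : ∃ d, n = d + 1 := ⟨n - 1, by have := k.pos; omega⟩
  have hv : 0 < volume.real K := by
    refine ENNReal.toReal_pos (fun h => ?_) hK.measure_lt_top.ne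
    have := isOpen_interior.measure_pos volume hne
    rw [measure_mono_null interior_subset h] at this
    exact lt_irrefl _ this
  have h := BerH.berwald hc hK k (fun x hx => hpos x hx k) hv
  have e : volume.real K = (volume K).toReal := rfl
  rw [e] at h
  push_cast
  linarith

end Vale.Agent.P254.Unc
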