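import Vale.Agent.P254.Criterion

/-!
Comparison of the isotropic constants of a body `K` and of a body `U` containing it.
-/

open MeasureTheory Set Matrix

namespace Vale.Agent.P254

variable {n : ℕ} {K U : Set (Fin n → ℝ)}

/-- the covariance matrix of a convex body is positive definite -/
lemma covMatrix_posDef (hU : IsConvexBody U) : (covMatrix U).PosDef := by
  have hc := hU.2.1
  have hV : 0 < (volume U).toReal :=
    ENNReal.toReal_pos ((isOpen_interior.measure_pos volume hU.2.2).trans_le
      (measure_mono interior_subset)).ne' hc.measure_ne_top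
  refine PosDef.of_dotProduct_mulVec_pos ?_ (fun y hy => ?_)
  · ext i j
    simp only [conjTranspose_apply, star_trivial]
    exact covMatrix_symm U j i
  · have e : star y ⬝ᵥ (covMatrix U *ᵥ y) = ∑ i, ∑ j, y i * covMatrix U i j * y j := by
      simp only [dotProduct, mulVec, star_trivial, Finset.mul_sum]
      refine Finset.sum_congr rfl (fun i _ => Finset.sum_congr rfl (fun j _ => ?_))
      ring
    rw [e, cov_quad hc]
    refine mul_pos (inv_pos.mpr hV) ?_
    have hcont : Continuous fun x : Fin n → ℝ => (∑ i, y i * (x i - centroid U i)) ^ 2 := by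
      fun_prop
    rw [setIntegral_pos_iff_support_of_nonneg_ae (Filter.Eventually.of_forall fun x => sq_nonneg _)
      (intOn hc hcont)]
    have hO : IsOpen (interior U ∩ Function.support
        fun x : Fin n → ℝ => (∑ i, y i * (x i - centroid U i)) ^ 2) :=
      isOpen_interior.inter (hcont.isOpen_support)
    refine lt_of_lt_of_le (hO.measure_pos volume ?_)
      (measure_mono fun x hx => ⟨hx.2, interior_subset hx.1⟩)
    obtain ⟨x, hx⟩ := hU.2.2
    by_cases h0 : ∑ i, y i * (x i - centroid U i) = 0
    · obtain ⟨r, hr, hball⟩ := Metric.isOpen_iff.mp isOpen_interior x hx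
      have hyn : 0 < ‖y‖ := norm_pos_iff.mpr hy
      refine ⟨x + (r / (2 * ‖y‖)) • y, hball ?_, ?_⟩
      · rw [Metric.mem_ball, dist_eq_norm, add_sub_cancel_left, norm_smul, Real.norm_eq_abs,
          abs_of_pos (by positivity)]
        have : r / (2 * ‖y‖) * ‖y‖ = r / 2 := by field_simp
        rw [this]
        linarith
      · rw [Function.mem_support]
        have e1 : ∑ i, y i * ((x + (r / (2 * ‖y‖)) • y) i - centroid U i)
            = (r / (2 * ‖y‖)) * ∑ i, y i ^ 2 := by
          simp only [Pi.add_apply, Pi.smul_apply, smul_eq_mul]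
          have : ∀ i, y i * (x i + r / (2 * ‖y‖) * y i - centroid U i)
              = y i * (x i - centroid U i) + r / (2 * ‖y‖) * y i ^ 2 := by intro i; ring
          simp_rw [this]
          rw [Finset.sum_add_distrib, h0, zero_add, Finset.mul_sum]
        rw [e1]
        have h2 : 0 < ∑ i, y i ^ 2 := by
          obtain ⟨k, hk⟩ := Function.ne_iff.mp hy
          exact Finset.sum_pos' (fun i _ => sq_nonneg _)
            ⟨k, Finset.mem_univ _, by have : y k ≠ 0 := hk; positivity⟩
        positivity
    · exact ⟨x, hx, by simpa [Function.mem_support] using h0⟩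

/-- second moments about an arbitrary point -/
lemma cov_shift (hK : IsCompact K) (hV : (volume K).toReal ≠ 0) (c : Fin n → ℝ) (i j : Fin n) :
    (volume K).toReal⁻¹ * (∫ x in K, (x i - c i) * (x j - c j))
      = covMatrix K i j + (centroid K i - c i) * (centroid K j - c j) := by
  have e : ∫ x in K, (x i - c i) * (x j - c j)
      = (∫ x in K, x i * x j) - c j * (∫ x in K, x i) - c i * (∫ x in K, x j)
        + (volume K).toReal * (c i * c j) := by
    have e1 : ∀ x : Fin n → ℝ, (x i - c i) * (x j - c j)
        = x i * x j - c j * x i - c i * x j + c i * c j := by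
      intro x; ring
    simp_rw [e1]
    rw [integral_add, integral_sub, integral_sub, integral_const_mul, integral_const_mul,
      setIntegral_const, smul_eq_mul, Measure.real]
    · exact intOn hK (by fun_prop)
    · exact intOn hK (by fun_prop)
    · exact intOn hK (by fun_prop)
    · exact intOn hK (by fun_prop)
    · exact intOn hK (by fun_prop)
    · exact intOn hK (by fun_prop)
  have hi : ∫ x in K, x i = (volume K).toReal * centroid K i := by
    simp only [centroid]; field_simp
  have hj : ∫ x in K, x j = (volume K).toReal * centroid K j := by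
    simp only [centroid]; field_simp
  rw [e, cov_eq hK hV, hi, hj]
  field_simp
  ring

/-- `det Σ_K ≤ (|U| / |K|)ⁿ det Σ_U` for `K ⊆ U`. -/
lemma det_cov_le_of_subset (hn : 0 < n) (hK : IsCompact K) (hV : 0 < (volume K).toReal)
    (hU : IsConvexBody U) (hKU : K ⊆ U) :
    (covMatrix K).det ≤ ((volume U).toReal / (volume K).toReal) ^ n * (covMatrix U).det := by
  have hn0 : (0 : ℝ) < n := by exact_mod_cast hn
  have hUc := hU.2.1
  have hVU : 0 < (volume U).toReal :=
    hV.trans_le (ENNReal.toReal_mono hUc.measure_ne_top (measure_mono hKU))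
  have hP := covMatrix_posDef hU
  set C := covMatrix U with hC
  have hCdet : 0 < C.det := hP.det_pos
  set B := C⁻¹ with hB
  have hBP : B.PosDef := hP.inv
  have hBC : B * C = 1 := nonsing_inv_mul _ (isUnit_iff_ne_zero.mpr hCdet.ne')
  have hBdet : B.det = C.det⁻¹ := by
    have : B.det * C.det = 1 := by rw [← det_mul, hBC, det_one]
    exact eq_inv_of_mul_eq_one_left this
  -- the quadratic form
  have hqc : ∀ c : Fin n → ℝ,
      Continuous fun x : Fin n → ℝ => ∑ i, ∑ j, B i j * ((x i - c i) * (x j - c j)) := by
    intro c; fun_prop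
  have hq0 : ∀ c x : Fin n → ℝ, 0 ≤ ∑ i, ∑ j, B i j * ((x i - c i) * (x j - c j)) := by
    intro c x
    have := hBP.posSemidef.dotProduct_mulVec_nonneg (x - c)
    refine this.trans (le_of_eq ?_)
    simp only [dotProduct, mulVec, star_trivial, Finset.mul_sum, Pi.sub_apply]
    refine Finset.sum_congr rfl (fun i _ => Finset.sum_congr rfl (fun j _ => ?_))
    ring
  have hint : ∀ (c : Fin n → ℝ) {L : Set (Fin n → ℝ)}, IsCompact L → (volume L).toReal ≠ 0 →
      (volume L).toReal⁻¹ * ∫ x in L, ∑ i, ∑ j, B i j * ((x i - c i) * (x j - c j))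
        = (B * covMatrix L).trace
          + ∑ i, ∑ j, B i j * ((centroid L i - c i) * (centroid L j - c j)) := by
    intro c L hL hLV
    have e1 : ∫ x in L, ∑ i, ∑ j, B i j * ((x i - c i) * (x j - c j))
        = ∑ i, ∑ j, B i j * ∫ x in L, (x i - c i) * (x j - c j) := by
      rw [integral_finsetSum _ (fun i _ => intOn hL (by fun_prop))]
      refine Finset.sum_congr rfl (fun i _ => ?_)
      rw [integral_finsetSum _ (fun j _ => intOn hL (by fun_prop))]
      refine Finset.sum_congr rfl (fun j _ => ?_)
      rw [integral_const_mul]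
    rw [e1, Finset.mul_sum]
    simp only [trace, diag_apply, mul_apply]
    rw [← Finset.sum_add_distrib]
    refine Finset.sum_congr rfl (fun i _ => ?_)
    rw [Finset.mul_sum, ← Finset.sum_add_distrib]
    refine Finset.sum_congr rfl (fun j _ => ?_)
    rw [mul_left_comm, cov_shift hL hLV, covMatrix_symm L j i]
    ring
  have hz : ∀ c : Fin n → ℝ,
      ∑ i : Fin n, ∑ j : Fin n, B i j * ((c i - c i) * (c j - c j)) = 0 := by
    intro c; simp
  set c := centroid U with hc
  have h1 := hint c hK hV.ne'
  have h2 := hint c hUc hVU.ne'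
  rw [← hc, ← hC, hBC, trace_one, Fintype.card_fin, hz, add_zero] at h2
  have h4 : 0 ≤ ∑ i, ∑ j, B i j * ((centroid K i - c i) * (centroid K j - c j)) :=
    hq0 c (centroid K)
  have h5 : ∫ x in K, ∑ i, ∑ j, B i j * ((x i - c i) * (x j - c j))
      ≤ ∫ x in U, ∑ i, ∑ j, B i j * ((x i - c i) * (x j - c j)) :=
    setIntegral_mono_set (intOn hUc (hqc c)) (Filter.Eventually.of_forall (hq0 c))
      (Filter.Eventually.of_forall hKU)
  have h6 : (B * covMatrix K).trace ≤ (volume U).toReal / (volume K).toReal * n := by
    have h7 : ∫ x in U, ∑ i, ∑ j, B i j * ((x i - c i) * (x j - c j))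
        = (volume U).toReal * n := by
      rw [← h2]; field_simp
    have h8 := mul_le_mul_of_nonneg_left (h5.trans h7.le) (inv_nonneg.mpr hV.le)
    rw [h1] at h8
    calc (B * covMatrix K).trace ≤ (volume K).toReal⁻¹ * ((volume U).toReal * n) := by linarith
      _ = _ := by field_simp
  have hKP := covMatrix_posSemidef hK
  have h9 := det_mul_det_le hn hBP.posSemidef hKP
  have h10 : 0 ≤ (B * covMatrix K).trace / n := by
    have h11 := hint (centroid K) hK hV.ne'
    rw [hz, add_zero] at h11
    rw [← h11]
    exact div_nonneg (mul_nonneg (inv_nonneg.mpr hV.le) (integral_nonneg (hq0 _))) hn0.le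
  have h11 : (B * covMatrix K).trace / n ≤ (volume U).toReal / (volume K).toReal := by
    rw [div_le_iff₀ hn0]; exact h6
  have h12 := h9.trans (pow_le_pow_left₀ h10 h11 n)
  rw [hBdet, inv_mul_eq_div, div_le_iff₀ hCdet] at h12
  exact h12

end Vale.Agent.P254
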