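import Vale.Agent.P254.Unc.E1Defs

/-!
P254, unconditional bodies, block E1b: fibre lengths of a closed lower set in the direction of the
coordinate `0` of the cube, and Fubini.
-/

open MeasureTheory Set
open scoped NNReal

namespace Vale.Agent.P254.Unc

variable {n : ℕ}

theorem Hf_nonneg (L : Set (X (n + 1))) (x : X n) : 0 ≤ Hf L x := ENNReal.toReal_nonneg

theorem Hf_le_one (L : Set (X (n + 1))) (x : X n) : Hf L x ≤ 1 := by
  unfold Hf
  have h : volume {t : unitInterval | (Fin.cons t x : X (n + 1)) ∈ L} ≤ 1 := prob_le_one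
  exact ENNReal.toReal_le_of_le_ofReal zero_le_one (by simpa using h)

theorem cons_le_cons' {x y : X n} (h : x ≤ y) (t : unitInterval) :
    (Fin.cons t x : X (n + 1)) ≤ Fin.cons t y := by
  intro k
  refine Fin.cases ?_ (fun j => ?_) k
  · simp
  · simpa using h j

theorem Hf_antitone {L : Set (X (n + 1))} (hlow : IsLowerSet L) : Antitone (Hf L) := by
  intro x y hxy
  unfold Hf
  refine ENNReal.toReal_mono (measure_ne_top _ _) (measure_mono ?_)
  intro t ht
  exact hlow (cons_le_cons' hxy t) ht

/-- The measurable equivalence between the cube and `I × (cube of dimension one less)`. -/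
theorem measurable_cons : Measurable
    (fun p : unitInterval × X n => (Fin.cons p.1 p.2 : X (n + 1))) := by
  refine measurable_pi_lambda _ fun k => ?_
  refine Fin.cases ?_ (fun j => ?_) k
  · simpa using measurable_fst
  · simp only [Fin.cons_succ]
    exact (measurable_pi_apply j).comp measurable_snd

theorem Hf_measurable {L : Set (X (n + 1))} (hL : MeasurableSet L) : Measurable (Hf L) := by
  unfold Hf
  have h : MeasurableSet
      ((fun p : unitInterval × X n => (Fin.cons p.1 p.2 : X (n + 1))) ⁻¹' L) :=
    measurable_cons hL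
  exact (measurable_measure_prodMk_right h).ennreal_toReal

/-- Fubini for the first coordinate. -/
theorem integral_cons {F : X (n + 1) → ℝ} (hF : Integrable F) :
    ∫ z, F z = ∫ x : X n, ∫ t : unitInterval, F (Fin.cons t x) := by
  have mp := (volume_preserving_piFinSuccAbove (fun _ : Fin (n + 1) => unitInterval) 0).symm
  have he : ∀ p : unitInterval × X n,
      (MeasurableEquiv.piFinSuccAbove (fun _ : Fin (n + 1) => unitInterval) 0).symm p
        = Fin.cons p.1 p.2 := by
    intro p
    rw [MeasurableEquiv.piFinSuccAbove_symm_apply, Fin.insertNthEquiv]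
    simp only [Equiv.coe_fn_mk]
    exact Fin.insertNth_zero _ _
  have h1 : ∫ z, F z = ∫ p : unitInterval × X n, F (Fin.cons p.1 p.2) := by
    rw [← mp.integral_comp']
    refine integral_congr_ae (Filter.Eventually.of_forall fun p => ?_)
    exact congrArg F (he p)
  have hint : Integrable (fun p : unitInterval × X n => F (Fin.cons p.1 p.2)) := by
    have := (mp.integrable_comp_emb (MeasurableEquiv.measurableEmbedding _)).2 hF
    refine this.congr (Filter.Eventually.of_forall fun p => ?_)
    exact congrArg F (he p)
  rw [h1]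
  exact integral_prod_symm _ hint

/-- Fubini for the first coordinate, on a measurable set. -/
theorem setIntegral_cons {L : Set (X (n + 1))} (hL : MeasurableSet L) {F : X (n + 1) → ℝ}
    (hF : Integrable F) :
    ∫ z in L, F z = ∫ x : X n, ∫ t in {t : unitInterval | (Fin.cons t x : X (n + 1)) ∈ L},
      F (Fin.cons t x) := by
  rw [← integral_indicator hL, integral_cons (hF.indicator hL)]
  refine integral_congr_ae (Filter.Eventually.of_forall fun x => ?_)
  have hS : MeasurableSet {t : unitInterval | (Fin.cons t x : X (n + 1)) ∈ L} :=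
    (measurable_cons.comp measurable_prodMk_right) hL
  simp only
  rw [← integral_indicator hS]
  rfl

/-- A closed lower set of the unit interval has `∫ t = |S|²/2`. -/
theorem integral_id_lower {S : Set unitInterval} (hS : IsClosed S) (hlow : IsLowerSet S) :
    ∫ t in S, (t : ℝ) = (volume S).toReal ^ 2 / 2 := by
  rcases S.eq_empty_or_nonempty with h | h
  · subst h; simp
  · obtain ⟨a, ha⟩ := hS.isCompact.exists_isGreatest h
    have hSa : S = Iic a := by
      ext t
      exact ⟨fun ht => ha.2 ht, fun ht => hlow ht ha.1⟩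
    rw [hSa, unitInterval.volume_Iic, ENNReal.toReal_ofReal a.2.1]
    have h1 : ∫ t in Iic a, (t : ℝ) = ∫ t : unitInterval,
        (fun s : ℝ => (Iic (a : ℝ)).indicator (fun s => s) s) (t : ℝ) := by
      rw [← integral_indicator measurableSet_Iic]
      rfl
    rw [h1]
    have h2 := integral_subtype_comap (μ := (volume : Measure ℝ))
      (measurableSet_Icc : MeasurableSet (Icc (0 : ℝ) 1))
      (fun s : ℝ => (Iic (a : ℝ)).indicator (fun s => s) s)
    have h3 : ∫ t : unitInterval, (fun s : ℝ => (Iic (a : ℝ)).indicator (fun s => s) s) (t : ℝ)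
        = ∫ s in Icc (0 : ℝ) 1, (Iic (a : ℝ)).indicator (fun s => s) s := h2
    rw [h3, setIntegral_indicator measurableSet_Iic]
    have h4 : Icc (0 : ℝ) 1 ∩ Iic (a : ℝ) = Icc 0 (a : ℝ) := by
      ext s
      simp only [mem_inter_iff, mem_Icc, mem_Iic]
      constructor
      · rintro ⟨⟨h0, _⟩, h2⟩; exact ⟨h0, h2⟩
      · rintro ⟨h0, h2⟩; exact ⟨⟨h0, h2.trans a.2.2⟩, h2⟩
    rw [h4, integral_Icc_eq_integral_Ioc, ← intervalIntegral.integral_of_le a.2.1]
    simp

theorem fib_isClosed {L : Set (X (n + 1))} (hL : IsClosed L) (x : X n) :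
    IsClosed {t : unitInterval | (Fin.cons t x : X (n + 1)) ∈ L} := by
  refine hL.preimage ?_
  refine continuous_pi fun k => ?_
  refine Fin.cases ?_ (fun j => ?_) k
  · simpa using continuous_id'
  · simpa using continuous_const

theorem fib_isLowerSet {L : Set (X (n + 1))} (hlow : IsLowerSet L) (x : X n) :
    IsLowerSet {t : unitInterval | (Fin.cons t x : X (n + 1)) ∈ L} := by
  intro s t hts hs
  refine hlow ?_ hs
  intro k
  refine Fin.cases ?_ (fun j => ?_) k
  · simpa using hts
  · simp

theorem integrable_coord (m : ℕ) (k : Fin m) :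
    Integrable (fun x : X m => ((x k : unitInterval) : ℝ)) := by
  refine Integrable.of_bound (C := 1) ?_ (Filter.Eventually.of_forall fun x => ?_)
  · exact (measurable_subtype_coe.comp (measurable_pi_apply k)).aestronglyMeasurable
  · rw [Real.norm_eq_abs, abs_of_nonneg (x k).2.1]
    exact (x k).2.2

theorem vol_eq_integral_Hf {L : Set (X (n + 1))} (hL : IsClosed L) :
    (volume L).toReal = ∫ x, Hf L x := by
  have h := setIntegral_cons hL.measurableSet (F := fun _ => (1 : ℝ)) (integrable_const _)
  simp only [integral_const, smul_eq_mul, mul_one] at h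
  rw [Measure.real, Measure.restrict_apply_univ] at h
  rw [h]
  refine integral_congr_ae (Filter.Eventually.of_forall fun x => ?_)
  simp [Hf, Measure.real]

theorem integral_zero_eq {L : Set (X (n + 1))} (hL : IsClosed L) (hlow : IsLowerSet L) :
    ∫ z in L, ((z 0 : unitInterval) : ℝ) = ∫ x, (Hf L x) ^ 2 / 2 := by
  rw [setIntegral_cons hL.measurableSet (integrable_coord (n + 1) 0)]
  refine integral_congr_ae (Filter.Eventually.of_forall fun x => ?_)
  simp only [Fin.cons_zero]
  exact integral_id_lower (fib_isClosed hL x) (fib_isLowerSet hlow x)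

theorem integral_succ_eq {L : Set (X (n + 1))} (hL : IsClosed L) (k : Fin n) :
    ∫ z in L, ((z k.succ : unitInterval) : ℝ) = ∫ x, ((x k : unitInterval) : ℝ) * Hf L x := by
  rw [setIntegral_cons hL.measurableSet (integrable_coord (n + 1) k.succ)]
  refine integral_congr_ae (Filter.Eventually.of_forall fun x => ?_)
  simp only [Fin.cons_succ, integral_const, smul_eq_mul]
  rw [Measure.real, Measure.restrict_apply_univ, mul_comm]
  rfl

theorem fub_vol (L : Set (X (n + 1))) (hL : IsClosed L) :
    (volume L).toReal = ∫ x : X n, Hf L x := vol_eq_integral_Hf hL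

theorem fub_zero (L : Set (X (n + 1))) (hL : IsClosed L) (hlow : IsLowerSet L) :
    2 * ∫ p in L, ((p 0 : unitInterval) : ℝ) = ∫ x : X n, Hf L x ^ 2 := by
  rw [integral_zero_eq hL hlow, ← integral_const_mul]
  refine integral_congr_ae (Filter.Eventually.of_forall fun x => ?_)
  simp only
  ring

theorem fub_succ (L : Set (X (n + 1))) (hL : IsClosed L) (k : Fin n) :
    ∫ p in L, ((p k.succ : unitInterval) : ℝ) = ∫ x : X n, ((x k : unitInterval) : ℝ) * Hf L x :=
  integral_succ_eq hL k

end Vale.Agent.P254.Unc
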