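import Vale.Agent.P254.Unc.Defs

open MeasureTheory Set
open scoped NNReal Pointwise

namespace Vale.Agent.P254.Unc

/-- Inclusion of the cube in `ℝⁿ`. -/
def inc {n : ℕ} (x : X n) : Fin n → ℝ := fun k => ((x k : unitInterval) : ℝ)

lemma continuous_inc {n : ℕ} : Continuous (inc : X n → Fin n → ℝ) := by
  unfold inc
  fun_prop

lemma injective_inc {n : ℕ} : Function.Injective (inc : X n → Fin n → ℝ) := by
  intro x y h
  funext k
  exact Subtype.ext (congrFun h k)

lemma measurableEmbedding_inc {n : ℕ} : MeasurableEmbedding (inc : X n → Fin n → ℝ) :=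
  (continuous_inc.isClosedEmbedding injective_inc).measurableEmbedding

lemma measurePreserving_inc (n : ℕ) :
    MeasurePreserving (inc : X n → Fin n → ℝ) volume (volume.restrict (Icc 0 1)) := by
  have h1 : MeasurePreserving (fun x : unitInterval => (x : ℝ)) volume
      (volume.restrict (Icc (0 : ℝ) 1)) := measurePreserving_subtype_coe measurableSet_Icc
  have h2 := measurePreserving_pi (fun _ : Fin n => (volume : Measure unitInterval))
    (fun _ : Fin n => (volume : Measure ℝ).restrict (Icc (0 : ℝ) 1)) (fun _ => h1)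
  rw [← Measure.restrict_pi_pi] at h2
  have h3 : (Set.univ.pi fun _ : Fin n => Icc (0 : ℝ) 1) = Icc (0 : Fin n → ℝ) 1 := by
    ext x
    simp only [mem_pi, mem_univ, true_implies, mem_Icc, Pi.le_def, Pi.zero_apply, Pi.one_apply]
    exact forall_and
  rw [h3] at h2
  exact h2

/-- The case of the unit cube. -/
lemma unc_unit {n : ℕ} (h : UNC n) (K : Set (Fin n → ℝ)) (hK : IsCompact K)
    (hc : Convex ℝ K) (hne : K.Nonempty) (hsub : K ⊆ Icc 0 1)
    (hlow : ∀ x ∈ K, ∀ y : Fin n → ℝ, (∀ k, 0 ≤ y k ∧ y k ≤ x k) → y ∈ K) :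
    ∏ k : Fin n, (2 * ∫ x in K, x k) ≤ (volume K).toReal ^ (n + 1) := by
  have hmp := measurePreserving_inc n
  have hr : (volume.restrict (Icc (0 : Fin n → ℝ) 1)).restrict K = volume.restrict K :=
    Measure.restrict_restrict_of_subset hsub
  have hint : ∀ k : Fin n, ∫ x in (inc : X n → Fin n → ℝ) ⁻¹' K, ((x k : unitInterval) : ℝ) =
      ∫ x in K, x k := by
    intro k
    have := hmp.setIntegral_preimage_emb measurableEmbedding_inc (fun y => y k) K
    rw [hr] at this
    exact this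
  have hvol : volume ((inc : X n → Fin n → ℝ) ⁻¹' K) = volume K := by
    rw [hmp.measure_preimage_emb measurableEmbedding_inc, Measure.restrict_apply' measurableSet_Icc,
      inter_eq_left.2 hsub]
  have := h ((inc : X n → Fin n → ℝ) ⁻¹' K) (hK.isClosed.preimage continuous_inc) ?_ ?_ ?_
  · simpa only [hint, hvol] using this
  · obtain ⟨x, hx⟩ := hne
    exact ⟨fun k => ⟨x k, (hsub hx).1 k, (hsub hx).2 k⟩, hx⟩
  · intro x y hyx hx
    exact hlow _ hx _ fun k => ⟨(y k).2.1, hyx k⟩
  · intro x hx y hy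
    have := hc hx hy (by norm_num : (0 : ℝ) ≤ 1 / 2) (by norm_num : (0 : ℝ) ≤ 1 / 2) (by norm_num)
    have e : inc (mid x y) = (1 / 2 : ℝ) • inc x + (1 / 2 : ℝ) • inc y := by
      funext k
      simp only [inc, mid, mid1, Pi.add_apply, Pi.smul_apply, smul_eq_mul]
      ring
    simpa only [mem_preimage, e] using this

/-- E2 -/
theorem unc_real {n : ℕ} (h : UNC n) (K : Set (Fin n → ℝ)) (hK : IsCompact K)
    (hc : Convex ℝ K) (hne : K.Nonempty) (hpos : ∀ x ∈ K, ∀ k, 0 ≤ x k)
    (hlow : ∀ x ∈ K, ∀ y : Fin n → ℝ, (∀ k, 0 ≤ y k ∧ y k ≤ x k) → y ∈ K) :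
    ∏ k : Fin n, (2 * ∫ x in K, x k) ≤ (volume K).toReal ^ (n + 1) := by
  obtain ⟨C, hC⟩ := hK.isBounded.exists_norm_le
  set R : ℝ := max C 1 with hRdef
  have hR : 0 < R := lt_max_of_lt_right one_pos
  have hR0 : R ≠ 0 := hR.ne'
  have hKR : ∀ x ∈ K, ∀ k, x k ≤ R := fun x hx k =>
    (le_abs_self _).trans ((norm_le_pi_norm x k).trans ((hC x hx).trans (le_max_left _ _)))
  have hmem : ∀ y, y ∈ R⁻¹ • K ↔ R • y ∈ K := fun y => by
    rw [mem_inv_smul_set_iff₀ hR0]
  have hU := unc_unit h (R⁻¹ • K) (hK.smul _) (hc.smul _) (hne.smul_set) ?_ ?_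
  · have hK' : R • (R⁻¹ • K) = K := smul_inv_smul₀ hR0 K
    have hint : ∀ k : Fin n, ∫ x in K, x k = R ^ (n + 1) * ∫ x in R⁻¹ • K, x k := by
      intro k
      have := Measure.setIntegral_comp_smul (μ := (volume : Measure (Fin n → ℝ)))
        (fun x : Fin n → ℝ => x k) (R⁻¹ • K) hR0
      rw [hK'] at this
      simp only [Pi.smul_apply, smul_eq_mul, Module.finrank_fintype_fun_eq_card,
        Fintype.card_fin, integral_const_mul] at this
      rw [abs_of_pos (by positivity)] at this
      have hRn : R ^ n ≠ 0 := pow_ne_zero _ hR0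
      rw [pow_succ, mul_assoc, this, mul_inv_cancel_left₀ hRn]
    have hvol : (volume K).toReal = R ^ n * (volume (R⁻¹ • K)).toReal := by
      conv_lhs => rw [← hK']
      rw [Measure.addHaar_smul, ENNReal.toReal_mul, ENNReal.toReal_ofReal (abs_nonneg _),
        abs_of_pos (by positivity)]
      simp
    simp only [hint, hvol]
    calc ∏ k : Fin n, (2 * (R ^ (n + 1) * ∫ x in R⁻¹ • K, x k))
        = (R ^ (n + 1)) ^ n * ∏ k : Fin n, (2 * ∫ x in R⁻¹ • K, x k) := by
          rw [show (fun k : Fin n => 2 * (R ^ (n + 1) * ∫ x in R⁻¹ • K, x k)) =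
            fun k => R ^ (n + 1) * (2 * ∫ x in R⁻¹ • K, x k) from funext fun k => by ring,
            Finset.prod_mul_distrib]
          simp
      _ ≤ (R ^ (n + 1)) ^ n * (volume (R⁻¹ • K)).toReal ^ (n + 1) := by gcongr
      _ = (R ^ n * (volume (R⁻¹ • K)).toReal) ^ (n + 1) := by ring
  · intro y hy
    rw [hmem] at hy
    constructor
    · intro k
      have := hpos _ hy k
      simp only [Pi.smul_apply, smul_eq_mul] at this
      exact nonneg_of_mul_nonneg_right this hR
    · intro k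
      have := hKR _ hy k
      simp only [Pi.smul_apply, smul_eq_mul] at this
      have h2 : R * y k ≤ R * 1 := by linarith
      exact le_of_mul_le_mul_left h2 hR
  · intro x hx y hy
    rw [hmem] at hx ⊢
    refine hlow _ hx _ fun k => ?_
    simp only [Pi.smul_apply, smul_eq_mul]
    exact ⟨mul_nonneg hR.le (hy k).1, mul_le_mul_of_nonneg_left (hy k).2 hR.le⟩

end Vale.Agent.P254.Unc
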