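import Vale.Agent.P254.Unc.E1Defs

open MeasureTheory Set Filter Topology
open scoped NNReal

namespace Vale.Agent.P254.Unc

variable {n : ℕ}

/-- The function whose maximum over `L` is the sup-convolution at `x`. -/
noncomputable def scF (N : ℕ) (x : X n) (p : X (n + 1)) : ℝ :=
  ((p 0 : unitInterval) : ℝ) - N * dist x (Fin.tail p)

/-- The sup-convolution. -/
noncomputable def scG (L : Set (X (n + 1))) (N : ℕ) (x : X n) : ℝ := sSup (scF N x '' L)

theorem sc_continuous_tail : Continuous (fun p : X (n + 1) => (Fin.tail p : X n)) := by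
  apply continuous_pi
  intro i
  exact continuous_apply i.succ

theorem continuous_scF (N : ℕ) (x : X n) : Continuous (scF N x) := by
  unfold scF
  have h1 : Continuous (fun p : X (n + 1) => ((p 0 : unitInterval) : ℝ)) :=
    continuous_subtype_val.comp (continuous_apply 0)
  have h2 : Continuous (fun p : X (n + 1) => dist x (Fin.tail p : X n)) :=
    continuous_const.dist sc_continuous_tail
  exact h1.sub (continuous_const.mul h2)

theorem scG_max {L : Set (X (n + 1))} (hL : IsClosed L) (hne : L.Nonempty) (N : ℕ) (x : X n) :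
    ∃ p ∈ L, scG L N x = scF N x p ∧ ∀ q ∈ L, scF N x q ≤ scG L N x := by
  obtain ⟨p, hp, hmax⟩ := hL.isCompact.exists_isMaxOn hne (continuous_scF N x).continuousOn
  have hE : scG L N x = scF N x p := by
    unfold scG
    apply le_antisymm
    · apply csSup_le (hne.image _)
      rintro _ ⟨q, hq, rfl⟩
      exact hmax hq
    · apply le_csSup
      · refine ⟨scF N x p, ?_⟩
        rintro _ ⟨q, hq, rfl⟩
        exact hmax hq
      · exact ⟨p, hp, rfl⟩
  refine ⟨p, hp, hE, fun q hq => ?_⟩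
  rw [hE]
  exact hmax hq

theorem scG_lip {L : Set (X (n + 1))} (hL : IsClosed L) (hne : L.Nonempty) (N : ℕ) :
    LipschitzWith (N : ℝ≥0) (scG L N) := by
  apply LipschitzWith.of_le_add_mul
  intro x y
  obtain ⟨p, hp, hE, -⟩ := scG_max hL hne N x
  obtain ⟨-, -, -, hy⟩ := scG_max hL hne N y
  have h1 := hy p hp
  rw [hE]
  refine le_trans ?_ (add_le_add_left h1 _)
  unfold scF
  have h2 : dist y (Fin.tail p) ≤ dist x y + dist x (Fin.tail p) := by
    rw [dist_comm x y]; exact dist_triangle _ _ _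
  have h3 : (N : ℝ) * dist y (Fin.tail p) ≤ N * (dist x y + dist x (Fin.tail p)) :=
    mul_le_mul_of_nonneg_left h2 (Nat.cast_nonneg N)
  have h4 : (((N : ℝ≥0)) : ℝ) = (N : ℝ) := by simp
  rw [h4]
  nlinarith

theorem sc_mid_tail (p q : X (n + 1)) :
    (Fin.tail (mid p q) : X n) = mid (Fin.tail p) (Fin.tail q) := rfl

theorem sc_dist_mid (x y a b : X n) : dist (mid x y) (mid a b) ≤ (dist x a + dist y b) / 2 := by
  rw [dist_pi_le_iff (by positivity)]
  intro k
  have h1 : dist (x k) (a k) ≤ dist x a := dist_le_pi_dist x a k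
  have h2 : dist (y k) (b k) ≤ dist y b := dist_le_pi_dist y b k
  have h3 : dist (mid x y k) (mid a b k) ≤ (dist (x k) (a k) + dist (y k) (b k)) / 2 := by
    rw [Subtype.dist_eq, Subtype.dist_eq, Subtype.dist_eq, Real.dist_eq, Real.dist_eq,
      Real.dist_eq]
    simp only [mid, mid1]
    rw [abs_le]
    have e1 := abs_le.1 (le_refl |((x k : unitInterval) : ℝ) - (a k : ℝ)|)
    have e2 := abs_le.1 (le_refl |((y k : unitInterval) : ℝ) - (b k : ℝ)|)
    constructor
    · linarith [e1.1, e2.1]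
    · linarith [e1.2, e2.2]
  linarith

theorem scG_rel {L : Set (X (n + 1))} (hL : IsClosed L) (hne : L.Nonempty)
    (hmid : ∀ x ∈ L, ∀ y ∈ L, mid x y ∈ L) (N : ℕ) :
    Rel (scG L N) (scG L N) (scG L N) := by
  intro x y
  obtain ⟨p, hp, hEp, -⟩ := scG_max hL hne N x
  obtain ⟨q, hq, hEq, -⟩ := scG_max hL hne N y
  obtain ⟨-, -, -, hz⟩ := scG_max hL hne N (mid x y)
  refine le_trans ?_ (hz (mid p q) (hmid p hp q hq))
  rw [hEp, hEq]
  unfold scF
  rw [sc_mid_tail]
  have h1 := mul_le_mul_of_nonneg_left (sc_dist_mid x y (Fin.tail p) (Fin.tail q))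
    (Nat.cast_nonneg (α := ℝ) N)
  have h2 : ((mid p q 0 : unitInterval) : ℝ) = ((p 0 : ℝ) + (q 0 : ℝ)) / 2 := rfl
  rw [h2]
  linarith

theorem scG_anti {L : Set (X (n + 1))} (hL : IsClosed L) (hne : L.Nonempty)
    (hlow : IsLowerSet L) (N : ℕ) : Antitone (scG L N) := by
  intro x y hxy
  obtain ⟨p, hp, hEp, -⟩ := scG_max hL hne N y
  obtain ⟨-, -, -, hz⟩ := scG_max hL hne N x
  have hq : (Fin.cons (p 0) (Fin.tail p ⊓ x) : X (n + 1)) ∈ L := by
    apply hlow _ hp
    intro i
    refine Fin.cases ?_ (fun j => ?_) i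
    · simp
    · simp only [Fin.cons_succ, Pi.inf_apply, Fin.tail]
      exact inf_le_left
  refine le_trans ?_ (hz _ hq)
  rw [hEp]
  unfold scF
  rw [Fin.cons_zero, Fin.tail_cons]
  have h1 : dist x (Fin.tail p ⊓ x) ≤ dist y (Fin.tail p) := by
    rw [dist_pi_le_iff dist_nonneg]
    intro k
    refine le_trans ?_ (dist_le_pi_dist y (Fin.tail p) k)
    rw [Subtype.dist_eq, Subtype.dist_eq, Real.dist_eq, Real.dist_eq]
    have hk : ((x k : unitInterval) : ℝ) ≤ y k := hxy k
    rcases le_total (Fin.tail p k : unitInterval) (x k) with h | h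
    · have e : ((Fin.tail p ⊓ x) k : unitInterval) = Fin.tail p k := by
        rw [Pi.inf_apply]; exact inf_eq_left.2 h
      rw [e]
      have h' : ((Fin.tail p k : unitInterval) : ℝ) ≤ x k := h
      rw [abs_of_nonneg (by linarith), abs_of_nonneg (by linarith)]
      linarith
    · have e : ((Fin.tail p ⊓ x) k : unitInterval) = x k := by
        rw [Pi.inf_apply]; exact inf_eq_right.2 h
      rw [e]
      simp
  have h2 := mul_le_mul_of_nonneg_left h1 (Nat.cast_nonneg (α := ℝ) N)
  linarith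

theorem scG_le_one {L : Set (X (n + 1))} (hL : IsClosed L) (hne : L.Nonempty) (N : ℕ) (x : X n) :
    scG L N x ≤ 1 := by
  obtain ⟨p, -, hEp, -⟩ := scG_max hL hne N x
  rw [hEp]
  unfold scF
  have h1 : ((p 0 : unitInterval) : ℝ) ≤ 1 := (p 0).2.2
  have h2 : 0 ≤ (N : ℝ) * dist x (Fin.tail p) := by positivity
  linarith

theorem scG_anti_N {L : Set (X (n + 1))} (hL : IsClosed L) (hne : L.Nonempty) {N N' : ℕ}
    (h : N ≤ N') (x : X n) : scG L N' x ≤ scG L N x := by
  obtain ⟨p, hp, hEp, -⟩ := scG_max hL hne N' x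
  obtain ⟨-, -, -, hz⟩ := scG_max hL hne N x
  rw [hEp]
  refine le_trans ?_ (hz p hp)
  unfold scF
  have h1 : (N : ℝ) ≤ N' := by exact_mod_cast h
  have h2 := mul_le_mul_of_nonneg_right h1 (dist_nonneg (x := x) (y := Fin.tail p))
  linarith

theorem scHf_nonneg (L : Set (X (n + 1))) (x : X n) : 0 ≤ Hf L x := ENNReal.toReal_nonneg

/-- upper bound for `Hf` -/
theorem scHf_le {L : Set (X (n + 1))} {x : X n} {c : ℝ} (hc : 0 ≤ c)
    (h : ∀ t : unitInterval, (Fin.cons t x : X (n + 1)) ∈ L → (t : ℝ) ≤ c) : Hf L x ≤ c := by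
  rcases le_total c 1 with hc1 | hc1
  · have h1 : {t : unitInterval | (Fin.cons t x : X (n + 1)) ∈ L} ⊆
        Set.Iic (⟨c, hc, hc1⟩ : unitInterval) := by
      intro t ht
      exact h t ht
    have h2 := measure_mono (μ := (volume : Measure unitInterval)) h1
    rw [unitInterval.volume_Iic] at h2
    unfold Hf
    exact ENNReal.toReal_le_of_le_ofReal hc h2
  · refine le_trans ?_ hc1
    unfold Hf
    have h2 := prob_le_one (μ := (volume : Measure unitInterval))
      (s := {t : unitInterval | (Fin.cons t x : X (n + 1)) ∈ L})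
    exact ENNReal.toReal_le_of_le_ofReal zero_le_one (by simpa using h2)

/-- lower bound for `Hf` -/
theorem le_scHf {L : Set (X (n + 1))} (hlow : IsLowerSet L) {x : X n} {t : unitInterval}
    (h : (Fin.cons t x : X (n + 1)) ∈ L) : (t : ℝ) ≤ Hf L x := by
  have h1 : Set.Iic t ⊆ {t : unitInterval | (Fin.cons t x : X (n + 1)) ∈ L} := by
    intro s hs
    apply hlow _ h
    intro i
    refine Fin.cases ?_ (fun j => ?_) i
    · simpa using hs
    · simp
  have h2 := measure_mono (μ := (volume : Measure unitInterval)) h1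
  rw [unitInterval.volume_Iic] at h2
  unfold Hf
  have h3 : (volume {t : unitInterval | (Fin.cons t x : X (n + 1)) ∈ L}) ≠ ⊤ :=
    measure_ne_top _ _
  exact (ENNReal.ofReal_le_iff_le_toReal h3).1 h2

theorem Hf_le_scG {L : Set (X (n + 1))} (hL : IsClosed L) (hne : L.Nonempty) (N : ℕ) (x : X n) :
    Hf L x ≤ max (scG L N x) 0 := by
  apply scHf_le (le_max_right _ _)
  intro t ht
  obtain ⟨-, -, -, hz⟩ := scG_max hL hne N x
  have h1 := hz _ ht
  unfold scF at h1
  rw [Fin.cons_zero, Fin.tail_cons, dist_self, mul_zero, sub_zero] at h1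
  exact le_trans h1 (le_max_left _ _)

theorem scG_tendsto {L : Set (X (n + 1))} (hL : IsClosed L) (hne : L.Nonempty)
    (hlow : IsLowerSet L) (x : X n) :
    Tendsto (fun N => max (scG L N x) 0) atTop (𝓝 (Hf L x)) := by
  rw [tendsto_order]
  refine ⟨fun a ha => Eventually.of_forall fun N => lt_of_lt_of_le ha (Hf_le_scG hL hne N x),
    fun c hc => ?_⟩
  by_contra hcon
  rw [not_eventually] at hcon
  have hcpos : 0 < c := lt_of_le_of_lt (scHf_nonneg L x) hc
  -- all `scG L N x ≥ c`
  have hall : ∀ N, c ≤ scG L N x := by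
    intro N
    obtain ⟨N', hN', h⟩ := (frequently_atTop.1 hcon) N
    rw [not_lt] at h
    have h' : c ≤ scG L N' x := by
      rcases le_max_iff.1 h with h | h
      · exact h
      · linarith
    exact h'.trans (scG_anti_N hL hne hN' x)
  let C : ℕ → Set (X (n + 1)) := fun N => L ∩ {p | c ≤ scF N x p}
  have hCcl : ∀ N, IsClosed (C N) := fun N =>
    hL.inter (isClosed_le continuous_const (continuous_scF N x))
  have hCne : ∀ N, (C N).Nonempty := by
    intro N
    obtain ⟨p, hp, hE, -⟩ := scG_max hL hne N x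
    exact ⟨p, hp, by rw [mem_ofPred_eq, ← hE]; exact hall N⟩
  have hCanti : ∀ N, C (N + 1) ⊆ C N := by
    rintro N p ⟨hp, hp'⟩
    refine ⟨hp, ?_⟩
    rw [mem_ofPred_eq] at hp' ⊢
    refine hp'.trans ?_
    unfold scF
    push_cast
    have := dist_nonneg (x := x) (y := Fin.tail p)
    nlinarith
  obtain ⟨p, hp⟩ := IsCompact.nonempty_iInter_of_sequence_nonempty_isCompact_isClosed C hCanti
    hCne (hCcl 0).isCompact hCcl
  rw [mem_iInter] at hp
  have hpL : p ∈ L := (hp 0).1
  have hp0 : c ≤ ((p 0 : unitInterval) : ℝ) := by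
    have := (hp 0).2
    rw [mem_ofPred_eq] at this
    unfold scF at this
    simpa using this
  have hdist : dist x (Fin.tail p) = 0 := by
    by_contra hne0
    have hpos : 0 < dist x (Fin.tail p) := lt_of_le_of_ne dist_nonneg (Ne.symm hne0)
    obtain ⟨N, hN⟩ := exists_nat_gt (1 / dist x (Fin.tail p))
    have h1 := (hp N).2
    rw [mem_ofPred_eq] at h1
    unfold scF at h1
    have h2 : ((p 0 : unitInterval) : ℝ) ≤ 1 := (p 0).2.2
    have h3 : 1 < N * dist x (Fin.tail p) := by
      rwa [div_lt_iff₀ hpos] at hN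
    linarith
  have hx : x = Fin.tail p := dist_eq_zero.1 hdist
  have hmem : (Fin.cons (p 0) x : X (n + 1)) ∈ L := by
    rw [hx, Fin.cons_self_tail]
    exact hpL
  have := le_scHf hlow hmem
  linarith

theorem exists_supconv (L : Set (X (n + 1))) (hL : IsClosed L) (hne : L.Nonempty)
    (hlow : IsLowerSet L) (hmid : ∀ x ∈ L, ∀ y ∈ L, mid x y ∈ L) :
    ∃ g : ℕ → X n → ℝ, (∀ N, ∃ K, LipschitzWith K (g N)) ∧ (∀ N, Rel (g N) (g N) (g N)) ∧
      (∀ N, Antitone (g N)) ∧ (∀ N x, g N x ≤ 1) ∧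
      ∀ x, Tendsto (fun N => max (g N x) 0) atTop (𝓝 (Hf L x)) :=
  ⟨fun N => scG L N, fun N => ⟨_, scG_lip hL hne N⟩, fun N => scG_rel hL hne hmid N,
    fun N => scG_anti hL hne hlow N, fun N x => scG_le_one hL hne N x,
    fun x => scG_tendsto hL hne hlow x⟩

end Vale.Agent.P254.Unc
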