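import Vale.Agent.P254.Unc.Defs2

/-! Block D1a: antitone densities are nearly maximised at the value of the projection at `0`. -/

open MeasureTheory Set
open scoped NNReal

namespace Vale.Agent.P254.Unc

variable {n : ℕ} {M : ℝ≥0}

/-- Lebesgue measure on the unit interval charges open sets. -/
theorem isOpenPos_I : (volume : Measure unitInterval).IsOpenPosMeasure := by
  refine ⟨fun U hU hne => ?_⟩
  obtain ⟨x, hx⟩ := hne
  obtain ⟨V, hV, rfl⟩ := isOpen_induced_iff.1 hU
  have hxV : (x : ℝ) ∈ V := hx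
  have hcl : (x : ℝ) ∈ closure (Ioo (0 : ℝ) 1) := by
    rw [closure_Ioo (by norm_num)]
    exact x.2
  obtain ⟨y, hyV, hyI⟩ := mem_closure_iff.1 hcl V hV hxV
  have hsub : V ∩ Ioo (0 : ℝ) 1 ⊆ (Subtype.val : unitInterval → ℝ) '' (Subtype.val ⁻¹' V) := by
    rintro z ⟨hz, hz'⟩
    exact ⟨⟨z, hz'.1.le, hz'.2.le⟩, hz, rfl⟩
  have hpos : 0 < volume (V ∩ Ioo (0 : ℝ) 1) :=
    (hV.inter isOpen_Ioo).measure_pos volume ⟨y, hyV, hyI⟩
  have himg : volume ((Subtype.val : unitInterval → ℝ) '' (Subtype.val ⁻¹' V))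
      = volume ((Subtype.val : unitInterval → ℝ) ⁻¹' V) :=
    volume_image_subtype_coe measurableSet_Icc _
  rw [← himg]
  exact (hpos.trans_le (measure_mono hsub)).ne'

theorem isOpenPos_X (n : ℕ) : (volume : Measure (X n)).IsOpenPosMeasure := by
  have := isOpenPos_I
  rw [volume_pi]
  infer_instance

theorem integrable_of_cont {f : X n → ℝ} (hf : Continuous f) : Integrable f :=
  hf.integrable_of_hasCompactSupport (HasCompactSupport.of_compactSpace f)

theorem integral_sub_mul {f g v : X n → ℝ} (hf : Continuous f) (hg : Continuous g)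
    (hv : Continuous v) :
    ∫ x, (f x - g x) * v x = (∫ x, f x * v x) - ∫ x, g x * v x := by
  rw [← integral_sub (integrable_of_cont (f := fun x => f x * v x) (hf.mul hv))
    (integrable_of_cont (f := fun x => g x * v x) (hg.mul hv))]
  exact integral_congr_ae (Filter.Eventually.of_forall fun x => by simp only []; ring)

/-- D1a -/
theorem IsProj.dens_le {f g : X n → ℝ} (h : IsProj f g) (hf : Continuous f) (hg : Continuous g)
    {ρ : X n → ℝ} (hρ : Dens n ρ) : ∫ x, f x * ρ x ≤ g 0 := by
  obtain ⟨K, hK⟩ := hρ.lip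
  have hρc : Continuous ρ := hK.continuous
  have h1 := h.le ρ hρ.anti hρ.lip
  have h2 := integral_sub_mul hf hg hρc
  have h3 : ∫ x, g x * ρ x ≤ ∫ x, g 0 * ρ x := by
    refine integral_mono (integrable_of_cont (hg.mul hρc))
      (integrable_of_cont (continuous_const.mul hρc)) fun x => ?_
    exact mul_le_mul_of_nonneg_right (h.anti (fun k => (x k).2.1)) (hρ.nonneg x)
  have h4 : ∫ x, g 0 * ρ x = g 0 := by
    rw [integral_const_mul, hρ.int, mul_one]
  linarith

/-- D1a -/
theorem IsProj.exists_dens {f g : X n → ℝ} (h : IsProj f g) (hf : Continuous f)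
    (hg : LipschitzWith M g) {ε : ℝ} (hε : 0 < ε) :
    ∃ ρ, Dens n ρ ∧ g 0 - ε ≤ ∫ x, f x * ρ x := by
  have := isOpenPos_X n
  set t : ℝ := g 0 - ε with ht
  set φ : X n → ℝ := fun x => max (g x - t) 0 with hφ
  set ψ : X n → ℝ := fun x => min (g x) t with hψ
  have hgc : Continuous g := hg.continuous
  have hφanti : Antitone φ := fun x y hxy =>
    max_le_max (sub_le_sub_right (h.anti hxy) t) le_rfl
  have hψanti : Antitone ψ := fun x y hxy => min_le_min (h.anti hxy) le_rfl
  have hψlip : LipschitzWith M ψ := hg.min_const t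
  have hφeq : φ = fun x => g x - ψ x := by
    funext x
    simp only [hφ, hψ]
    rcases le_total (g x) t with h' | h'
    · rw [max_eq_right (by linarith), min_eq_left h']; ring
    · rw [max_eq_left (by linarith), min_eq_right h']
  have hφlip : LipschitzWith M φ := by
    refine LipschitzWith.of_dist_le_mul fun x y => ?_
    have := hg.dist_le_mul x y
    refine le_trans ?_ this
    simp only [Real.dist_eq, hφ]
    refine (abs_max_sub_max_le_abs _ _ _).trans ?_
    rw [show g x - t - (g y - t) = g x - g y by ring]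
  have hφc : Continuous φ := hφlip.continuous
  have hψc : Continuous ψ := hψlip.continuous
  have hφnn : ∀ x, 0 ≤ φ x := fun x => le_max_right _ _
  have hφ0 : φ 0 ≠ 0 := by
    simp only [hφ, ht]
    rw [max_eq_left (by linarith)]
    linarith
  have hI : 0 < ∫ x, φ x :=
    hφc.integral_pos_of_hasCompactSupport_nonneg_nonzero
      (HasCompactSupport.of_compactSpace φ) hφnn hφ0
  have e1 : ∫ x, (f x - g x) * φ x ≤ 0 := h.le φ hφanti ⟨M, hφlip⟩
  have e2 : ∫ x, (f x - g x) * ψ x ≤ 0 := h.le ψ hψanti ⟨M, hψlip⟩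
  have e3 : (∫ x, (f x - g x) * φ x) + ∫ x, (f x - g x) * ψ x = 0 := by
    rw [← h.eq, ← integral_add
      (integrable_of_cont (f := fun x => (f x - g x) * φ x) ((hf.sub hgc).mul hφc))
      (integrable_of_cont (f := fun x => (f x - g x) * ψ x) ((hf.sub hgc).mul hψc))]
    refine integral_congr_ae (Filter.Eventually.of_forall fun x => ?_)
    have := congrFun hφeq x
    simp only [] at this ⊢
    rw [this]; ring
  have e4 : ∫ x, (f x - g x) * φ x = 0 := by linarith
  have e5 : (∫ x, f x * φ x) = ∫ x, g x * φ x := by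
    have := integral_sub_mul hf hgc hφc
    linarith
  have e6 : ∫ x, t * φ x ≤ ∫ x, g x * φ x := by
    refine integral_mono (integrable_of_cont (continuous_const.mul hφc))
      (integrable_of_cont (hgc.mul hφc)) fun x => ?_
    simp only [hφ]
    rcases le_total (g x) t with h' | h'
    · rw [max_eq_right (by linarith)]; simp
    · exact mul_le_mul_of_nonneg_right h' (le_max_right _ _)
  rw [integral_const_mul] at e6
  set I : ℝ := ∫ x, φ x with hIdef
  refine ⟨fun x => I⁻¹ * φ x, ⟨?_, ?_, ?_, ?_⟩, ?_⟩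
  · intro x y hxy
    exact mul_le_mul_of_nonneg_left (hφanti hxy) (inv_nonneg.2 hI.le)
  · intro x
    exact mul_nonneg (inv_nonneg.2 hI.le) (hφnn x)
  · refine ⟨Real.toNNReal I⁻¹ * M, LipschitzWith.of_dist_le_mul fun x y => ?_⟩
    have := hφlip.dist_le_mul x y
    rw [Real.dist_eq] at this ⊢
    rw [← mul_sub, abs_mul, abs_of_nonneg (inv_nonneg.2 hI.le)]
    push_cast
    rw [Real.coe_toNNReal _ (inv_nonneg.2 hI.le), mul_assoc]
    exact mul_le_mul_of_nonneg_left this (inv_nonneg.2 hI.le)
  · rw [integral_const_mul, ← hIdef]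
    exact inv_mul_cancel₀ hI.ne'
  · have : ∫ x, f x * (I⁻¹ * φ x) = I⁻¹ * ∫ x, f x * φ x := by
      rw [← integral_const_mul]
      exact integral_congr_ae (Filter.Eventually.of_forall fun x => by simp only []; ring)
    rw [this, e5]
    calc t = I⁻¹ * (t * I) := by field_simp
      _ ≤ I⁻¹ * ∫ x, g x * φ x := mul_le_mul_of_nonneg_left e6 (inv_nonneg.2 hI.le)

end Vale.Agent.P254.Unc
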