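import Vale.Agent.P254.Unc.Defs

open MeasureTheory Set Filter Topology
open scoped NNReal

namespace Vale.Agent.P254.Unc

variable {n : ℕ} {M : ℝ≥0}

theorem d1b_isOpenPos : (volume : Measure unitInterval).IsOpenPosMeasure where
  open_pos := by
    rintro U hU ⟨x, hx⟩ h0
    obtain ⟨V, hV, rfl⟩ := isOpen_induced_iff.1 hU
    have hcl : (x : ℝ) ∈ closure (Ioo (0 : ℝ) 1) := by
      rw [closure_Ioo zero_ne_one]; exact x.2
    obtain ⟨y, hyV, hy⟩ := mem_closure_iff.1 hcl V hV hx
    have hW : (V ∩ Ioo (0 : ℝ) 1).Nonempty := ⟨y, hyV, hy⟩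
    have hWo : IsOpen (V ∩ Ioo (0 : ℝ) 1) := hV.inter isOpen_Ioo
    have hpos := hWo.measure_pos (volume : Measure ℝ) hW
    have hsub : V ∩ Ioo (0 : ℝ) 1 ⊆ Subtype.val '' (Subtype.val ⁻¹' V : Set unitInterval) := by
      rintro z ⟨hzV, hz⟩
      exact ⟨⟨z, hz.1.le, hz.2.le⟩, hzV, rfl⟩
    have h1 : (volume : Measure unitInterval) (Subtype.val ⁻¹' V) =
        volume (Subtype.val '' (Subtype.val ⁻¹' V : Set unitInterval)) :=
      unitInterval.volume_apply
    rw [h0] at h1
    exact absurd (measure_mono_null hsub h1.symm) hpos.ne'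

/-- the cut-off profile -/
noncomputable def d1bcut (t : ℝ) (j : ℕ) (s : ℝ) : ℝ := min 1 (max 0 (1 + ((j : ℝ) + 1) * (s - t)))

theorem d1bcut_mono (t : ℝ) (j : ℕ) : Monotone (d1bcut t j) := by
  intro a b hab
  unfold d1bcut
  have : (0 : ℝ) ≤ (j : ℝ) + 1 := by positivity
  exact min_le_min le_rfl (max_le_max le_rfl (by nlinarith))

theorem d1bcut_nonneg (t : ℝ) (j : ℕ) (s : ℝ) : 0 ≤ d1bcut t j s := by
  unfold d1bcut; exact le_min zero_le_one (le_max_left _ _)

theorem d1bcut_le_one (t : ℝ) (j : ℕ) (s : ℝ) : d1bcut t j s ≤ 1 := by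
  unfold d1bcut; exact min_le_left _ _

theorem d1bcut_le_add (t : ℝ) (j : ℕ) (a b : ℝ) (hab : a ≤ b) :
    d1bcut t j b ≤ d1bcut t j a + ((j : ℝ) + 1) * (b - a) := by
  unfold d1bcut
  have hj : (0 : ℝ) ≤ (j : ℝ) + 1 := by positivity
  have h0 : 0 ≤ ((j : ℝ) + 1) * (b - a) := mul_nonneg hj (by linarith)
  rcases le_total (1 + ((j : ℝ) + 1) * (b - t)) 0 with h | h
  · rw [max_eq_left h]
    have : (min 1 0 : ℝ) ≤ min 1 (max 0 (1 + ((j : ℝ) + 1) * (a - t))) :=
      min_le_min le_rfl (le_max_left _ _)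
    linarith
  · rw [max_eq_right h]
    rw [← min_add_add_right]
    refine min_le_min (by linarith) ?_
    have : 1 + ((j : ℝ) + 1) * (a - t) ≤ max 0 (1 + ((j : ℝ) + 1) * (a - t)) := le_max_right _ _
    nlinarith

theorem d1bcut_tendsto (t s : ℝ) :
    Tendsto (fun j : ℕ => d1bcut t j s) atTop (𝓝 (if t ≤ s then 1 else 0)) := by
  split_ifs with h
  · have : ∀ j : ℕ, d1bcut t j s = 1 := by
      intro j
      unfold d1bcut
      have hj : (0 : ℝ) ≤ (j : ℝ) + 1 := by positivity
      refine min_eq_left ?_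
      refine le_trans ?_ (le_max_right _ _)
      nlinarith [mul_nonneg hj (sub_nonneg.2 h)]
    simp [this]
  · push Not at h
    obtain ⟨N, hN⟩ := exists_nat_gt (1 / (t - s))
    refine tendsto_const_nhds.congr' ?_
    filter_upwards [eventually_ge_atTop N] with j hj
    unfold d1bcut
    have h1 : 0 < t - s := by linarith
    have h2 : (N : ℝ) ≤ j := by exact_mod_cast hj
    have h3 : 1 < (N : ℝ) * (t - s) := by
      rwa [div_lt_iff₀ h1] at hN
    have h4 : 1 + ((j : ℝ) + 1) * (s - t) ≤ 0 := by nlinarith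
    rw [max_eq_left h4]
    simp

theorem d1bcut_lip {g : X n → ℝ} (hg : LipschitzWith M g) (t : ℝ) (j : ℕ) :
    ∃ K, LipschitzWith K (fun x => d1bcut t j (g x)) := by
  refine ⟨((j : ℝ≥0) + 1) * M, LipschitzWith.of_le_add_mul _ fun x y => ?_⟩
  have hj : (0 : ℝ) ≤ (j : ℝ) + 1 := by positivity
  have h1 : g x ≤ g y + M * dist x y := hg.le_add_mul x y
  have hd : (0 : ℝ) ≤ M * dist x y := by positivity
  push_cast
  rcases le_total (g y) (g x) with h | h
  · have := d1bcut_le_add t j (g y) (g x) h
    nlinarith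
  · have := d1bcut_mono t j h
    have h2 : 0 ≤ ((j : ℝ) + 1) * M * dist x y := by positivity
    linarith

theorem d1b_integrable {f : X n → ℝ} (hf : Continuous f) : Integrable f volume := by
  have : IntegrableOn f univ volume := hf.continuousOn.integrableOn_compact isCompact_univ
  rwa [integrableOn_univ] at this

/-- The integral of `f - g` against a cut-off of `g` vanishes; we need only one inequality. -/
theorem IsProj.d1b_cut_nonneg {f g : X n → ℝ} (h : IsProj f g) (hf : Continuous f)
    (hg : LipschitzWith M g) (t : ℝ) (j : ℕ) :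
    0 ≤ ∫ x, (f x - g x) * d1bcut t j (g x) := by
  have hj : (0 : ℝ) < (j : ℝ) + 1 := by positivity
  set e : ℝ := 1 / ((j : ℝ) + 1) with he
  have he0 : 0 < e := by positivity
  have hej : e * ((j : ℝ) + 1) = 1 := by rw [he]; field_simp
  obtain ⟨K1, hK1⟩ := d1bcut_lip hg t j
  have hanti : Antitone (fun x => g x - e * d1bcut t j (g x)) := by
    intro x y hxy
    have h1 : g y ≤ g x := h.anti hxy
    have h2 := d1bcut_le_add t j (g y) (g x) h1
    have h3 : e * d1bcut t j (g x) ≤ e * d1bcut t j (g y) + (g x - g y) := by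
      calc e * d1bcut t j (g x) ≤ e * (d1bcut t j (g y) + ((j : ℝ) + 1) * (g x - g y)) :=
            mul_le_mul_of_nonneg_left h2 he0.le
        _ = e * d1bcut t j (g y) + (e * ((j : ℝ) + 1)) * (g x - g y) := by ring
        _ = _ := by rw [hej]; ring
    show g y - e * d1bcut t j (g y) ≤ g x - e * d1bcut t j (g x)
    linarith
  have hlip : ∃ K, LipschitzWith K (fun x => g x - e * d1bcut t j (g x)) := by
    refine ⟨M + Real.toNNReal e * K1, ?_⟩
    refine hg.sub ?_
    refine LipschitzWith.of_le_add_mul _ fun x y => ?_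
    have := hK1.le_add_mul x y
    have h4 : e * d1bcut t j (g x) ≤ e * (d1bcut t j (g y) + K1 * dist x y) :=
      mul_le_mul_of_nonneg_left this he0.le
    rw [NNReal.coe_mul, Real.coe_toNNReal e he0.le]
    linarith
  have hle := h.le _ hanti hlip
  have hcg : Continuous g := hg.continuous
  have hch : Continuous (fun x => d1bcut t j (g x)) := hK1.continuous
  have i1 : Integrable (fun x => (f x - g x) * g x) volume :=
    d1b_integrable ((hf.sub hcg).mul hcg)
  have i2 : Integrable (fun x => (f x - g x) * d1bcut t j (g x)) volume :=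
    d1b_integrable ((hf.sub hcg).mul hch)
  have heq : ∫ x, (f x - g x) * (g x - e * d1bcut t j (g x)) =
      (∫ x, (f x - g x) * g x) - e * ∫ x, (f x - g x) * d1bcut t j (g x) := by
    rw [← integral_const_mul, ← integral_sub i1 (i2.const_mul e)]
    congr 1
    ext x
    ring
  rw [heq, h.eq] at hle
  by_contra hneg
  push Not at hneg
  nlinarith

theorem IsProj.exists_set {f g : X n → ℝ} (h : IsProj f g) (hf : Continuous f)
    (hg : Good M g) {ε : ℝ} (hε : 0 < ε) :
    ∃ L : Set (X n), IsClosed L ∧ L.Nonempty ∧ IsLowerSet L ∧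
      (∀ x ∈ L, ∀ y ∈ L, mid x y ∈ L) ∧ 0 < (volume L).toReal ∧
      (g 0 - ε) * (volume L).toReal ≤ ∫ x in L, f x := by
  have hcg : Continuous g := hg.lip.continuous
  set t : ℝ := g 0 - ε with ht
  have hLc : IsClosed {x | t ≤ g x} := isClosed_le continuous_const hcg
  have h0 : (0 : X n) ∈ {x | t ≤ g x} := by
    show t ≤ g 0
    linarith
  refine ⟨{x | t ≤ g x}, hLc, ⟨0, h0⟩, ?_, ?_, ?_, ?_⟩
  · intro x y hyx hx
    exact le_trans hx (h.anti hyx)
  · intro x hx y hy
    have := hg.conc x y
    have hx' : t ≤ g x := hx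
    have hy' : t ≤ g y := hy
    show t ≤ g (mid x y)
    linarith
  · have hop : IsOpen {x | t < g x} := isOpen_lt continuous_const hcg
    have := d1b_isOpenPos
    have hpos : 0 < volume {x | t < g x} := hop.measure_pos volume ⟨0, by
      show t < g 0
      linarith⟩
    have hsub : {x | t < g x} ⊆ {x | t ≤ g x} := by
      intro x hx
      have hx' : t < g x := hx
      exact hx'.le
    have hpos' : 0 < volume {x | t ≤ g x} := lt_of_lt_of_le hpos (measure_mono hsub)
    exact ENNReal.toReal_pos hpos'.ne' (measure_ne_top _ _)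
  · have hlim : Tendsto (fun j : ℕ => ∫ x, (f x - g x) * d1bcut t j (g x)) atTop
        (𝓝 (∫ x, {x | t ≤ g x}.indicator (fun x => f x - g x) x)) := by
      have hfg : Continuous fun x => f x - g x := hf.sub hcg
      refine tendsto_integral_of_dominated_convergence (fun x => |f x - g x|) ?_ ?_ ?_ ?_
      · intro j
        obtain ⟨K1, hK1⟩ := d1bcut_lip hg.lip t j
        exact (hfg.mul hK1.continuous).aestronglyMeasurable
      · exact d1b_integrable hfg.abs
      · intro j
        refine Eventually.of_forall fun x => ?_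
        rw [Real.norm_eq_abs, abs_mul, abs_of_nonneg (d1bcut_nonneg t j (g x))]
        exact mul_le_of_le_one_right (abs_nonneg _) (d1bcut_le_one t j (g x))
      · refine Eventually.of_forall fun x => ?_
        have h1 := (d1bcut_tendsto t (g x)).const_mul (f x - g x)
        by_cases hx : t ≤ g x
        · simpa [hx, indicator] using h1
        · simpa [hx, indicator] using h1
    have h1 : 0 ≤ ∫ x, {x | t ≤ g x}.indicator (fun x => f x - g x) x :=
      ge_of_tendsto' hlim fun j => h.d1b_cut_nonneg hf hg.lip t j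
    rw [integral_indicator hLc.measurableSet,
      integral_sub (d1b_integrable hf).integrableOn (d1b_integrable hcg).integrableOn] at h1
    have h2 : t * (volume {x | t ≤ g x}).toReal ≤ ∫ x in {x | t ≤ g x}, g x := by
      have h3 : ∫ x in {x | t ≤ g x}, t ≤ ∫ x in {x | t ≤ g x}, g x :=
        setIntegral_mono_on (integrable_const _).integrableOn (d1b_integrable hcg).integrableOn
          hLc.measurableSet fun x hx => hx
      rw [setIntegral_const, smul_eq_mul, mul_comm] at h3
      exact h3
    linarith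

end Vale.Agent.P254.Unc
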