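import Vale.Agent.P254.Unc.Defs2

open MeasureTheory Set Filter
open scoped NNReal Topology

namespace Vale.Agent.P254.Unc

variable {n : ℕ}

private theorem infDist_mono_of_lower {L : Set (X n)} (hlow : IsLowerSet L) (hne : L.Nonempty) :
    Monotone (fun x : X n => Metric.infDist x L) := by
  intro x y hxy
  refine (Metric.le_infDist hne).2 ?_
  intro z hz
  have hz' : x ⊓ z ∈ L := hlow inf_le_right hz
  refine (Metric.infDist_le_dist_of_mem hz').trans ?_
  refine (dist_pi_le_iff dist_nonneg).2 ?_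
  intro k
  have h1 : dist (y k) (z k) ≤ dist y z := dist_le_pi_dist y z k
  refine le_trans ?_ h1
  have hxyk : ((x k : unitInterval) : ℝ) ≤ y k := hxy k
  have e1 : dist (x k) ((x ⊓ z) k) = |((x k : unitInterval) : ℝ) - min (x k : ℝ) (z k)| := by
    rw [Subtype.dist_eq, Real.dist_eq]
    congr 2
  have e2 : dist (y k) (z k) = |((y k : unitInterval) : ℝ) - z k| := by
    rw [Subtype.dist_eq, Real.dist_eq]
  rw [e1, e2]
  rcases le_total (x k : ℝ) (z k : ℝ) with h | h
  · rw [min_eq_left h, sub_self, abs_zero]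
    exact abs_nonneg _
  · rw [min_eq_right h, abs_of_nonneg (by linarith), abs_of_nonneg (by linarith)]
    linarith

/-- the bump -/
private noncomputable def bmp (L : Set (X n)) (m : ℕ) (x : X n) : ℝ :=
  max 0 (1 - ((m : ℝ) + 1) * Metric.infDist x L)

private theorem bmp_nonneg (L : Set (X n)) (m : ℕ) (x : X n) : 0 ≤ bmp L m x := le_max_left _ _

private theorem bmp_le_one (L : Set (X n)) (m : ℕ) (x : X n) : bmp L m x ≤ 1 := by
  unfold bmp
  refine max_le zero_le_one ?_
  have : 0 ≤ ((m : ℝ) + 1) * Metric.infDist x L := mul_nonneg (by positivity) Metric.infDist_nonneg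
  linarith

private theorem bmp_lip (L : Set (X n)) (m : ℕ) : ∃ K : ℝ≥0, LipschitzWith K (bmp L m) := by
  have h1 : LipschitzWith 1 (fun x : X n => Metric.infDist x L) := Metric.lipschitz_infDist_pt L
  refine ⟨(m : ℝ≥0) + 1, ?_⟩
  refine LipschitzWith.of_dist_le_mul ?_
  intro x y
  have h2 := h1.dist_le_mul x y
  rw [Real.dist_eq] at h2 ⊢
  have h3 : |bmp L m x - bmp L m y| ≤
      |(1 - ((m : ℝ) + 1) * Metric.infDist x L) - (1 - ((m : ℝ) + 1) * Metric.infDist y L)| := by
    unfold bmp
    rw [max_comm 0 (1 - ((m : ℝ) + 1) * Metric.infDist x L),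
      max_comm 0 (1 - ((m : ℝ) + 1) * Metric.infDist y L)]
    exact abs_max_sub_max_le_abs _ _ _
  refine h3.trans ?_
  have h4 : (1 - ((m : ℝ) + 1) * Metric.infDist x L) - (1 - ((m : ℝ) + 1) * Metric.infDist y L)
      = -(((m : ℝ) + 1) * (Metric.infDist x L - Metric.infDist y L)) := by ring
  rw [h4, abs_neg, abs_mul, abs_of_nonneg (by positivity : (0 : ℝ) ≤ (m : ℝ) + 1)]
  have h5 : (((m : ℝ≥0) + 1 : ℝ≥0) : ℝ) = (m : ℝ) + 1 := by push_cast; ring
  rw [h5]
  refine mul_le_mul_of_nonneg_left ?_ (by positivity)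
  simpa using h2

private theorem bmp_anti {L : Set (X n)} (hlow : IsLowerSet L) (hne : L.Nonempty) (m : ℕ) :
    Antitone (bmp L m) := by
  intro x y hxy
  unfold bmp
  refine max_le_max le_rfl ?_
  have h := infDist_mono_of_lower hlow hne hxy
  have : ((m : ℝ) + 1) * Metric.infDist x L ≤ ((m : ℝ) + 1) * Metric.infDist y L :=
    mul_le_mul_of_nonneg_left h (by positivity)
  linarith

private theorem bmp_tendsto {L : Set (X n)} (hL : IsClosed L) (hne : L.Nonempty) (x : X n) :
    Tendsto (fun m => bmp L m x) atTop (𝓝 (L.indicator (fun _ => (1 : ℝ)) x)) := by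
  by_cases hx : x ∈ L
  · rw [Set.indicator_of_mem hx]
    have : ∀ m, bmp L m x = 1 := by
      intro m
      unfold bmp
      rw [Metric.infDist_zero_of_mem hx]
      simp
    simp only [this]
    exact tendsto_const_nhds
  · rw [Set.indicator_of_notMem hx]
    have hpos : 0 < Metric.infDist x L := by
      rcases lt_or_eq_of_le (Metric.infDist_nonneg (x := x) (s := L)) with h | h
      · exact h
      · exact absurd ((hL.mem_iff_infDist_zero hne).2 h.symm) hx
    obtain ⟨N, hN⟩ := exists_nat_gt (1 / Metric.infDist x L)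
    refine tendsto_atTop_of_eventually_const (i₀ := N) ?_
    intro m hm
    unfold bmp
    refine max_eq_left ?_
    have h1 : (1 : ℝ) < N * Metric.infDist x L := by
      rw [div_lt_iff₀ hpos] at hN
      exact hN
    have h2 : (N : ℝ) ≤ m := by exact_mod_cast hm
    have h3 : (N : ℝ) * Metric.infDist x L ≤ ((m : ℝ) + 1) * Metric.infDist x L :=
      mul_le_mul_of_nonneg_right (by linarith) hpos.le
    linarith

private theorem bmp_cont (L : Set (X n)) (m : ℕ) : Continuous (bmp L m) := by
  obtain ⟨K, hK⟩ := bmp_lip L m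
  exact hK.continuous

private theorem int_tendsto {L : Set (X n)} (hL : IsClosed L) (hne : L.Nonempty) {f : X n → ℝ}
    (hf : Continuous f) :
    Tendsto (fun m => ∫ x, f x * bmp L m x) atTop (𝓝 (∫ x in L, f x)) := by
  obtain ⟨C, hC⟩ := (isCompact_univ (X := X n)).exists_bound_of_continuousOn hf.continuousOn
  rw [← integral_indicator hL.measurableSet]
  refine tendsto_integral_of_dominated_convergence (fun _ => C) ?_ (integrable_const _) ?_ ?_
  · intro m
    exact (hf.mul (bmp_cont L m)).aestronglyMeasurable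
  · intro m
    refine Eventually.of_forall fun x => ?_
    rw [norm_mul]
    have h1 : ‖bmp L m x‖ ≤ 1 := by
      rw [Real.norm_eq_abs, abs_of_nonneg (bmp_nonneg L m x)]
      exact bmp_le_one L m x
    have h2 := hC x (mem_univ x)
    calc ‖f x‖ * ‖bmp L m x‖ ≤ ‖f x‖ * 1 := mul_le_mul_of_nonneg_left h1 (norm_nonneg _)
      _ ≤ C := by simpa using h2
  · refine Eventually.of_forall fun x => ?_
    have h := (bmp_tendsto hL hne x).const_mul (f x)
    have e : L.indicator f x = f x * L.indicator (fun _ => (1 : ℝ)) x := by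
      by_cases hx : x ∈ L
      · simp [hx]
      · simp [hx]
    rw [e]
    exact h

/-- D1: Lipschitz antitone densities close to the uniform density of a closed lower set -/
theorem exists_dens_approx (L : Set (X n)) (hL : IsClosed L) (hlow : IsLowerSet L)
    (hpos : 0 < (volume L).toReal) (S : Finset (X n → ℝ)) (hS : ∀ f ∈ S, Continuous f)
    {ε : ℝ} (hε : 0 < ε) :
    ∃ ρ, Dens n ρ ∧ ∀ f ∈ S, |∫ x, f x * ρ x - (∫ x in L, f x) / (volume L).toReal| ≤ ε := by
  have hne : L.Nonempty := by
    rcases L.eq_empty_or_nonempty with h | h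
    · rw [h] at hpos; simp at hpos
    · exact h
  have hI : Tendsto (fun m => ∫ x, bmp L m x) atTop (𝓝 (volume L).toReal) := by
    have h := int_tendsto hL hne (f := fun _ => (1 : ℝ)) continuous_const
    simpa [Measure.real] using h
  have hIpos : ∀ᶠ m in atTop, 0 < ∫ x, bmp L m x := hI.eventually (lt_mem_nhds hpos)
  have hconv : ∀ f ∈ S, Tendsto (fun m => ∫ x, f x * (bmp L m x / ∫ y, bmp L m y)) atTop
      (𝓝 ((∫ x in L, f x) / (volume L).toReal)) := by
    intro f hf
    have h1 := (int_tendsto hL hne (hS f hf)).div hI hpos.ne'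
    refine h1.congr ?_
    intro m
    simp only [Pi.div_apply]
    rw [← integral_div]
    refine integral_congr_ae (Eventually.of_forall fun x => ?_)
    simp only
    ring
  have hev : ∀ᶠ m in atTop, ∀ f ∈ S,
      |∫ x, f x * (bmp L m x / ∫ y, bmp L m y) - (∫ x in L, f x) / (volume L).toReal| ≤ ε := by
    rw [Filter.eventually_all_finset]
    intro f hf
    have h := (hconv f hf).sub_const ((∫ x in L, f x) / (volume L).toReal)
    rw [sub_self] at h
    have h2 := h.abs
    rw [abs_zero] at h2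
    filter_upwards [h2.eventually (gt_mem_nhds hε)] with m hm
    have hint : Integrable (fun x => f x * (bmp L m x / ∫ y, bmp L m y)) (volume : Measure (X n)) :=
      ((hS f hf).mul ((bmp_cont L m).div_const _)).integrable_of_hasCompactSupport
        (HasCompactSupport.of_compactSpace _)
    rw [integral_sub hint (integrable_const _), integral_const]
    simp only [Measure.real, measure_univ, ENNReal.toReal_one, one_smul]
    exact hm.le
  obtain ⟨m, hm1, hm2⟩ := (hIpos.and hev).exists
  refine ⟨fun x => bmp L m x / ∫ y, bmp L m y, ⟨?_, ?_, ?_, ?_⟩, hm2⟩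
  · intro x y hxy
    exact div_le_div_of_nonneg_right (bmp_anti hlow hne m hxy) hm1.le
  · intro x
    exact div_nonneg (bmp_nonneg L m x) hm1.le
  · obtain ⟨K, hK⟩ := bmp_lip L m
    refine ⟨K * ⟨(∫ y, bmp L m y)⁻¹, (inv_pos.2 hm1).le⟩, LipschitzWith.of_dist_le_mul ?_⟩
    intro x y
    have h := hK.dist_le_mul x y
    rw [Real.dist_eq] at h ⊢
    have e : bmp L m x / (∫ y, bmp L m y) - bmp L m y / (∫ y, bmp L m y)
        = (bmp L m x - bmp L m y) * (∫ y, bmp L m y)⁻¹ := by ring
    rw [e, abs_mul, abs_of_pos (inv_pos.2 hm1)]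
    have : (((K * ⟨(∫ y, bmp L m y)⁻¹, (inv_pos.2 hm1).le⟩ : ℝ≥0)) : ℝ)
        = K * (∫ y, bmp L m y)⁻¹ := rfl
    rw [this]
    calc |bmp L m x - bmp L m y| * (∫ y, bmp L m y)⁻¹ ≤ (K * dist x y) * (∫ y, bmp L m y)⁻¹ :=
          mul_le_mul_of_nonneg_right h (inv_pos.2 hm1).le
      _ = K * (∫ y, bmp L m y)⁻¹ * dist x y := by ring
  · rw [integral_div]
    exact div_self hm1.ne'

end Vale.Agent.P254.Unc
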