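import Mathlib

/-!
# P254, unconditional bodies: the abstract duality lemma

`V` is a compact convex set of moment vectors, `S` a subset of `V` on which the product of the
coordinates is at most `M`.  If every positive linear functional is nearly maximised on `S`
(`hF1`) and the support function of `V` is uniformly smooth (`hF2`), then the product is at
most `M` on the positive part of `V`.
-/

namespace Vale.Agent.P254.Unc

open Filter Topology

/-- First order condition: at a maximiser of the product, `∑ w i / v i ≤ card`. -/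
theorem prod_first_order {ι : Type*} [Fintype ι] (V : Set (ι → ℝ)) (hconv : Convex ℝ V)
    (v : ι → ℝ) (hv : v ∈ V) (hpos : ∀ i, 0 < v i)
    (hmax : ∀ w ∈ V, (∀ i, 0 < w i) → ∏ i, w i ≤ ∏ i, v i) (w : ι → ℝ) (hw : w ∈ V) :
    ∑ i, (v i)⁻¹ * w i ≤ ∑ i, (v i)⁻¹ * v i := by
  classical
  by_contra hcon
  push Not at hcon
  set d : ι → ℝ := fun i => (v i)⁻¹ * (w i - v i) with hd
  have hdsum : 0 < ∑ i, d i := by
    have : ∑ i, d i = ∑ i, (v i)⁻¹ * w i - ∑ i, (v i)⁻¹ * v i := by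
      rw [← Finset.sum_sub_distrib]
      exact Finset.sum_congr rfl (fun i _ => by simp only [hd]; ring)
    rw [this]; linarith
  -- the function `t ↦ ∑ d i / (1 + t d i)` is positive near `0`
  have hcont : Tendsto (fun t : ℝ => ∑ i, d i / (1 + t * d i)) (𝓝[>] 0) (𝓝 (∑ i, d i)) := by
    have h1 : Tendsto (fun t : ℝ => ∑ i, d i / (1 + t * d i)) (𝓝 0)
        (𝓝 (∑ i, d i / (1 + 0 * d i))) := by
      refine tendsto_finsetSum _ (fun i _ => ?_)
      refine Tendsto.div tendsto_const_nhds ?_ (by simp)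
      exact (tendsto_const_nhds).add ((tendsto_id).mul tendsto_const_nhds)
    have h2 : ∑ i, d i / (1 + 0 * d i) = ∑ i, d i := by simp
    rw [h2] at h1
    exact h1.mono_left nhdsWithin_le_nhds
  have hev1 : ∀ᶠ t : ℝ in 𝓝[>] 0, 0 < ∑ i, d i / (1 + t * d i) :=
    hcont.eventually (lt_mem_nhds hdsum)
  have hev2 : ∀ᶠ t : ℝ in 𝓝[>] 0, ∀ i, 0 < 1 + t * d i := by
    rw [Filter.eventually_all]
    intro i
    have : Tendsto (fun t : ℝ => 1 + t * d i) (𝓝 0) (𝓝 (1 + 0 * d i)) :=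
      (tendsto_const_nhds).add ((tendsto_id).mul tendsto_const_nhds)
    exact (this.eventually (lt_mem_nhds (by simp))).filter_mono nhdsWithin_le_nhds
  have hev3 : ∀ᶠ t : ℝ in 𝓝[>] 0, t ∈ Set.Ioo (0:ℝ) 1 := Ioo_mem_nhdsGT (by norm_num)
  obtain ⟨t, h1, h2, h3⟩ := (hev1.and (hev2.and hev3)).exists
  have ht0 : 0 < t := h3.1
  set x : ι → ℝ := fun i => v i * (1 + t * d i) with hx
  have hxV : x ∈ V := by
    have := hconv hv hw (a := 1 - t) (b := t) (by linarith [h3.2]) ht0.le (by ring)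
    convert this using 1
    funext i
    have hvi := (hpos i).ne'
    simp only [hx, hd, Pi.add_apply, Pi.smul_apply, smul_eq_mul]
    field_simp
    ring
  have hle := hmax x hxV (fun i => mul_pos (hpos i) (h2 i))
  have hprod : ∏ i, x i = (∏ i, v i) * ∏ i, (1 + t * d i) := by
    simp only [hx]
    rw [Finset.prod_mul_distrib]
  have hPv : 0 < ∏ i, v i := Finset.prod_pos (fun i _ => hpos i)
  have hP1 : ∏ i, (1 + t * d i) ≤ 1 := by
    rw [hprod] at hle
    by_contra hc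
    push Not at hc
    nlinarith
  have hPpos : 0 < ∏ i, (1 + t * d i) := Finset.prod_pos (fun i _ => h2 i)
  have hlog : Real.log (∏ i, (1 + t * d i)) ≤ 0 := Real.log_nonpos hPpos.le hP1
  rw [Real.log_prod (fun i _ => (h2 i).ne')] at hlog
  have hlow : t * ∑ i, d i / (1 + t * d i) ≤ ∑ i, Real.log (1 + t * d i) := by
    rw [Finset.mul_sum]
    refine Finset.sum_le_sum (fun i _ => ?_)
    have := Real.one_sub_inv_le_log_of_pos (h2 i)
    have h4 : 1 - (1 + t * d i)⁻¹ = t * (d i / (1 + t * d i)) := by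
      have := (h2 i).ne'
      field_simp
      ring
    linarith
  have : 0 < t * ∑ i, d i / (1 + t * d i) := mul_pos ht0 h1
  linarith

/-- The abstract duality lemma. -/
theorem prod_le_of_dual {ι : Type*} [Fintype ι] (V S : Set (ι → ℝ)) (M : ℝ)
    (hV : IsCompact V) (hconv : Convex ℝ V) (hSV : S ⊆ V)
    (hF1 : ∀ u : ι → ℝ, (∀ i, 0 < u i) → ∀ ε : ℝ, 0 < ε → ∃ s ∈ S, ∀ v ∈ V,
      ∑ i, u i * v i ≤ ∑ i, u i * s i + ε)
    (hF2 : ∀ u : ι → ℝ, (∀ i, 0 < u i) → ∃ C η₀ : ℝ, 0 < η₀ ∧ ∀ i : ι, ∀ η : ℝ, 0 < η → η ≤ η₀ →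
      ∀ v ∈ V, ∀ w ∈ V, ∀ c : ℝ, (∀ x ∈ V, ∑ i, u i * x i ≤ c) →
      ∑ i, u i * v i + ∑ i, u i * w i + η * (v i - w i) ≤ 2 * c + C * η ^ 2)
    (hM : ∀ s ∈ S, ∏ i, s i ≤ M) (v : ι → ℝ) (hv : v ∈ V) (hpos : ∀ i, 0 < v i) :
    ∏ i, v i ≤ M := by
  classical
  -- the maximiser
  set K : Set (ι → ℝ) := V ∩ {x | ∀ i, 0 ≤ x i} with hK
  have hKc : IsCompact K := hV.inter_right (by
    have : {x : ι → ℝ | ∀ i, 0 ≤ x i} = ⋂ i, {x : ι → ℝ | 0 ≤ x i} := by ext; simp
    rw [this]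
    exact isClosed_iInter (fun i => isClosed_le continuous_const (continuous_apply i)))
  have hvK : v ∈ K := ⟨hv, fun i => (hpos i).le⟩
  have hfc : Continuous (fun x : ι → ℝ => ∏ i, x i) :=
    continuous_finsetProd _ (fun i _ => continuous_apply i)
  obtain ⟨p, hpK, hpmax⟩ := hKc.exists_isMaxOn ⟨v, hvK⟩ hfc.continuousOn
  have hpmax' : ∀ x ∈ K, ∏ i, x i ≤ ∏ i, p i := fun x hx => hpmax hx
  have hPv : 0 < ∏ i, v i := Finset.prod_pos (fun i _ => hpos i)
  have hPp : 0 < ∏ i, p i := lt_of_lt_of_le hPv (hpmax' v hvK)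
  have hppos : ∀ i, 0 < p i := by
    intro i
    refine lt_of_le_of_ne (hpK.2 i) (fun h => ?_)
    exact hPp.ne' (Finset.prod_eq_zero (Finset.mem_univ i) h.symm)
  refine (hpmax' v hvK).trans ?_
  set u : ι → ℝ := fun i => (p i)⁻¹ with hu
  have hupos : ∀ i, 0 < u i := fun i => inv_pos.mpr (hppos i)
  have hfo : ∀ x ∈ V, ∑ i, u i * x i ≤ ∑ i, u i * p i := fun x hx =>
    prod_first_order V hconv p hpK.1 hppos
      (fun w hw hwpos => hpmax' w ⟨hw, fun i => (hwpos i).le⟩) x hx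
  obtain ⟨C, η₀, hη₀, hF⟩ := hF2 u hupos
  -- `p` is in the closure of `S`
  have hclos : p ∈ closure S := by
    rw [Metric.mem_closure_iff]
    intro δ hδ
    -- choose `η` with `(|C|+1) η < δ/2`, then `ε = η^2`
    set η : ℝ := min η₀ (δ / (2 * (|C| + 2))) with hη
    have hC2 : 0 < |C| + 2 := by positivity
    have hηpos : 0 < η := lt_min hη₀ (by positivity)
    have hη1 : η ≤ η₀ := min_le_left _ _
    have hη2 : (|C| + 2) * η ≤ δ / 2 := by
      have : η ≤ δ / (2 * (|C| + 2)) := min_le_right _ _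
      calc (|C| + 2) * η ≤ (|C| + 2) * (δ / (2 * (|C| + 2))) :=
            mul_le_mul_of_nonneg_left this hC2.le
        _ = δ / 2 := by field_simp
    obtain ⟨s, hs, hsmax⟩ := hF1 u hupos (η ^ 2) (by positivity)
    refine ⟨s, hs, ?_⟩
    have hsp : ∑ i, u i * p i ≤ ∑ i, u i * s i + η ^ 2 := hsmax p hpK.1
    have key : ∀ i, |p i - s i| ≤ δ / 2 := by
      intro i
      have e1 := hF i η hηpos hη1 p hpK.1 s (hSV hs) _ hfo
      have e2 := hF i η hηpos hη1 s (hSV hs) p hpK.1 _ hfo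
      have hCle : C ≤ |C| := le_abs_self C
      have hC' : C * η ^ 2 ≤ |C| * η ^ 2 := mul_le_mul_of_nonneg_right hCle (by positivity)
      have e3 : η * (p i - s i) ≤ (|C| + 1) * η ^ 2 := by nlinarith
      have e4 : η * (s i - p i) ≤ (|C| + 1) * η ^ 2 := by nlinarith
      have e5 : p i - s i ≤ (|C| + 1) * η := by
        have : η * (p i - s i) ≤ η * ((|C| + 1) * η) := by nlinarith
        exact le_of_mul_le_mul_left this hηpos
      have e6 : s i - p i ≤ (|C| + 1) * η := by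
        have : η * (s i - p i) ≤ η * ((|C| + 1) * η) := by nlinarith
        exact le_of_mul_le_mul_left this hηpos
      have e7 : (|C| + 1) * η ≤ δ / 2 := by nlinarith
      rw [abs_le]
      constructor <;> linarith
    rw [dist_pi_lt_iff hδ]
    intro i
    rw [Real.dist_eq]
    exact lt_of_le_of_lt (key i) (by linarith)
  have hcl : closure S ⊆ {x : ι → ℝ | ∏ i, x i ≤ M} :=
    closure_minimal hM (isClosed_le hfc continuous_const)
  exact hcl hclos

end Vale.Agent.P254.Unc
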