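import Vale.Agent.P254.Unc.Defs

open MeasureTheory Set
open scoped NNReal

namespace Vale.Agent.P254.Unc

/-- 1-D regression. -/
noncomputable def reg (f : unitInterval → ℝ) (t : unitInterval) : ℝ :=
  min (⨆ b : unitInterval, ∫ u : unitInterval, f (b * u)) (⨆ s : unitInterval, f (t ⊔ s))

/-- Triples. -/
abbrev Tr (n : ℕ) := Fin 3 → (X n → ℝ)

/-- good triples -/
def BB (n : ℕ) (M : ℝ≥0) (N : ℝ) : Set (Tr n) :=
  {f | (∀ i, Good M (f i)) ∧ (∀ i x, |f i x| ≤ N) ∧ Rel (f 2) (f 0) (f 1)}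

/-- good triples above `β` in the antitone order -/
def VV (n : ℕ) (M : ℝ≥0) (N : ℝ) (β : Tr n) : Set (Tr n) :=
  {f | f ∈ BB n M N ∧ ∀ i, ∀ ρ : X n → ℝ, Antitone ρ → (∃ K, LipschitzWith K ρ) →
    ∫ x, (β i x - f i x) * ρ x ≤ 0}

/-- Lipschitz antitone probability densities -/
structure Dens (n : ℕ) (ρ : X n → ℝ) : Prop where
  anti : Antitone ρ
  nonneg : ∀ x, 0 ≤ ρ x
  lip : ∃ K, LipschitzWith K ρ
  int : ∫ x, ρ x = 1

/-- D2: CX for strongly concave `G` -/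
def CXs (n : ℕ) : Prop :=
  ∀ (ρ G : X n → ℝ) (M : ℝ≥0) (κ : ℝ), 0 < κ → Dens n ρ → LipschitzWith M G →
    (∀ x y, (G x + G y) / 2 + κ * ∑ k, ((x k : ℝ) - y k) ^ 2 ≤ G (mid x y)) →
    (∫ x, G x * ρ x) * ∏ k : Fin n, (2 * ∫ x, ((x k : unitInterval) : ℝ) * ρ x) ≤
      ∫ x, max (G x) 0

end Vale.Agent.P254.Unc
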