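import Vale.Agent.P254.Unc.Defs
import Vale.Agent.P254.Unc.Defs2

/-! P254, unconditional bodies, leaf P2: the one-variable isotonic regression `Q k` on the cube. -/

set_option autoImplicit false

namespace Vale.Agent.P254.Unc

open MeasureTheory
open scoped NNReal

variable {n : ℕ}

/-- the largest average -/
noncomputable def Avs (k : Fin n) (f : X n → ℝ) (x : X n) : ℝ :=
  ⨆ b : unitInterval, ∫ u : unitInterval, f (Function.update x k (b * u))

/-- `Q`, in terms of `Avs` -/
noncomputable def Q0 (k : Fin n) (f : X n → ℝ) (x : X n) : ℝ := min (Avs k f x) (upB k f x)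

theorem Q_eq_Q0 : (Q : Fin n → (X n → ℝ) → X n → ℝ) = Q0 := rfl

theorem mid1_coe (a b : unitInterval) : ((mid1 a b : unitInterval) : ℝ) = ((a : ℝ) + b) / 2 := rfl

theorem mid_update (x y : X n) (k : Fin n) (a c : unitInterval) :
    mid (Function.update x k a) (Function.update y k c) =
      Function.update (mid x y) k (mid1 a c) := by
  funext i
  by_cases h : i = k
  · subst h
    simp [mid]
  · simp [mid, Function.update_of_ne h]

theorem mid1_mul (b c u : unitInterval) : mid1 (b * u) (c * u) = mid1 b c * u := by
  apply Subtype.ext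
  simp only [mid1_coe, Set.Icc.coe_mul]
  ring

theorem mid1_mono {a b c d : unitInterval} (h : a ≤ c) (h' : b ≤ d) : mid1 a b ≤ mid1 c d := by
  have h1 : (a : ℝ) ≤ c := h
  have h2 : (b : ℝ) ≤ d := h'
  show ((mid1 a b : unitInterval) : ℝ) ≤ ((mid1 c d : unitInterval) : ℝ)
  rw [mid1_coe, mid1_coe]
  linarith

theorem pk_bdd {f : X n → ℝ} (hf : Continuous f) : ∃ C : ℝ, ∀ x, |f x| ≤ C := by
  obtain ⟨C, hC⟩ := (isCompact_univ (X := X n)).exists_bound_of_continuousOn hf.continuousOn
  exact ⟨C, fun x => hC x (Set.mem_univ x)⟩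

theorem pk_cont {f : X n → ℝ} (hf : Continuous f) (k : Fin n) (x : X n) (b : unitInterval) :
    Continuous fun u : unitInterval => f (Function.update x k (b * u)) :=
  hf.comp (continuous_const.update k (continuous_const.mul continuous_id))

theorem pk_int {f : X n → ℝ} (hf : Continuous f) (k : Fin n) (x : X n) (b : unitInterval) :
    Integrable fun u : unitInterval => f (Function.update x k (b * u)) :=
  (pk_cont hf k x b).integrable_of_hasCompactSupport (HasCompactSupport.of_compactSpace _)

theorem pk_av_bdd {f : X n → ℝ} (hf : Continuous f) (k : Fin n) (x : X n) :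
    BddAbove (Set.range fun b : unitInterval =>
      ∫ u : unitInterval, f (Function.update x k (b * u))) := by
  obtain ⟨C, hC⟩ := pk_bdd hf
  refine ⟨C, ?_⟩
  rintro _ ⟨b, rfl⟩
  refine (integral_mono (pk_int hf k x b) (integrable_const C)
    fun u => (abs_le.1 (hC _)).2).trans ?_
  simp

theorem pk_up_bdd {f : X n → ℝ} (hf : Continuous f) (k : Fin n) (x : X n) :
    BddAbove (Set.range fun s : unitInterval => f (Function.update x k (x k ⊔ s))) := by
  obtain ⟨C, hC⟩ := pk_bdd hf
  refine ⟨C, ?_⟩
  rintro _ ⟨b, rfl⟩
  exact (abs_le.1 (hC _)).2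

theorem le_Avs {f : X n → ℝ} (hf : Continuous f) (k : Fin n) (x : X n) (b : unitInterval) :
    ∫ u : unitInterval, f (Function.update x k (b * u)) ≤ Avs k f x :=
  le_ciSup (pk_av_bdd hf k x) b

theorem le_Up {f : X n → ℝ} (hf : Continuous f) (k : Fin n) (x : X n) (s : unitInterval) :
    f (Function.update x k (x k ⊔ s)) ≤ upB k f x :=
  le_ciSup (pk_up_bdd hf k x) s

/-- a later value -/
theorem le_Up' {f : X n → ℝ} (hf : Continuous f) (k : Fin n) (x : X n) {s : unitInterval}
    (h : x k ≤ s) : f (Function.update x k s) ≤ upB k f x := by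
  have := le_Up hf k x s
  rwa [sup_eq_right.2 h] at this

theorem le_Up_self {f : X n → ℝ} (hf : Continuous f) (k : Fin n) (x : X n) : f x ≤ upB k f x := by
  have := le_Up' hf k x (le_refl (x k))
  rwa [Function.update_eq_self] at this

theorem Rel.av {z f0 f1 : X n → ℝ} (h : Rel z f0 f1) (hz : Continuous z) (h0 : Continuous f0)
    (h1 : Continuous f1) (k : Fin n) : Rel (Avs k z) (Avs k f0) (Avs k f1) := by
  intro x y
  have key : ∀ b c : unitInterval, (∫ u : unitInterval, f0 (Function.update x k (b * u))) +
      (∫ u : unitInterval, f1 (Function.update y k (c * u))) ≤ 2 * Avs k z (mid x y) := by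
    intro b c
    have e1 := le_Avs hz k (mid x y) (mid1 b c)
    have e2 : (∫ u : unitInterval, f0 (Function.update x k (b * u))) +
        (∫ u : unitInterval, f1 (Function.update y k (c * u))) ≤
        2 * ∫ u : unitInterval, z (Function.update (mid x y) k (mid1 b c * u)) := by
      rw [← integral_add (pk_int h0 k x b) (pk_int h1 k y c), ← integral_const_mul]
      refine integral_mono ((pk_int h0 k x b).add (pk_int h1 k y c))
        ((pk_int hz k _ _).const_mul 2) fun u => ?_
      have e3 := h (Function.update x k (b * u)) (Function.update y k (c * u))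
      rw [mid_update, mid1_mul] at e3
      show f0 _ + f1 _ ≤ 2 * z _
      linarith
    linarith
  have s1 : Avs k f0 x ≤ 2 * Avs k z (mid x y) - Avs k f1 y := by
    refine ciSup_le fun b => ?_
    have s2 : Avs k f1 y ≤ 2 * Avs k z (mid x y) -
        ∫ u : unitInterval, f0 (Function.update x k (b * u)) :=
      ciSup_le fun c => by linarith [key b c]
    linarith
  linarith

theorem Rel.up {z f0 f1 : X n → ℝ} (h : Rel z f0 f1) (hz : Continuous z) (k : Fin n) :
    Rel (upB k z) (upB k f0) (upB k f1) := by
  intro x y
  have key : ∀ b c : unitInterval, f0 (Function.update x k (x k ⊔ b)) +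
      f1 (Function.update y k (y k ⊔ c)) ≤ 2 * upB k z (mid x y) := by
    intro b c
    have e3 := h (Function.update x k (x k ⊔ b)) (Function.update y k (y k ⊔ c))
    rw [mid_update] at e3
    have e1 := le_Up' hz k (mid x y) (s := mid1 (x k ⊔ b) (y k ⊔ c))
      (mid1_mono le_sup_left le_sup_left)
    linarith
  have s1 : upB k f0 x ≤ 2 * upB k z (mid x y) - upB k f1 y := by
    refine ciSup_le fun b => ?_
    have s2 : upB k f1 y ≤ 2 * upB k z (mid x y) - f0 (Function.update x k (x k ⊔ b)) :=
      ciSup_le fun c => by linarith [key b c]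
    linarith
  linarith

/-- **the regression preserves `Rel`** (in particular concavity, `Rel f f f`) -/
theorem Rel.q {z f0 f1 : X n → ℝ} (h : Rel z f0 f1) (hz : Continuous z) (h0 : Continuous f0)
    (h1 : Continuous f1) (k : Fin n) : Rel (Q0 k z) (Q0 k f0) (Q0 k f1) := by
  intro x y
  have a1 := h.av hz h0 h1 k x y
  have a2 := h.up hz k x y
  have b1 : Q0 k f0 x ≤ Avs k f0 x := min_le_left _ _
  have b2 : Q0 k f0 x ≤ upB k f0 x := min_le_right _ _
  have b3 : Q0 k f1 y ≤ Avs k f1 y := min_le_left _ _
  have b4 : Q0 k f1 y ≤ upB k f1 y := min_le_right _ _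
  refine le_min ?_ ?_ <;> linarith

/-- monotonicity -/
theorem Avs_mono {f g : X n → ℝ} (hf : Continuous f) (hg : Continuous g) (k : Fin n)
    (h : ∀ x, f x ≤ g x) (x : X n) : Avs k f x ≤ Avs k g x :=
  ciSup_le fun b => (integral_mono (pk_int hf k x b) (pk_int hg k x b) fun _ => h _).trans
    (le_Avs hg k x b)

theorem Up_mono {f g : X n → ℝ} (hg : Continuous g) (k : Fin n)
    (h : ∀ x, f x ≤ g x) (x : X n) : upB k f x ≤ upB k g x :=
  ciSup_le fun b => (h _).trans (le_Up hg k x b)

theorem Q_mono {f g : X n → ℝ} (hf : Continuous f) (hg : Continuous g) (k : Fin n)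
    (h : ∀ x, f x ≤ g x) (x : X n) : Q0 k f x ≤ Q0 k g x :=
  min_le_min (Avs_mono hf hg k h x) (Up_mono hg k h x)

theorem Avs_add_const {f : X n → ℝ} (hf : Continuous f) (k : Fin n) (c : ℝ) (x : X n) :
    Avs k (fun x => f x + c) x = Avs k f x + c := by
  have h : ∀ b : unitInterval, ∫ u : unitInterval, (f (Function.update x k (b * u)) + c) =
      (∫ u : unitInterval, f (Function.update x k (b * u))) + c := fun b => by
    rw [integral_add (pk_int hf k x b) (integrable_const c)]
    simp
  show (⨆ b : unitInterval, ∫ u : unitInterval, (f (Function.update x k (b * u)) + c)) = _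
  simp only [h]
  refine le_antisymm (ciSup_le fun b => by linarith [le_Avs hf k x b]) ?_
  have h2 : BddAbove (Set.range fun b : unitInterval =>
      (∫ u : unitInterval, f (Function.update x k (b * u))) + c) := by
    obtain ⟨C, hC⟩ := pk_av_bdd hf k x
    refine ⟨C + c, ?_⟩
    rintro _ ⟨b, rfl⟩
    have := hC ⟨b, rfl⟩
    show (∫ u : unitInterval, f (Function.update x k (b * u))) + c ≤ C + c
    linarith
  have h3 : Avs k f x ≤ (⨆ b : unitInterval,
      ((∫ u : unitInterval, f (Function.update x k (b * u))) + c)) - c :=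
    ciSup_le fun b => by linarith [le_ciSup h2 b]
  linarith

theorem Up_add_const {f : X n → ℝ} (hf : Continuous f) (k : Fin n) (c : ℝ) (x : X n) :
    upB k (fun x => f x + c) x = upB k f x + c := by
  have hg : Continuous fun x => f x + c := hf.add continuous_const
  refine le_antisymm (ciSup_le fun b => by linarith [le_Up hf k x b]) ?_
  have h3 : upB k f x ≤ upB k (fun x => f x + c) x - c :=
    ciSup_le fun b => by linarith [le_Up hg k x b]
  linarith

theorem Q_add_const {f : X n → ℝ} (hf : Continuous f) (k : Fin n) (c : ℝ) (x : X n) :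
    Q0 k (fun x => f x + c) x = Q0 k f x + c := by
  rw [Q0, Q0, Avs_add_const hf, Up_add_const hf, min_add_add_right]

/-- sup-norm contraction -/
theorem Q_close {f g : X n → ℝ} (hf : Continuous f) (hg : Continuous g) (k : Fin n) {e : ℝ}
    (h : ∀ x, |f x - g x| ≤ e) (x : X n) : |Q0 k f x - Q0 k g x| ≤ e := by
  have h1 := Q_mono (g := fun y => g y + e) hf (hg.add continuous_const) k
    (fun y => (by linarith [(abs_le.1 (h y)).2] : f y ≤ g y + e)) x
  have h2 := Q_mono (g := fun y => f y + e) hg (hf.add continuous_const) k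
    (fun y => (by linarith [(abs_le.1 (h y)).1] : g y ≤ f y + e)) x
  rw [Q_add_const hg] at h1
  rw [Q_add_const hf] at h2
  exact abs_le.2 ⟨by linarith, by linarith⟩

theorem pk_dist_update (x y : X n) (k : Fin n) (c : unitInterval) :
    dist (Function.update x k c) (Function.update y k c) ≤ dist x y := by
  refine (dist_pi_le_iff dist_nonneg).2 fun i => ?_
  by_cases h : i = k
  · subst h
    simp
  · rw [Function.update_of_ne h, Function.update_of_ne h]
    exact dist_le_pi_dist x y i

theorem pk_dist_sup (a b s : unitInterval) : dist (a ⊔ s) (b ⊔ s) ≤ dist a b := by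
  rw [Subtype.dist_eq, Subtype.dist_eq, Real.dist_eq, Real.dist_eq,
    (Subtype.mono_coe (· ∈ Set.Icc (0 : ℝ) 1)).map_max,
    (Subtype.mono_coe (· ∈ Set.Icc (0 : ℝ) 1)).map_max]
  exact abs_max_sub_max_le_abs _ _ _

theorem pk_dist_update_sup (x y : X n) (k : Fin n) (s : unitInterval) :
    dist (Function.update x k (x k ⊔ s)) (Function.update y k (y k ⊔ s)) ≤ dist x y := by
  refine (dist_pi_le_iff dist_nonneg).2 fun i => ?_
  by_cases h : i = k
  · subst h
    simp only [Function.update_self]
    exact (pk_dist_sup _ _ _).trans (dist_le_pi_dist x y i)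
  · rw [Function.update_of_ne h, Function.update_of_ne h]
    exact dist_le_pi_dist x y i

theorem Avs_lip {f : X n → ℝ} {M : NNReal} (hf : LipschitzWith M f) (k : Fin n) :
    LipschitzWith M (Avs k f) := by
  have hc := hf.continuous
  have key : ∀ x y, Avs k f x ≤ Avs k f y + M * dist x y := by
    intro x y
    refine ciSup_le fun b => ?_
    have h1 : ∫ u : unitInterval, f (Function.update x k (b * u)) ≤
        (∫ u : unitInterval, f (Function.update y k (b * u))) + M * dist x y := by
      have h2 : (∫ u : unitInterval, (f (Function.update y k (b * u)) + M * dist x y)) =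
          (∫ u : unitInterval, f (Function.update y k (b * u))) + M * dist x y := by
        rw [integral_add (pk_int hc k y b) (integrable_const _)]
        simp
      rw [← h2]
      refine integral_mono (pk_int hc k x b) ((pk_int hc k y b).add (integrable_const _))
        fun u => ?_
      have h3 := hf.dist_le_mul (Function.update x k (b * u)) (Function.update y k (b * u))
      rw [Real.dist_eq] at h3
      have h4 := mul_le_mul_of_nonneg_left (pk_dist_update x y k (b * u)) M.2
      have h5 := (abs_le.1 (h3.trans h4)).2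
      show f _ ≤ f _ + M * dist x y
      have h6 : (M : ℝ) * dist x y = (↑M : ℝ) * dist x y := rfl
      change f _ - f _ ≤ (M : ℝ) * dist x y at h5
      linarith
    linarith [le_Avs hc k y b]
  refine LipschitzWith.of_dist_le_mul fun x y => ?_
  rw [Real.dist_eq]
  have h1 := key x y
  have h2 := key y x
  rw [dist_comm y x] at h2
  exact abs_le.2 ⟨by linarith, by linarith⟩

theorem Up_lip {f : X n → ℝ} {M : NNReal} (hf : LipschitzWith M f) (k : Fin n) :
    LipschitzWith M (upB k f) := by
  have hc := hf.continuous
  have key : ∀ x y, upB k f x ≤ upB k f y + M * dist x y := by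
    intro x y
    refine ciSup_le fun s => ?_
    have h3 := hf.dist_le_mul (Function.update x k (x k ⊔ s)) (Function.update y k (y k ⊔ s))
    rw [Real.dist_eq] at h3
    have h4 := mul_le_mul_of_nonneg_left (pk_dist_update_sup x y k s) M.2
    have h5 := (abs_le.1 (h3.trans h4)).2
    change f _ - f _ ≤ (M : ℝ) * dist x y at h5
    linarith [le_Up hc k y s]
  refine LipschitzWith.of_dist_le_mul fun x y => ?_
  rw [Real.dist_eq]
  have h1 := key x y
  have h2 := key y x
  rw [dist_comm y x] at h2
  exact abs_le.2 ⟨by linarith, by linarith⟩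

/-- **the regression preserves the Lipschitz constant** -/
theorem Q_lip0 {f : X n → ℝ} {M : NNReal} (hf : LipschitzWith M f) (k : Fin n) :
    LipschitzWith M (Q0 k f) := by
  have := (Avs_lip hf k).min (Up_lip hf k)
  rwa [max_self] at this

/-- `Av` does not depend on the coordinate `k` -/
theorem Avs_update (k : Fin n) (f : X n → ℝ) (x : X n) (a : unitInterval) :
    Avs k f (Function.update x k a) = Avs k f x := by
  simp only [Avs, Function.update_idem]

theorem Up_anti {f : X n → ℝ} (hf : Continuous f) (k : Fin n) (x : X n) {a b : unitInterval}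
    (h : a ≤ b) : upB k f (Function.update x k b) ≤ upB k f (Function.update x k a) := by
  refine ciSup_le fun s => ?_
  have := le_Up' hf k (Function.update x k a) (s := b ⊔ s)
    (by rw [Function.update_self]; exact h.trans le_sup_left)
  simpa only [Function.update_idem, Function.update_self] using this

/-- **the regression is antitone in the coordinate `k`** -/
theorem Q_anti {f : X n → ℝ} (hf : Continuous f) (k : Fin n) (x : X n) {a b : unitInterval}
    (h : a ≤ b) : Q0 k f (Function.update x k b) ≤ Q0 k f (Function.update x k a) := by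
  refine le_min ((min_le_left _ _).trans ?_) ((min_le_right _ _).trans (Up_anti hf k x h))
  rw [Avs_update, Avs_update]

/-- antitonicity in another coordinate is preserved -/
theorem Q_anti_ne {f : X n → ℝ} (hf : Continuous f) {k j : Fin n} (hjk : j ≠ k)
    (ha : ∀ (x : X n) (a b : unitInterval), a ≤ b →
      f (Function.update x j b) ≤ f (Function.update x j a))
    (x : X n) {a b : unitInterval} (h : a ≤ b) :
    Q0 k f (Function.update x j b) ≤ Q0 k f (Function.update x j a) := by
  refine min_le_min ?_ ?_
  · refine ciSup_le fun c => le_trans ?_ (le_Avs hf k _ c)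
    refine integral_mono (pk_int hf k _ c) (pk_int hf k _ c) fun u => ?_
    show f _ ≤ f _
    rw [Function.update_comm hjk, Function.update_comm hjk]
    exact ha _ a b h
  · refine ciSup_le fun s => le_trans ?_ (le_Up hf k _ s)
    rw [Function.update_of_ne hjk.symm, Function.update_of_ne hjk.symm,
      Function.update_comm hjk, Function.update_comm hjk]
    exact ha _ a b h

/-- the regression fixes the functions antitone in `k` -/
theorem Q_eq_self {f : X n → ℝ} (hf : Continuous f) (k : Fin n)
    (ha : ∀ (x : X n) (a b : unitInterval), a ≤ b →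
      f (Function.update x k b) ≤ f (Function.update x k a)) (x : X n) : Q0 k f x = f x := by
  have h1 : upB k f x = f x := by
    refine le_antisymm (ciSup_le fun s => ?_) (le_Up_self hf k x)
    have := ha x (x k) (x k ⊔ s) le_sup_left
    rwa [Function.update_eq_self] at this
  have h2 : f x ≤ Avs k f x := by
    refine le_trans ?_ (le_Avs hf k x 0)
    have h3 := ha x 0 (x k) unitInterval.nonneg'
    rw [Function.update_eq_self] at h3
    simpa using h3
  rw [Q0, h1, min_eq_right h2]

theorem Q_bound {f : X n → ℝ} (hf : Continuous f) (k : Fin n) {C : ℝ} (h : ∀ x, |f x| ≤ C)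
    (x : X n) : |Q0 k f x| ≤ C := by
  have h0 : ∀ y, Q0 k (fun _ : X n => (0 : ℝ)) y = 0 := fun y =>
    Q_eq_self continuous_const k (fun _ _ _ _ => le_refl _) y
  have := Q_close hf continuous_const k (g := fun _ => (0 : ℝ)) (e := C)
    (fun y => by simpa using h y) x
  rwa [h0, sub_zero] at this

/-! ### the official statements -/

theorem Q_rel {M : ℝ≥0} (k : Fin n) {z f g : X n → ℝ} (hz : LipschitzWith M z)
    (hf : LipschitzWith M f) (hg : LipschitzWith M g) (h : Rel z f g) :
    Rel (Q k z) (Q k f) (Q k g) :=
  h.q hz.continuous hf.continuous hg.continuous k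

theorem Q_lip {M : ℝ≥0} (k : Fin n) {f : X n → ℝ} (hf : LipschitzWith M f) :
    LipschitzWith M (Q k f) := Q_lip0 hf k

theorem Q_bdd {M : ℝ≥0} (k : Fin n) {f : X n → ℝ} (hf : LipschitzWith M f) {N : ℝ}
    (hN : ∀ x, |f x| ≤ N) : ∀ x, |Q k f x| ≤ N := Q_bound hf.continuous k hN

theorem Q_antiK {M : ℝ≥0} (k : Fin n) {f : X n → ℝ} (hf : LipschitzWith M f) :
    AntiK k (Q k f) := fun x _ _ h => Q_anti hf.continuous k x h

theorem Q_update (k : Fin n) (f : X n → ℝ) (x : X n) (t : unitInterval) :
    Q k f (Function.update x k t) = reg (fun s => f (Function.update x k s)) t := by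
  simp only [Q, avgB, upB, reg, Function.update_idem, Function.update_self]

end Vale.Agent.P254.Unc
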