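import Vale.Agent.P254.Unc.Defs

open MeasureTheory Set
open scoped NNReal

namespace Vale.Agent.P254.Unc

variable {n : ℕ}

/-- Refreshing one coordinate preserves the product probability measure. -/
theorem measurePreserving_update (k : Fin n) :
    MeasurePreserving (fun p : X n × unitInterval => Function.update p.1 k p.2) := by
  have hmeas : Measurable (fun p : X n × unitInterval => Function.update p.1 k p.2) := by
    rw [measurable_pi_iff]
    intro i
    by_cases hi : i = k
    · subst hi
      simpa using measurable_snd
    · simp only [Function.update_of_ne hi]
      exact (measurable_pi_apply i).comp measurable_fst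
  refine ⟨hmeas, ?_⟩
  symm
  refine Measure.pi_eq fun s hs => ?_
  rw [Measure.map_apply hmeas (MeasurableSet.univ_pi hs)]
  have hpre : (fun p : X n × unitInterval => Function.update p.1 k p.2) ⁻¹' (Set.univ.pi s)
      = (Set.univ.pi (Function.update s k Set.univ)) ×ˢ (s k) := by
    ext p
    simp only [Set.mem_preimage, Set.mem_pi, Set.mem_univ, forall_true_left, Set.mem_prod]
    constructor
    · intro h
      refine ⟨fun i => ?_, ?_⟩
      · by_cases hi : i = k
        · subst hi; simp
        · have := h i
          simpa [Function.update_of_ne hi] using this
      · simpa using h k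
    · rintro ⟨h1, h2⟩ i
      by_cases hi : i = k
      · subst hi; simpa using h2
      · have := h1 i
        simpa [Function.update_of_ne hi] using this
  rw [hpre, Measure.volume_eq_prod, Measure.prod_prod, volume_pi, Measure.pi_pi]
  rw [← Finset.mul_prod_erase Finset.univ _ (Finset.mem_univ k),
    ← Finset.mul_prod_erase Finset.univ (fun i => volume (s i)) (Finset.mem_univ k)]
  have h1 : ∏ i ∈ Finset.univ.erase k, volume (Function.update s k Set.univ i)
      = ∏ i ∈ Finset.univ.erase k, volume (s i) := by
    refine Finset.prod_congr rfl fun i hi => ?_
    rw [Function.update_of_ne (Finset.ne_of_mem_erase hi)]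
  rw [h1, Function.update_self, measure_univ, one_mul, mul_comm]

/-- the same under the name used in `P3aH` -/
theorem mp_update (k : Fin n) :
    MeasurePreserving (fun p : X n × unitInterval => Function.update p.1 k p.2) :=
  measurePreserving_update k

/-- P3a : integrating out one refreshed coordinate. -/
theorem int_update (k : Fin n) (F : X n → ℝ) (hF : Continuous F) :
    ∫ x, ∫ u : unitInterval, F (Function.update x k u) = ∫ x, F x := by
  have hmp := measurePreserving_update k
  have hint : Integrable F (volume : Measure (X n)) :=
    hF.integrable_of_hasCompactSupport (HasCompactSupport.of_compactSpace F)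
  have h1 : ∫ p : X n × unitInterval, F (Function.update p.1 k p.2) = ∫ x, F x := by
    have h := integral_map hmp.measurable.aemeasurable
      (f := F) (μ := (volume : Measure (X n × unitInterval))) (by
        rw [hmp.map_eq]; exact hint.aestronglyMeasurable)
    rw [hmp.map_eq] at h
    exact h.symm
  have h2 : Integrable (fun p : X n × unitInterval => F (Function.update p.1 k p.2)) :=
    hmp.integrable_comp_of_integrable hint
  rw [← h1, Measure.volume_eq_prod, integral_prod]
  · rw [← Measure.volume_eq_prod]; exact h2

/-- P3a : a function antitone in every coordinate is antitone. -/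
theorem antitone_of_antiK {f : X n → ℝ} (h : ∀ k, AntiK k f) : Antitone f := by
  classical
  intro x y hxy
  -- the hybrid point: `y` on `s`, `x` off `s`
  have key : ∀ s : Finset (Fin n), f (s.piecewise y x) ≤ f x := by
    intro s
    induction s using Finset.induction_on with
    | empty => simp
    | insert k s hk ih =>
      refine le_trans ?_ ih
      rw [Finset.piecewise_insert]
      have h1 := h k (s.piecewise y x) (x k) (y k) (hxy k)
      have h2 : Function.update (s.piecewise y x) k (x k) = s.piecewise y x := by
        rw [Function.update_eq_self_iff, Finset.piecewise_eq_of_notMem _ _ _ hk]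
      rw [h2] at h1
      exact h1
  have := key Finset.univ
  simpa using this

end Vale.Agent.P254.Unc
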