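import Vale.Agent.P254.Unc.P1
import Vale.Agent.P254.Unc.P2
import Vale.Agent.P254.Unc.P3a

open MeasureTheory Set
open scoped NNReal

namespace Vale.Agent.P254.Unc

variable {n : ℕ} {M : ℝ≥0}

theorem p3_mid_update (k : Fin n) (x : X n) (a b : unitInterval) :
    mid (Function.update x k a) (Function.update x k b) = Function.update x k (mid1 a b) := by
  funext i
  by_cases h : i = k
  · subst h
    simp [mid]
  · simp only [mid, Function.update_of_ne h]
    apply Subtype.ext
    simp only [mid1]
    ring

theorem p3_slice {k : Fin n} {f : X n → ℝ} (hf : Good M f) (x : X n) :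
    Continuous (fun s : unitInterval => f (Function.update x k s)) ∧
      ∀ a b, (f (Function.update x k a) + f (Function.update x k b)) / 2 ≤
        f (Function.update x k (mid1 a b)) := by
  constructor
  · exact hf.lip.continuous.comp (continuous_const.update k continuous_id)
  · intro a b
    rw [← p3_mid_update]
    exact hf.conc _ _

/-- P3 (from P1, P2, int_update) -/
theorem Q_le (k : Fin n) {f v : X n → ℝ} (hf : Good M f) (hv : AntiK k v) (hvc : Continuous v) :
    ∫ x, (f x - Q k f x) * v x ≤ 0 := by
  rw [← int_update k (fun x => (f x - Q k f x) * v x)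
    ((hf.lip.continuous.sub (Q_lip k hf.lip).continuous).mul hvc)]
  refine integral_nonpos fun x => ?_
  obtain ⟨h1, h2⟩ := p3_slice (k := k) hf x
  have h3 := reg_le (fun s => f (Function.update x k s)) h1 h2
    (fun s => v (Function.update x k s)) (fun s t hst => hv x s t hst)
  simp only [Pi.zero_apply, Q_update]
  exact h3

/-- P3 -/
theorem Q_eq (k : Fin n) {f : X n → ℝ} (hf : Good M f) :
    ∫ x, (f x - Q k f x) * Q k f x = 0 := by
  rw [← int_update k (fun x => (f x - Q k f x) * Q k f x)
    ((hf.lip.continuous.sub (Q_lip k hf.lip).continuous).mul (Q_lip k hf.lip).continuous)]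
  refine integral_eq_zero_of_ae (Filter.Eventually.of_forall fun x => ?_)
  obtain ⟨h1, h2⟩ := p3_slice (k := k) hf x
  have h3 := reg_eq (fun s => f (Function.update x k s)) h1 h2
  simp only [Pi.zero_apply, Q_update]
  exact h3

end Vale.Agent.P254.Unc
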