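import Vale.Agent.P254.Unc.Defs2

open MeasureTheory Set
open scoped NNReal BoundedContinuousFunction

namespace Vale.Agent.P254.Unc

variable {n : ℕ}

/-- The triple defined by a bounded continuous function. -/
def toTr (F : X n →ᵇ (Fin 3 → ℝ)) : Tr n := fun i x => F x i

theorem continuous_toTr (i : Fin 3) (x : X n) :
    Continuous (fun F : X n →ᵇ (Fin 3 → ℝ) => toTr F i x) := by
  unfold toTr
  exact (continuous_apply i).comp (continuous_eval_const (F := X n →ᵇ (Fin 3 → ℝ)) x)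

theorem isClosed_BB (M : ℝ≥0) (N : ℝ) :
    IsClosed {F : X n →ᵇ (Fin 3 → ℝ) | toTr F ∈ BB n M N} := by
  have h : {F : X n →ᵇ (Fin 3 → ℝ) | toTr F ∈ BB n M N} =
      (⋂ i, ⋂ x, ⋂ y, {F | dist (toTr F i x) (toTr F i y) ≤ M * dist x y}) ∩
      (⋂ i, ⋂ x, ⋂ y, {F | (toTr F i x + toTr F i y) / 2 ≤ toTr F i (mid x y)}) ∩
      (⋂ i, ⋂ x, {F | |toTr F i x| ≤ N}) ∩
      (⋂ x, ⋂ y, {F | (toTr F 0 x + toTr F 1 y) / 2 ≤ toTr F 2 (mid x y)}) := by
    ext F
    simp only [mem_ofPred_eq, mem_inter_iff, mem_iInter, BB, Rel]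
    constructor
    · rintro ⟨h1, h2, h3⟩
      exact ⟨⟨⟨fun i x y => (h1 i).lip.dist_le_mul x y, fun i x y => (h1 i).conc x y⟩, h2⟩, h3⟩
    · rintro ⟨⟨⟨h1, h2⟩, h3⟩, h4⟩
      exact ⟨fun i => ⟨LipschitzWith.of_dist_le_mul (h1 i), h2 i⟩, h3, h4⟩
  rw [h]
  refine ((IsClosed.inter ?_ ?_).inter ?_).inter ?_
  · refine isClosed_iInter fun i => isClosed_iInter fun x => isClosed_iInter fun y => ?_
    exact isClosed_le ((continuous_toTr i x).dist (continuous_toTr i y)) continuous_const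
  · refine isClosed_iInter fun i => isClosed_iInter fun x => isClosed_iInter fun y => ?_
    exact isClosed_le (((continuous_toTr i x).add (continuous_toTr i y)).div_const _)
      (continuous_toTr i _)
  · refine isClosed_iInter fun i => isClosed_iInter fun x => ?_
    exact isClosed_le (continuous_toTr i x).abs continuous_const
  · refine isClosed_iInter fun x => isClosed_iInter fun y => ?_
    exact isClosed_le (((continuous_toTr 0 x).add (continuous_toTr 1 y)).div_const _)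
      (continuous_toTr 2 _)

theorem isClosed_VV (M : ℝ≥0) (N : ℝ) {β : Tr n} (hβ : ∀ i, Continuous (β i)) :
    IsClosed {F : X n →ᵇ (Fin 3 → ℝ) | toTr F ∈ VV n M N β} := by
  have h : {F : X n →ᵇ (Fin 3 → ℝ) | toTr F ∈ VV n M N β} =
      ⋂ i, ⋂ ρ : {ρ : X n → ℝ // Antitone ρ ∧ ∃ K, LipschitzWith K ρ},
        ({F : X n →ᵇ (Fin 3 → ℝ) | toTr F ∈ BB n M N} ∩
          (fun F => ∫ x, (β i x - toTr F i x) * (ρ : X n → ℝ) x) ⁻¹' (Iic 0)) := by
    ext F
    simp only [mem_ofPred_eq, mem_inter_iff, mem_iInter, VV, mem_preimage, mem_Iic]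
    constructor
    · rintro ⟨h1, h2⟩ i ρ
      exact ⟨h1, h2 i ρ.1 ρ.2.1 ρ.2.2⟩
    · intro h
      refine ⟨(h 0 ⟨fun _ => 0, fun _ _ _ => le_rfl, 0, LipschitzWith.const 0⟩).1, ?_⟩
      intro i ρ h1 h2
      exact (h i ⟨ρ, h1, h2⟩).2
  rw [h]
  refine isClosed_iInter fun i => isClosed_iInter fun ρ => ?_
  obtain ⟨ρ, hρ, K, hK⟩ := ρ
  refine ContinuousOn.preimage_isClosed_of_isClosed ?_ (isClosed_BB M N) isClosed_Iic
  have hρc : Continuous ρ := hK.continuous
  obtain ⟨C, hC⟩ : ∃ C, ∀ x, |ρ x| ≤ C := by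
    obtain ⟨C, hC⟩ := (isCompact_range hρc.abs).bddAbove
    exact ⟨C, fun x => hC ⟨x, rfl⟩⟩
  obtain ⟨D, hD⟩ : ∃ D, ∀ x, |β i x| ≤ D := by
    obtain ⟨C, hC⟩ := (isCompact_range (hβ i).abs).bddAbove
    exact ⟨C, fun x => hC ⟨x, rfl⟩⟩
  refine continuousOn_of_dominated (bound := fun _ => (D + N) * C) ?_ ?_ ?_ ?_
  · intro F hF
    have h1 : Continuous (fun x => toTr F i x) := (hF.1 i).lip.continuous
    exact (((hβ i).sub h1).mul hρc).aestronglyMeasurable
  · intro F hF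
    refine Filter.Eventually.of_forall fun x => ?_
    rw [Real.norm_eq_abs, abs_mul]
    have h1 : |β i x - toTr F i x| ≤ D + N :=
      (abs_sub _ _).trans (add_le_add (hD x) (hF.2.1 i x))
    exact mul_le_mul h1 (hC x) (abs_nonneg _) ((abs_nonneg _).trans h1)
  · exact integrable_const _
  · refine Filter.Eventually.of_forall fun x => ?_
    exact ((continuous_const.sub (continuous_toTr i x)).mul continuous_const).continuousOn

theorem isCompact_VV (M : ℝ≥0) (N : ℝ) {β : Tr n} (hβ : ∀ i, Continuous (β i)) :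
    IsCompact {F : X n →ᵇ (Fin 3 → ℝ) | toTr F ∈ VV n M N β} := by
  refine BoundedContinuousFunction.arzela_ascoli₂ (Set.pi univ fun _ => Icc (-N) N)
    (isCompact_univ_pi fun _ => isCompact_Icc) _ (isClosed_VV M N hβ) ?_ ?_
  · intro F x hF i _
    exact abs_le.1 (hF.1.2.1 i x)
  · refine LipschitzWith.uniformEquicontinuous _ M ?_ |>.equicontinuous
    rintro ⟨F, hF⟩
    refine LipschitzWith.of_dist_le_mul fun x y => ?_
    refine (dist_pi_le_iff (by positivity)).2 fun i => ?_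
    exact (hF.1.1 i).lip.dist_le_mul x y

/-- P4: compactness (Arzela-Ascoli), then minimise -/
theorem exists_min_VV {M : ℝ≥0} {N : ℝ} {β : Tr n} (hβ : β ∈ BB n M N) :
    ∃ u ∈ VV n M N β, ∀ v ∈ VV n M N β, ∑ i, ∫ x, (u i x) ^ 2 ≤ ∑ i, ∫ x, (v i x) ^ 2 := by
  have hβc : ∀ i, Continuous (β i) := fun i => (hβ.1 i).lip.continuous
  have key : ∀ v : Tr n, v ∈ VV n M N β → ∃ F : X n →ᵇ (Fin 3 → ℝ), toTr F = v := by
    intro v hv
    refine ⟨BoundedContinuousFunction.mkOfCompact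
      ⟨fun x i => v i x, continuous_pi fun i => (hv.1.1 i).lip.continuous⟩, ?_⟩
    rfl
  have hβV : β ∈ VV n M N β := by
    refine ⟨hβ, fun i ρ _ _ => ?_⟩
    simp
  obtain ⟨F0, hF0⟩ := key β hβV
  have hcont : ContinuousOn (fun F : X n →ᵇ (Fin 3 → ℝ) => ∑ i, ∫ x, (toTr F i x) ^ 2)
      {F : X n →ᵇ (Fin 3 → ℝ) | toTr F ∈ VV n M N β} := by
    refine continuousOn_finsetSum _ fun i _ => ?_
    refine continuousOn_of_dominated (bound := fun _ => N ^ 2) ?_ ?_ ?_ ?_
    · intro F hF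
      have h1 : Continuous (fun x => toTr F i x) := (hF.1.1 i).lip.continuous
      exact (h1.pow 2).aestronglyMeasurable
    · intro F hF
      refine Filter.Eventually.of_forall fun x => ?_
      rw [Real.norm_eq_abs, abs_pow]
      exact pow_le_pow_left₀ (abs_nonneg _) (hF.1.2.1 i x) 2
    · exact integrable_const _
    · refine Filter.Eventually.of_forall fun x => ?_
      exact ((continuous_toTr i x).pow 2).continuousOn
  obtain ⟨F, hF, hmin⟩ := (isCompact_VV M N hβc).exists_isMinOn ⟨F0, by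
    show toTr F0 ∈ VV n M N β
    rw [hF0]; exact hβV⟩ hcont
  refine ⟨toTr F, hF, fun v hv => ?_⟩
  obtain ⟨G, rfl⟩ := key v hv
  exact hmin hv

end Vale.Agent.P254.Unc
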