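import Vale.Agent.P254.Unc.Defs2

open MeasureTheory Set
open scoped NNReal

namespace Vale.Agent.P254.Unc

/-- `Q_mem_VV` from the statements of the blocks P2 and P3 (as hypotheses). -/
theorem Q_mem_VV_of {n : ℕ} (k : Fin n) {M : ℝ≥0}
    (hrel : ∀ z f g : X n → ℝ, LipschitzWith M z → LipschitzWith M f → LipschitzWith M g →
      Rel z f g → Rel (Q k z) (Q k f) (Q k g))
    (hlip : ∀ f : X n → ℝ, LipschitzWith M f → LipschitzWith M (Q k f))
    (hbdd : ∀ f : X n → ℝ, LipschitzWith M f → ∀ N : ℝ, (∀ x, |f x| ≤ N) → ∀ x, |Q k f x| ≤ N)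
    (hle : ∀ f v : X n → ℝ, Good M f → AntiK k v → Continuous v →
      ∫ x, (f x - Q k f x) * v x ≤ 0)
    {N : ℝ} {β v : Tr n} (hv : v ∈ VV n M N β) :
    (fun i => Q k (v i)) ∈ VV n M N β := by
  obtain ⟨⟨hg, hb, hr⟩, ho⟩ := hv
  refine ⟨⟨fun i => ⟨hlip _ (hg i).lip, hrel _ _ _ (hg i).lip (hg i).lip (hg i).lip (hg i).conc⟩,
    fun i x => hbdd _ (hg i).lip N (hb i) x,
    hrel _ _ _ (hg 2).lip (hg 0).lip (hg 1).lip hr⟩, ?_⟩
  intro i ρ hρ hK
  obtain ⟨K, hKρ⟩ := hK
  have hρc : Continuous ρ := hKρ.continuous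
  have hvc : Continuous (v i) := (hg i).lip.continuous
  have hQc : Continuous (Q k (v i)) := (hlip _ (hg i).lip).continuous
  have hc2 : Continuous fun x => (v i x - Q k (v i) x) * ρ x := (hvc.sub hQc).mul hρc
  have hi2 : Integrable (fun x => (v i x - Q k (v i) x) * ρ x) (volume : Measure (X n)) :=
    hc2.integrable_of_hasCompactSupport (HasCompactSupport.of_compactSpace _)
  have hk : AntiK k ρ := by
    intro x s t hst
    refine hρ ?_
    exact update_le_update_iff.2 ⟨hst, fun _ _ => le_rfl⟩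
  have h2 : ∫ x, (v i x - Q k (v i) x) * ρ x ≤ 0 := hle _ _ (hg i) hk hρc
  by_cases hi1 : Integrable (fun x => (β i x - v i x) * ρ x) (volume : Measure (X n))
  · have h1 := ho i ρ hρ ⟨K, hKρ⟩
    have he : ∫ x, (β i x - Q k (v i) x) * ρ x
        = (∫ x, (β i x - v i x) * ρ x) + ∫ x, (v i x - Q k (v i) x) * ρ x := by
      rw [← integral_add hi1 hi2]
      congr 1
      ext x
      ring
    change ∫ x, (β i x - Q k (v i) x) * ρ x ≤ 0
    rw [he]
    linarith
  · have hni : ¬ Integrable (fun x => (β i x - Q k (v i) x) * ρ x) (volume : Measure (X n)) := by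
      intro h
      apply hi1
      have := h.sub hi2
      refine this.congr (Filter.Eventually.of_forall fun x => ?_)
      simp only [Pi.sub_apply]
      ring
    change ∫ x, (β i x - Q k (v i) x) * ρ x ≤ 0
    rw [integral_undef hni]

end Vale.Agent.P254.Unc
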