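import Vale.Agent.P254.Unc.P5
import Vale.Agent.P254.Unc.P3
import Vale.Agent.P254.Unc.P4H
import Vale.Agent.P254.Unc.P4bH

/-! P254-UNC, block P5, final form: the isotonic regression of a triple. -/

open MeasureTheory Set
open scoped NNReal

namespace Vale.Agent.P254.Unc

variable {n : ℕ} {M : ℝ≥0}

theorem isotonic_triple {f0 f1 z : X n → ℝ} (h0 : Good M f0) (h1 : Good M f1) (hz : Good M z)
    (hR : Rel z f0 f1) :
    ∃ g0 g1 w : X n → ℝ, Good M g0 ∧ Good M g1 ∧ Good M w ∧ Rel w g0 g1 ∧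
      IsProj f0 g0 ∧ IsProj f1 g1 ∧ IsProj z w :=
  isotonic_triple_of (fun hβ => exists_min_VV hβ)
    (fun k _ _ _ _ hv => Q_mem_VV_of k (fun _ _ _ hz hf hg h => Q_rel k hz hf hg h)
      (fun _ hf => Q_lip k hf) (fun _ hf _ hN => Q_bdd k hf hN)
      (fun _ _ hf hv hvc => Q_le k hf hv hvc) hv)
    (fun k _ _ hf => Q_eq k hf) (fun k _ _ hf => Q_antiK k hf)
    (fun h => antitone_of_antiK h) h0 h1 hz hR

end Vale.Agent.P254.Unc
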