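import Vale.Agent.P254.Unc.Defs2
import Vale.Agent.P254.Unc.Dual
import Vale.Agent.P254.Unc.D1a
import Vale.Agent.P254.Unc.D1b
import Vale.Agent.P254.Unc.D1cH
import Vale.Agent.P254.Unc.P5b

/-! P254-UNC, block D2: `UNC n` implies the functional inequality for strongly concave `G`. -/

open MeasureTheory Set
open scoped NNReal

namespace Vale.Agent.P254.Unc

variable {n : ℕ}

/-- The test functions `G, x_1, …, x_n`. -/
noncomputable def D2HH (G : X n → ℝ) : Option (Fin n) → X n → ℝ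
  | none => G
  | some k => fun x => ((x k : unitInterval) : ℝ)

/-- linear combination of the test functions -/
noncomputable def D2PS (G : X n → ℝ) (u : Option (Fin n) → ℝ) (x : X n) : ℝ :=
  ∑ i, u i * D2HH G i x

theorem d2_PS_eq (G : X n → ℝ) (u : Option (Fin n) → ℝ) (x : X n) :
    D2PS G u x = u none * G x + ∑ k, u (some k) * ((x k : unitInterval) : ℝ) := by
  simp only [D2PS, Fintype.sum_option, D2HH]

theorem d2_HH_lip {G : X n → ℝ} {M : ℝ≥0} (hG : LipschitzWith M G) (i : Option (Fin n)) :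
    LipschitzWith (M + 1) (D2HH G i) := by
  cases i with
  | none => exact hG.weaken (by simp)
  | some k =>
    refine LipschitzWith.of_dist_le_mul (fun x y => ?_)
    have h1 : dist (D2HH G (some k) x) (D2HH G (some k) y) = dist (x k) (y k) := rfl
    rw [h1]
    calc dist (x k) (y k) ≤ dist x y := dist_le_pi_dist x y k
      _ = 1 * dist x y := (one_mul _).symm
      _ ≤ ((M + 1 : ℝ≥0) : ℝ) * dist x y := by
        refine mul_le_mul_of_nonneg_right ?_ dist_nonneg
        push_cast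
        linarith [M.2]

theorem d2_HH_cont {G : X n → ℝ} {M : ℝ≥0} (hG : LipschitzWith M G) (i : Option (Fin n)) :
    Continuous (D2HH G i) := (d2_HH_lip hG i).continuous

theorem d2_PS_cont {G : X n → ℝ} {M : ℝ≥0} (hG : LipschitzWith M G) (u : Option (Fin n) → ℝ) :
    Continuous (D2PS G u) :=
  continuous_finsetSum _ (fun i _ => continuous_const.mul (d2_HH_cont hG i))

/-- Lipschitz constant of a combination. -/
theorem d2_PS_lip {G : X n → ℝ} {M : ℝ≥0} (hG : LipschitzWith M G) (u : Option (Fin n) → ℝ)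
    (B : ℝ≥0) (hB : ∑ i, |u i| ≤ B) : LipschitzWith (B * (M + 1)) (D2PS G u) := by
  refine LipschitzWith.of_dist_le_mul (fun x y => ?_)
  rw [Real.dist_eq]
  have h1 : D2PS G u x - D2PS G u y = ∑ i, u i * (D2HH G i x - D2HH G i y) := by
    simp only [D2PS]
    rw [← Finset.sum_sub_distrib]
    exact Finset.sum_congr rfl (fun i _ => by ring)
  rw [h1]
  calc |∑ i, u i * (D2HH G i x - D2HH G i y)| ≤ ∑ i, |u i * (D2HH G i x - D2HH G i y)| :=
        Finset.abs_sum_le_sum_abs _ _
    _ ≤ ∑ i, |u i| * (((M + 1 : ℝ≥0) : ℝ) * dist x y) := by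
        refine Finset.sum_le_sum (fun i _ => ?_)
        rw [abs_mul]
        refine mul_le_mul_of_nonneg_left ?_ (abs_nonneg _)
        have := (d2_HH_lip hG i).dist_le_mul x y
        rwa [Real.dist_eq] at this
    _ = (∑ i, |u i|) * (((M + 1 : ℝ≥0) : ℝ) * dist x y) := by rw [Finset.sum_mul]
    _ ≤ (B : ℝ) * (((M + 1 : ℝ≥0) : ℝ) * dist x y) := by
        refine mul_le_mul_of_nonneg_right hB (mul_nonneg (NNReal.coe_nonneg _) dist_nonneg)
    _ = ((B * (M + 1) : ℝ≥0) : ℝ) * dist x y := by push_cast; ring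

theorem d2_mid_coe (x y : X n) (k : Fin n) :
    ((mid x y k : unitInterval) : ℝ) = (((x k : unitInterval) : ℝ) + ((y k : unitInterval) : ℝ)) / 2 :=
  rfl

/-- Strong concavity of a combination with `u none ≥ a ≥ 0`. -/
theorem d2_PS_conc {G : X n → ℝ} {κ : ℝ}
    (hG : ∀ x y, (G x + G y) / 2 + κ * ∑ k, ((x k : ℝ) - y k) ^ 2 ≤ G (mid x y))
    (u : Option (Fin n) → ℝ) (hu : 0 ≤ u none) (x y : X n) :
    (D2PS G u x + D2PS G u y) / 2 + u none * (κ * ∑ k, ((x k : ℝ) - y k) ^ 2) ≤ D2PS G u (mid x y) := by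
  rw [d2_PS_eq, d2_PS_eq, d2_PS_eq]
  have h1 : ∑ k, u (some k) * ((mid x y k : unitInterval) : ℝ) =
      (∑ k, u (some k) * ((x k : unitInterval) : ℝ) +
        ∑ k, u (some k) * ((y k : unitInterval) : ℝ)) / 2 := by
    rw [← Finset.sum_add_distrib, Finset.sum_div]
    exact Finset.sum_congr rfl (fun k _ => by rw [d2_mid_coe]; ring)
  rw [h1]
  have := mul_le_mul_of_nonneg_left (hG x y) hu
  linarith

theorem d2_dist_sq_le (x y : X n) : dist x y ^ 2 ≤ ∑ k, ((x k : ℝ) - y k) ^ 2 := by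
  have hnn : 0 ≤ ∑ k, ((x k : ℝ) - y k) ^ 2 := Finset.sum_nonneg (fun k _ => sq_nonneg _)
  have h : dist x y ≤ Real.sqrt (∑ k, ((x k : ℝ) - y k) ^ 2) := by
    rw [dist_pi_le_iff (Real.sqrt_nonneg _)]
    intro k
    have h1 : dist (x k) (y k) = |(x k : ℝ) - y k| := rfl
    rw [h1]
    apply Real.abs_le_sqrt
    exact Finset.single_le_sum (f := fun k => ((x k : ℝ) - y k) ^ 2)
      (fun i _ => sq_nonneg _) (Finset.mem_univ k)
  calc dist x y ^ 2 ≤ (Real.sqrt (∑ k, ((x k : ℝ) - y k) ^ 2)) ^ 2 :=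
        pow_le_pow_left₀ dist_nonneg h 2
    _ = _ := Real.sq_sqrt hnn


theorem d2_integrable_cont {f : X n → ℝ} (hf : Continuous f) : Integrable f :=
  hf.integrable_of_hasCompactSupport (HasCompactSupport.of_compactSpace f)

theorem Dens.d2_cont {ρ : X n → ℝ} (h : Dens n ρ) : Continuous ρ := by
  obtain ⟨K, hK⟩ := h.lip
  exact hK.continuous

/-- moment vector of a density -/
noncomputable def D2vv (G : X n → ℝ) (ρ : X n → ℝ) : Option (Fin n) → ℝ :=
  fun i => ∫ x, D2HH G i x * ρ x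

theorem d2_sum_vv {G : X n → ℝ} {M : ℝ≥0} (hG : LipschitzWith M G) {ρ : X n → ℝ} (hρ : Dens n ρ)
    (u : Option (Fin n) → ℝ) : ∑ i, u i * D2vv G ρ i = ∫ x, D2PS G u x * ρ x := by
  have h1 : ∀ x, D2PS G u x * ρ x = ∑ i, u i * (D2HH G i x * ρ x) := by
    intro x
    simp only [D2PS]
    rw [Finset.sum_mul]
    exact Finset.sum_congr rfl (fun i _ => by ring)
  simp only [h1]
  have hi : ∀ i ∈ (Finset.univ : Finset (Option (Fin n))),
      Integrable (fun x => u i * (D2HH G i x * ρ x)) := fun i _ =>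
    (d2_integrable_cont ((d2_HH_cont hG i).mul hρ.d2_cont)).const_mul (u i)
  rw [integral_finsetSum _ hi]
  refine Finset.sum_congr rfl (fun i _ => ?_)
  rw [integral_const_mul]
  rfl

def D2V0 (G : X n → ℝ) : Set (Option (Fin n) → ℝ) := {v | ∃ ρ, Dens n ρ ∧ v = D2vv G ρ}

theorem d2_V0_convex {G : X n → ℝ} {M : ℝ≥0} (hG : LipschitzWith M G) : Convex ℝ (D2V0 G) := by
  rintro v ⟨ρ, hρ, rfl⟩ w ⟨σ, hσ, rfl⟩ a b ha hb hab
  refine ⟨fun x => a * ρ x + b * σ x, ⟨?_, ?_, ?_, ?_⟩, ?_⟩
  · intro x y hxy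
    have h1 := mul_le_mul_of_nonneg_left (hρ.anti hxy) ha
    have h2 := mul_le_mul_of_nonneg_left (hσ.anti hxy) hb
    show a * ρ y + b * σ y ≤ a * ρ x + b * σ x
    linarith
  · intro x
    have := hρ.nonneg x
    have := hσ.nonneg x
    positivity
  · obtain ⟨K1, h1⟩ := hρ.lip
    obtain ⟨K2, h2⟩ := hσ.lip
    refine ⟨Real.toNNReal (a * K1 + b * K2), LipschitzWith.of_dist_le_mul (fun x y => ?_)⟩
    have e1 := h1.dist_le_mul x y
    have e2 := h2.dist_le_mul x y
    rw [Real.dist_eq] at e1 e2 ⊢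
    rw [Real.coe_toNNReal _ (by positivity)]
    have e3 : a * ρ x + b * σ x - (a * ρ y + b * σ y) = a * (ρ x - ρ y) + b * (σ x - σ y) := by
      ring
    rw [e3]
    calc |a * (ρ x - ρ y) + b * (σ x - σ y)| ≤ |a * (ρ x - ρ y)| + |b * (σ x - σ y)| :=
          abs_add_le _ _
      _ = a * |ρ x - ρ y| + b * |σ x - σ y| := by
          rw [abs_mul, abs_mul, abs_of_nonneg ha, abs_of_nonneg hb]
      _ ≤ a * (K1 * dist x y) + b * (K2 * dist x y) := by
          have := mul_le_mul_of_nonneg_left e1 ha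
          have := mul_le_mul_of_nonneg_left e2 hb
          linarith
      _ = (a * K1 + b * K2) * dist x y := by ring
  · have i1 := (d2_integrable_cont hρ.d2_cont).const_mul a
    have i2 := (d2_integrable_cont hσ.d2_cont).const_mul b
    rw [integral_add i1 i2, integral_const_mul, integral_const_mul, hρ.int, hσ.int]
    linarith
  · funext i
    simp only [D2vv, Pi.add_apply, Pi.smul_apply, smul_eq_mul]
    have i1 : Integrable (fun x => a * (D2HH G i x * ρ x)) :=
      (d2_integrable_cont ((d2_HH_cont hG i).mul hρ.d2_cont)).const_mul a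
    have i2 : Integrable (fun x => b * (D2HH G i x * σ x)) :=
      (d2_integrable_cont ((d2_HH_cont hG i).mul hσ.d2_cont)).const_mul b
    have : ∀ x, D2HH G i x * (a * ρ x + b * σ x) = a * (D2HH G i x * ρ x) + b * (D2HH G i x * σ x) := by
      intro x; ring
    simp only [this]
    rw [integral_add i1 i2, integral_const_mul, integral_const_mul]

theorem d2_exists_bound {f : X n → ℝ} (hf : Continuous f) : ∃ B : ℝ, 0 ≤ B ∧ ∀ x, |f x| ≤ B := by
  obtain ⟨B, hB⟩ := isCompact_univ.exists_bound_of_continuousOn hf.continuousOn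
  refine ⟨max B 0, le_max_right _ _, fun x => ?_⟩
  have := hB x (mem_univ x)
  rw [Real.norm_eq_abs] at this
  exact this.trans (le_max_left _ _)

theorem d2_vv_bound {G : X n → ℝ} {M : ℝ≥0} (hG : LipschitzWith M G) :
    ∃ B : ℝ, 0 ≤ B ∧ ∀ ρ, Dens n ρ → ∀ i, |D2vv G ρ i| ≤ B := by
  classical
  have h : ∀ i, ∃ B : ℝ, 0 ≤ B ∧ ∀ x, |D2HH G i x| ≤ B := fun i => d2_exists_bound (d2_HH_cont hG i)
  choose B hB0 hB using h
  refine ⟨∑ i, B i, Finset.sum_nonneg (fun i _ => hB0 i), fun ρ hρ i => ?_⟩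
  have h1 : |D2vv G ρ i| ≤ ∫ x, B i * ρ x := by
    rw [D2vv, ← Real.norm_eq_abs]
    refine norm_integral_le_of_norm_le ((d2_integrable_cont hρ.d2_cont).const_mul _) ?_
    filter_upwards with x
    rw [Real.norm_eq_abs, abs_mul, abs_of_nonneg (hρ.nonneg x)]
    exact mul_le_mul_of_nonneg_right (hB i x) (hρ.nonneg x)
  rw [integral_const_mul, hρ.int, mul_one] at h1
  exact h1.trans (Finset.single_le_sum (f := B) (fun j _ => hB0 j) (Finset.mem_univ i))

theorem d2_V_compact {G : X n → ℝ} {M : ℝ≥0} (hG : LipschitzWith M G) :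
    IsCompact (closure (D2V0 G)) := by
  obtain ⟨B, hB0, hB⟩ := d2_vv_bound (n := n) hG
  have hb : Bornology.IsBounded (D2V0 G) := by
    rw [isBounded_iff_forall_norm_le]
    refine ⟨B, ?_⟩
    rintro v ⟨ρ, hρ, rfl⟩
    rw [pi_norm_le_iff_of_nonneg hB0]
    intro i
    rw [Real.norm_eq_abs]
    exact hB ρ hρ i
  exact Metric.isCompact_of_isClosed_isBounded isClosed_closure hb.closure

/-- moment vectors of convex closed lower sets -/
def D2SS (G : X n → ℝ) : Set (Option (Fin n) → ℝ) :=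
  {s | ∃ L : Set (X n), IsClosed L ∧ L.Nonempty ∧ IsLowerSet L ∧
      (∀ x ∈ L, ∀ y ∈ L, mid x y ∈ L) ∧ 0 < (volume L).toReal ∧
      s = fun i => (∫ x in L, D2HH G i x) / (volume L).toReal}

theorem d2_SS_subset {G : X n → ℝ} {M : ℝ≥0} (hG : LipschitzWith M G) :
    D2SS G ⊆ closure (D2V0 G) := by
  classical
  rintro s ⟨L, hL, hne, hlow, hmid, hpos, rfl⟩
  rw [Metric.mem_closure_iff]
  intro ε hε
  obtain ⟨ρ, hρ, happ⟩ := exists_dens_approx L hL hlow hpos
    (Finset.univ.image (D2HH G)) (by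
      intro f hf
      obtain ⟨i, _, rfl⟩ := Finset.mem_image.mp hf
      exact d2_HH_cont hG i) (half_pos hε)
  refine ⟨D2vv G ρ, ⟨ρ, hρ, rfl⟩, ?_⟩
  rw [dist_pi_lt_iff hε]
  intro i
  have := happ (D2HH G i) (Finset.mem_image_of_mem _ (Finset.mem_univ i))
  have hi : Integrable (fun x => D2HH G i x * ρ x) :=
    d2_integrable_cont ((d2_HH_cont hG i).mul hρ.d2_cont)
  rw [integral_sub hi (integrable_const _), integral_const] at this
  simp only [probReal_univ, one_smul] at this
  rw [dist_comm, Real.dist_eq]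
  exact lt_of_le_of_lt this (half_lt_self hε)

theorem d2_SS_bound {G : X n → ℝ} {M : ℝ≥0} (hG : LipschitzWith M G) (hU : UNC n) :
    ∀ s ∈ D2SS G, ∏ i, s i ≤ (∫ x, max (G x) 0) / 2 ^ n := by
  rintro s ⟨L, hL, hne, hlow, hmid, hpos, rfl⟩
  set m := (volume L).toReal with hm
  have hunc := hU L hL hne hlow hmid
  rw [Fintype.prod_option]
  have hk : ∀ k : Fin n, 0 ≤ ∫ x in L, D2HH G (some k) x := fun k =>
    setIntegral_nonneg hL.measurableSet (fun x _ => (x k).2.1)
  have e1 : ∏ k : Fin n, ((∫ x in L, D2HH G (some k) x) / m) =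
      (∏ k : Fin n, (2 * ∫ x in L, ((x k : unitInterval) : ℝ))) / (2 ^ n * m ^ n) := by
    have : ∀ k : Fin n, (∫ x in L, D2HH G (some k) x) / m =
        (2 * ∫ x in L, ((x k : unitInterval) : ℝ)) / (2 * m) := by
      intro k
      have h2 : ∫ x in L, D2HH G (some k) x = ∫ x in L, ((x k : unitInterval) : ℝ) := rfl
      rw [h2]
      field_simp
    simp only [this]
    rw [Finset.prod_div_distrib, Finset.prod_const, Finset.card_univ, Fintype.card_fin, mul_pow]
  have e2 : ∏ k : Fin n, ((∫ x in L, D2HH G (some k) x) / m) ≤ m / 2 ^ n := by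
    rw [e1, div_le_div_iff₀ (by positivity) (by positivity)]
    calc (∏ k : Fin n, (2 * ∫ x in L, ((x k : unitInterval) : ℝ))) * 2 ^ n ≤ m ^ (n + 1) * 2 ^ n :=
          mul_le_mul_of_nonneg_right hunc (by positivity)
      _ = m * (2 ^ n * m ^ n) := by ring
  have e0 : 0 ≤ ∏ k : Fin n, ((∫ x in L, D2HH G (some k) x) / m) :=
    Finset.prod_nonneg (fun k _ => div_nonneg (hk k) hpos.le)
  have hGi : Integrable (fun x => max (G x) 0) :=
    d2_integrable_cont (hG.continuous.max continuous_const)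
  have hIG : ∫ x in L, D2HH G none x ≤ ∫ x, max (G x) 0 := by
    calc ∫ x in L, D2HH G none x ≤ ∫ x in L, max (G x) 0 :=
          setIntegral_mono (d2_integrable_cont (d2_HH_cont hG none)).integrableOn hGi.integrableOn
            (fun x => le_max_left _ _)
      _ ≤ ∫ x, max (G x) 0 :=
          setIntegral_le_integral hGi (Filter.Eventually.of_forall (fun x => le_max_right _ _))
  have hI0 : 0 ≤ ∫ x, max (G x) 0 := integral_nonneg (fun x => le_max_right _ _)
  rcases le_or_gt (∫ x in L, D2HH G none x) 0 with h | h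
  · have : (∫ x in L, D2HH G none x) / m * ∏ k : Fin n, ((∫ x in L, D2HH G (some k) x) / m) ≤ 0 :=
      mul_nonpos_of_nonpos_of_nonneg (div_nonpos_of_nonpos_of_nonneg h hpos.le) e0
    exact this.trans (by positivity)
  · calc (∫ x in L, D2HH G none x) / m * ∏ k : Fin n, ((∫ x in L, D2HH G (some k) x) / m)
        ≤ (∫ x in L, D2HH G none x) / m * (m / 2 ^ n) :=
          mul_le_mul_of_nonneg_left e2 (by positivity)
      _ = (∫ x in L, D2HH G none x) / 2 ^ n := by field_simp
      _ ≤ (∫ x, max (G x) 0) / 2 ^ n := by gcongr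


theorem d2_Good_PS {G : X n → ℝ} {M : ℝ≥0} {κ : ℝ} (hκ : 0 < κ) (hG : LipschitzWith M G)
    (hc : ∀ x y, (G x + G y) / 2 + κ * ∑ k, ((x k : ℝ) - y k) ^ 2 ≤ G (mid x y))
    (u : Option (Fin n) → ℝ) (hu : 0 ≤ u none)
    (B : ℝ≥0) (hB : ∑ i, |u i| ≤ B) : Good (B * (M + 1)) (D2PS G u) := by
  refine ⟨d2_PS_lip hG u B hB, fun x y => ?_⟩
  have h := d2_PS_conc hc u hu x y
  have h2 : 0 ≤ u none * (κ * ∑ k, ((x k : ℝ) - y k) ^ 2) :=
    mul_nonneg hu (mul_nonneg hκ.le (Finset.sum_nonneg (fun k _ => sq_nonneg _)))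
  linarith

/-- linear functional bound extended to the closure -/
theorem d2_closure_le {G : X n → ℝ} (u : Option (Fin n) → ℝ) (c : ℝ)
    (h : ∀ v ∈ D2V0 G, ∑ i, u i * v i ≤ c) : ∀ v ∈ closure (D2V0 G), ∑ i, u i * v i ≤ c := by
  have hc : IsClosed {v : Option (Fin n) → ℝ | ∑ i, u i * v i ≤ c} :=
    isClosed_le (continuous_finsetSum _ (fun i _ => continuous_const.mul (continuous_apply i)))
      continuous_const
  exact closure_minimal (fun v hv => h v hv) hc

theorem d2_dual_F1 {G : X n → ℝ} {M : ℝ≥0} {κ : ℝ} (hκ : 0 < κ) (hG : LipschitzWith M G)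
    (hc : ∀ x y, (G x + G y) / 2 + κ * ∑ k, ((x k : ℝ) - y k) ^ 2 ≤ G (mid x y))
    (u : Option (Fin n) → ℝ) (hu : ∀ i, 0 < u i) (ε : ℝ) (hε : 0 < ε) :
    ∃ s ∈ D2SS G, ∀ v ∈ closure (D2V0 G), ∑ i, u i * v i ≤ ∑ i, u i * s i + ε := by
  have hgood := d2_Good_PS hκ hG hc u (hu none).le (Real.toNNReal (∑ i, |u i|))
    (Real.le_coe_toNNReal _)
  obtain ⟨g, _, _, hg, _, _, _, hp, _, _⟩ := isotonic_triple hgood hgood hgood hgood.conc
  obtain ⟨L, hL, hne, hlow, hmid, hpos, hge⟩ := hp.exists_set hgood.lip.continuous hg hε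
  refine ⟨fun i => (∫ x in L, D2HH G i x) / (volume L).toReal,
    ⟨L, hL, hne, hlow, hmid, hpos, rfl⟩, ?_⟩
  have e1 : ∑ i, u i * ((∫ x in L, D2HH G i x) / (volume L).toReal) =
      (∫ x in L, D2PS G u x) / (volume L).toReal := by
    have hi : ∀ i ∈ (Finset.univ : Finset (Option (Fin n))),
        Integrable (fun x => u i * D2HH G i x) (volume.restrict L) := fun i _ =>
      ((d2_integrable_cont (d2_HH_cont hG i)).integrableOn (s := L)).const_mul (u i)
    have : ∫ x in L, D2PS G u x = ∑ i, u i * ∫ x in L, D2HH G i x := by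
      simp only [D2PS]
      rw [integral_finsetSum _ hi]
      exact Finset.sum_congr rfl (fun i _ => integral_const_mul _ _)
    rw [this, Finset.sum_div]
    exact Finset.sum_congr rfl (fun i _ => by ring)
  rw [e1]
  have e2 : g 0 - ε ≤ (∫ x in L, D2PS G u x) / (volume L).toReal := by
    rw [le_div_iff₀ hpos]
    exact hge
  apply d2_closure_le
  rintro v ⟨ρ, hρ, rfl⟩
  rw [d2_sum_vv hG hρ u]
  have := hp.dens_le hgood.lip.continuous hg.lip.continuous hρ
  linarith

theorem d2_mid_zero : mid (0 : X n) 0 = 0 := by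
  funext k
  apply Subtype.ext
  show (((0 : unitInterval) : ℝ) + ((0 : unitInterval) : ℝ)) / 2 = ((0 : unitInterval) : ℝ)
  simp

theorem d2_PS_add {G : X n → ℝ} (u : Option (Fin n) → ℝ) (i : Option (Fin n)) (η : ℝ)
    [DecidableEq (Option (Fin n))] (x : X n) :
    D2PS G (Function.update u i (u i + η)) x = D2PS G u x + η * D2HH G i x := by
  simp only [D2PS]
  rw [← Finset.add_sum_erase _ _ (Finset.mem_univ i), ← Finset.add_sum_erase _ _ (Finset.mem_univ i)]
  rw [Function.update_self]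
  have : ∑ j ∈ Finset.univ.erase i, Function.update u i (u i + η) j * D2HH G j x =
      ∑ j ∈ Finset.univ.erase i, u j * D2HH G j x := by
    refine Finset.sum_congr rfl (fun j hj => ?_)
    rw [Function.update_of_ne (Finset.ne_of_mem_erase hj)]
  rw [this]
  ring

theorem d2_dual_F2 {G : X n → ℝ} {M : ℝ≥0} {κ : ℝ} (hκ : 0 < κ) (hG : LipschitzWith M G)
    (hc : ∀ x y, (G x + G y) / 2 + κ * ∑ k, ((x k : ℝ) - y k) ^ 2 ≤ G (mid x y))
    (u : Option (Fin n) → ℝ) (hu : ∀ i, 0 < u i) :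
    ∃ C η₀ : ℝ, 0 < η₀ ∧ ∀ i : Option (Fin n), ∀ η : ℝ, 0 < η → η ≤ η₀ →
      ∀ v ∈ closure (D2V0 G), ∀ w ∈ closure (D2V0 G), ∀ c : ℝ,
      (∀ x ∈ closure (D2V0 G), ∑ i, u i * x i ≤ c) →
      ∑ i, u i * v i + ∑ i, u i * w i + η * (v i - w i) ≤ 2 * c + C * η ^ 2 := by
  classical
  set Λ : ℝ := (M : ℝ) + 1 with hΛ
  have hΛ0 : 0 < Λ := by have := M.2; simp only [hΛ]; linarith [NNReal.coe_nonneg M]
  set a : ℝ := u none * κ with ha
  have ha0 : 0 < a := mul_pos (hu none) hκ
  set C₀ : ℝ := Λ ^ 2 / (4 * a) with hC₀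
  refine ⟨2 * C₀, u none / 2, half_pos (hu none), ?_⟩
  intro i η hη hηle
  -- the three functions
  set f0 : X n → ℝ := D2PS G (Function.update u i (u i + η)) with hf0
  set f1 : X n → ℝ := D2PS G (Function.update u i (u i + -η)) with hf1
  set z : X n → ℝ := fun x => D2PS G u x + C₀ * η ^ 2 with hz
  have hf0e : ∀ x, f0 x = D2PS G u x + η * D2HH G i x := fun x => d2_PS_add u i η x
  have hf1e : ∀ x, f1 x = D2PS G u x + (-η) * D2HH G i x := fun x => d2_PS_add u i (-η) x
  -- common Lipschitz constant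
  set B : ℝ≥0 := Real.toNNReal ((∑ j, |u j|) + η) with hB
  have hBv : (B : ℝ) = (∑ j, |u j|) + η :=
    Real.coe_toNNReal _ (add_nonneg (Finset.sum_nonneg (fun j _ => abs_nonneg _)) hη.le)
  have habs : ∀ t : ℝ, |t| = η → ∑ j, |Function.update u i (u i + t) j| ≤ (B : ℝ) := by
    intro t ht
    rw [hBv]
    rw [← Finset.add_sum_erase _ _ (Finset.mem_univ i),
      ← Finset.add_sum_erase (a := i) Finset.univ (fun j => |u j|) (Finset.mem_univ i)]
    rw [Function.update_self]
    have : ∑ j ∈ Finset.univ.erase i, |Function.update u i (u i + t) j| =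
        ∑ j ∈ Finset.univ.erase i, |u j| := by
      refine Finset.sum_congr rfl (fun j hj => ?_)
      rw [Function.update_of_ne (Finset.ne_of_mem_erase hj)]
    rw [this]
    have := abs_add_le (u i) t
    rw [ht] at this
    linarith
  have hupd : ∀ t : ℝ, |t| = η → 0 ≤ Function.update u i (u i + t) none := by
    intro t ht
    by_cases hi : i = none
    · subst hi
      rw [Function.update_self]
      have := neg_abs_le t
      rw [ht] at this
      have := hu none
      linarith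
    · rw [Function.update_of_ne (Ne.symm hi)]
      exact (hu none).le
  have habη : |η| = η := abs_of_pos hη
  have habη' : |-η| = η := by rw [abs_neg, habη]
  have hg0 : Good (B * (M + 1)) f0 :=
    d2_Good_PS hκ hG hc _ (hupd η habη) B (habs η habη)
  have hg1 : Good (B * (M + 1)) f1 :=
    d2_Good_PS hκ hG hc _ (hupd (-η) habη') B (habs (-η) habη')
  have hgu : Good (B * (M + 1)) (D2PS G u) :=
    d2_Good_PS hκ hG hc u (hu none).le B (by rw [hBv]; linarith)
  have hgz : Good (B * (M + 1)) z := by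
    refine ⟨LipschitzWith.of_dist_le_mul (fun x y => ?_), fun x y => ?_⟩
    · have := hgu.lip.dist_le_mul x y
      rw [Real.dist_eq] at this ⊢
      simp only [hz]
      have e : D2PS G u x + C₀ * η ^ 2 - (D2PS G u y + C₀ * η ^ 2) = D2PS G u x - D2PS G u y := by ring
      rw [e]
      exact this
    · have := hgu.conc x y
      simp only [hz]
      linarith
  have hR : Rel z f0 f1 := by
    intro x y
    rw [hf0e, hf1e]
    simp only [hz]
    have h1 := d2_PS_conc hc u (hu none).le x y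
    have h2 : |D2HH G i x - D2HH G i y| ≤ Λ * dist x y := by
      have := (d2_HH_lip hG i).dist_le_mul x y
      rw [Real.dist_eq] at this
      push_cast at this
      exact this
    have h3 := d2_dist_sq_le x y
    have h4 : D2HH G i x - D2HH G i y ≤ Λ * dist x y := (le_abs_self _).trans h2
    have h5 : a * dist x y ^ 2 ≤ u none * (κ * ∑ k, ((x k : ℝ) - y k) ^ 2) := by
      have := mul_le_mul_of_nonneg_left h3 ha0.le
      calc a * dist x y ^ 2 ≤ a * ∑ k, ((x k : ℝ) - y k) ^ 2 := this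
        _ = _ := by simp only [ha]; ring
    have h6 : η * (D2HH G i x - D2HH G i y) ≤ η * (Λ * dist x y) :=
      mul_le_mul_of_nonneg_left h4 hη.le
    have h7 : η * (Λ * dist x y) / 2 ≤ a * dist x y ^ 2 + C₀ * η ^ 2 := by
      have h8 : C₀ * η ^ 2 = (Λ * η) ^ 2 / (4 * a) := by simp only [hC₀]; ring
      have h9 : 0 ≤ (2 * a * dist x y - Λ * η) ^ 2 / (4 * a) := by positivity
      have h10 : (2 * a * dist x y - Λ * η) ^ 2 / (4 * a) =
          a * dist x y ^ 2 - η * (Λ * dist x y) + (Λ * η) ^ 2 / (4 * a) := by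
        field_simp
        ring
      have h11 : 0 ≤ η * (Λ * dist x y) := by
        have := dist_nonneg (x := x) (y := y)
        positivity
      rw [h8]
      linarith
    linarith
  obtain ⟨g0, g1, w0, hG0, hG1, hGw, hRw, hp0, hp1, hpz⟩ := isotonic_triple hg0 hg1 hgz hR
  -- the bound for densities
  have hbase : ∀ v ∈ closure (D2V0 G), ∀ w ∈ closure (D2V0 G), ∀ c : ℝ,
      (∀ x ∈ closure (D2V0 G), ∑ i, u i * x i ≤ c) →
      ∑ i, u i * v i + ∑ i, u i * w i + η * (v i - w i) ≤ 2 * c + 2 * C₀ * η ^ 2 := by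
    intro v hv w hw c hcb
    -- `w0 0 ≤ c + C₀ η²`
    have hw0 : w0 0 ≤ c + C₀ * η ^ 2 := by
      refine le_of_forall_pos_le_add (fun ε hε => ?_)
      obtain ⟨ρ, hρ, hge⟩ := hpz.exists_dens hgz.lip.continuous hGw.lip hε
      have e1 : ∫ x, z x * ρ x = ∑ j, u j * D2vv G ρ j + C₀ * η ^ 2 := by
        rw [d2_sum_vv hG hρ u]
        have e2 : ∀ x, z x * ρ x = D2PS G u x * ρ x + C₀ * η ^ 2 * ρ x := by
          intro x; simp only [hz]; ring
        simp only [e2]
        have i1 : Integrable (fun x => D2PS G u x * ρ x) :=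
          d2_integrable_cont ((d2_PS_cont hG u).mul hρ.d2_cont)
        have i2 : Integrable (fun x => C₀ * η ^ 2 * ρ x) := (d2_integrable_cont hρ.d2_cont).const_mul _
        rw [integral_add i1 i2, integral_const_mul, hρ.int, mul_one]
      have e3 := hcb (D2vv G ρ) (subset_closure ⟨ρ, hρ, rfl⟩)
      linarith
    have h00 : g0 0 + g1 0 ≤ 2 * w0 0 := by
      have := hRw 0 0
      rw [d2_mid_zero] at this
      linarith
    -- for `v`
    have hv' : ∑ j, Function.update u i (u i + η) j * v j ≤ g0 0 := by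
      refine d2_closure_le _ _ ?_ v hv
      rintro v' ⟨ρ, hρ, rfl⟩
      rw [d2_sum_vv hG hρ]
      exact hp0.dens_le hg0.lip.continuous hG0.lip.continuous hρ
    have hw' : ∑ j, Function.update u i (u i + -η) j * w j ≤ g1 0 := by
      refine d2_closure_le _ _ ?_ w hw
      rintro v' ⟨ρ, hρ, rfl⟩
      rw [d2_sum_vv hG hρ]
      exact hp1.dens_le hg1.lip.continuous hG1.lip.continuous hρ
    have hupdsum : ∀ (t : ℝ) (v : Option (Fin n) → ℝ),
        ∑ j, Function.update u i (u i + t) j * v j = ∑ j, u j * v j + t * v i := by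
      intro t v
      rw [← Finset.add_sum_erase _ _ (Finset.mem_univ i),
        ← Finset.add_sum_erase (a := i) Finset.univ (fun j => u j * v j) (Finset.mem_univ i)]
      rw [Function.update_self]
      have : ∑ j ∈ Finset.univ.erase i, Function.update u i (u i + t) j * v j =
          ∑ j ∈ Finset.univ.erase i, u j * v j := by
        refine Finset.sum_congr rfl (fun j hj => ?_)
        rw [Function.update_of_ne (Finset.ne_of_mem_erase hj)]
      rw [this]
      ring
    rw [hupdsum] at hv' hw'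
    linarith
  exact hbase

/-- D2: the main step -/
theorem cxs_of_unc (n : ℕ) (h : UNC n) : CXs n := by
  intro ρ G M κ hκ hρ hG hc
  have hkk : ∀ k : Fin n, 0 ≤ ∫ x, ((x k : unitInterval) : ℝ) * ρ x := fun k =>
    integral_nonneg (fun x => mul_nonneg (x k).2.1 (hρ.nonneg x))
  have hprod0 : 0 ≤ ∏ k : Fin n, (2 * ∫ x, ((x k : unitInterval) : ℝ) * ρ x) :=
    Finset.prod_nonneg (fun k _ => mul_nonneg (by norm_num) (hkk k))
  have hI0 : 0 ≤ ∫ x, max (G x) 0 := integral_nonneg (fun x => le_max_right _ _)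
  by_cases hpos : ∀ i, 0 < D2vv G ρ i
  · have key := prod_le_of_dual (closure (D2V0 G)) (D2SS G) ((∫ x, max (G x) 0) / 2 ^ n)
      (d2_V_compact hG) (d2_V0_convex hG).closure (d2_SS_subset hG)
      (fun u hu ε hε => d2_dual_F1 hκ hG hc u hu ε hε) (fun u hu => d2_dual_F2 hκ hG hc u hu)
      (d2_SS_bound hG h) (D2vv G ρ) (subset_closure ⟨ρ, hρ, rfl⟩) hpos
    rw [Fintype.prod_option] at key
    have e1 : D2vv G ρ none = ∫ x, G x * ρ x := rfl
    have e2 : ∀ k : Fin n, D2vv G ρ (some k) = ∫ x, ((x k : unitInterval) : ℝ) * ρ x := fun k => rfl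
    simp only [e1, e2] at key
    rw [le_div_iff₀ (by positivity)] at key
    rw [Finset.prod_mul_distrib, Finset.prod_const, Finset.card_univ, Fintype.card_fin]
    linarith
  · push Not at hpos
    obtain ⟨i, hi⟩ := hpos
    cases i with
    | none =>
      have : (∫ x, G x * ρ x) * ∏ k : Fin n, (2 * ∫ x, ((x k : unitInterval) : ℝ) * ρ x) ≤ 0 :=
        mul_nonpos_of_nonpos_of_nonneg hi hprod0
      linarith
    | some k =>
      have h0 : ∫ x, ((x k : unitInterval) : ℝ) * ρ x = 0 := le_antisymm hi (hkk k)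
      have : ∏ k : Fin n, (2 * ∫ x, ((x k : unitInterval) : ℝ) * ρ x) = 0 :=
        Finset.prod_eq_zero (Finset.mem_univ k) (by rw [h0, mul_zero])
      rw [this, mul_zero]
      exact hI0

end Vale.Agent.P254.Unc
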