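import Vale.Agent.P254.Unc.Defs

open MeasureTheory Set Filter Topology
open scoped NNReal

namespace Vale.Agent.P254.Unc

/-- Fibre length over `x` in direction `0`: the measure of `{t | (t, x) ∈ L}`. -/
noncomputable def Hf {n : ℕ} (L : Set (X (n + 1))) (x : X n) : ℝ :=
  (volume {t : unitInterval | (Fin.cons t x : X (n + 1)) ∈ L}).toReal

/-
E1b (file Unc/E1b.lean; owner helper79, hedges 723, 104), exact statements:

variable {n : ℕ} (L : Set (X (n + 1)))

theorem fub_vol (hL : IsClosed L) : (volume L).toReal = ∫ x : X n, Hf L x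

theorem fub_zero (hL : IsClosed L) (hlow : IsLowerSet L) :
    2 * ∫ p in L, ((p 0 : unitInterval) : ℝ) = ∫ x : X n, Hf L x ^ 2

theorem fub_succ (hL : IsClosed L) (k : Fin n) :
    ∫ p in L, ((p k.succ : unitInterval) : ℝ) = ∫ x : X n, ((x k : unitInterval) : ℝ) * Hf L x

E1a (file Unc/E1a.lean; owner helper537), exact statement:

theorem exists_supconv (hL : IsClosed L) (hne : L.Nonempty) (hlow : IsLowerSet L)
    (hmid : ∀ x ∈ L, ∀ y ∈ L, mid x y ∈ L) :
    ∃ g : ℕ → X n → ℝ, (∀ N, ∃ K, LipschitzWith K (g N)) ∧ (∀ N, Rel (g N) (g N) (g N)) ∧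
      (∀ N, Antitone (g N)) ∧ (∀ N x, g N x ≤ 1) ∧
      ∀ x, Tendsto (fun N => max (g N x) 0) atTop (𝓝 (Hf L x))
-/

end Vale.Agent.P254.Unc
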