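import Vale.Agent.P227.PL
import Mathlib.MeasureTheory.Integral.Layercake
import Mathlib.MeasureTheory.Integral.IntegralEqImproper
import Mathlib.Analysis.SpecialFunctions.Integrals.Basic
import Mathlib.MeasureTheory.Measure.Lebesgue.EqHaar

/-!
# Berwald's inequality for a coordinate on a convex body in a half space
`E x_k^2 ≤ (2(n+1)/(n+2)) (E x_k)^2`
-/

open MeasureTheory Set
open scoped ENNReal NNReal Pointwise

namespace Vale.Agent.P254.Unc.B966

theorem int_pow_lin {a : ℝ} (ha : 0 < a) (n : ℕ) :
    ∫ s in (0:ℝ)..a, (1 - s / a) ^ n = a / (n + 1) := by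
  have hd : ∀ s ∈ uIcc (0:ℝ) a, HasDerivAt (fun s => -(a / (n + 1)) * (1 - s / a) ^ (n + 1))
      ((1 - s / a) ^ n) s := by
    intro s _
    have h1 : HasDerivAt (fun s : ℝ => 1 - s / a) (-(1 / a)) s := by
      simpa using ((hasDerivAt_id s).div_const a).const_sub 1
    have h2 := (h1.pow (n + 1)).const_mul (-(a / ((n : ℝ) + 1)))
    refine HasDerivAt.congr_deriv h2 ?_
    have : (n : ℝ) + 1 ≠ 0 := by positivity
    rw [Nat.add_sub_cancel]
    push_cast
    field_simp
  rw [intervalIntegral.integral_eq_sub_of_hasDerivAt hd]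
  · have : a / a = 1 := div_self ha.ne'
    simp [this]
  · exact (Continuous.intervalIntegrable (by fun_prop) _ _)

theorem int_mul_pow_lin {a : ℝ} (ha : 0 < a) (n : ℕ) :
    ∫ s in (0:ℝ)..a, s * (1 - s / a) ^ n = a ^ 2 / ((n + 1) * (n + 2)) := by
  have h1 : ∀ s : ℝ, s * (1 - s / a) ^ n = a * ((1 - s / a) ^ n - (1 - s / a) ^ (n + 1)) := by
    intro s
    have : s = a * (1 - (1 - s / a)) := by field_simp; ring
    conv_lhs => rw [this]
    rw [pow_succ]
    have h2 : 1 - a * (1 - (1 - s / a)) / a = 1 - s / a := by field_simp; ring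
    rw [h2]
    ring
  simp_rw [h1]
  rw [intervalIntegral.integral_const_mul, intervalIntegral.integral_sub, int_pow_lin ha,
    int_pow_lin ha]
  · have h3 : (n : ℝ) + 1 ≠ 0 := by positivity
    have h4 : (n : ℝ) + 2 ≠ 0 := by positivity
    have h5 : ((n : ℝ) + 1 + 1) ≠ 0 := by positivity
    push_cast
    field_simp
    ring
  · exact (Continuous.intervalIntegrable (by fun_prop) _ _)
  · exact (Continuous.intervalIntegrable (by fun_prop) _ _)

/-- one-dimensional comparison: `M = h^n`, `h` concave from 0. -/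
theorem berwald_one {n : ℕ} (hn : 0 < n) (h : ℝ → ℝ) (T : ℝ) (hT : 0 < T)
    (h0 : h 0 = 1) (hnn : ∀ s, 0 ≤ h s)
    (hmeas : Measurable h) (hle : ∀ s, 0 ≤ s → h s ≤ 1)
    (hcc : ∀ s θ, 0 < s → 0 < θ → θ < 1 → 0 < h s → (1 - θ) + θ * h s ≤ h (θ * s))
    (hI : ((n : ℝ) + 1) * (∫ s in (0:ℝ)..T, h s ^ n) ≤ T) :
    ((n : ℝ) + 2) * (∫ s in (0:ℝ)..T, s * h s ^ n) ≤
      ((n : ℝ) + 1) * (∫ s in (0:ℝ)..T, h s ^ n) ^ 2 := by
  have hTT : (0:ℝ) ≤ T := hT.le
  -- integrability
  have hint : IntervalIntegrable (fun s => h s ^ n) volume 0 T := by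
    rw [intervalIntegrable_iff_integrableOn_Ioc_of_le hTT]
    refine Measure.integrableOn_of_bounded (M := 1) (by simp)
      (hmeas.pow_const n).aestronglyMeasurable ?_
    filter_upwards [ae_restrict_mem measurableSet_Ioc] with s hs
    rw [Real.norm_eq_abs, abs_of_nonneg (pow_nonneg (hnn s) n)]
    exact pow_le_one₀ (hnn s) (hle s hs.1.le)
  have hint2 : IntervalIntegrable (fun s => s * h s ^ n) volume 0 T := by
    have := hint.continuousOn_mul (f := fun s => h s ^ n) (g := fun s => s) continuousOn_id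
    exact this
  set I : ℝ := ∫ s in (0:ℝ)..T, h s ^ n with hIdef
  have hI0 : 0 ≤ I := intervalIntegral.integral_nonneg hTT (fun s _ => pow_nonneg (hnn s) n)
  rcases hI0.eq_or_lt with hz | hpos
  · -- I = 0
    have h1 : (∫ s in (0:ℝ)..T, s * h s ^ n) ≤ ∫ s in (0:ℝ)..T, T * h s ^ n := by
      refine intervalIntegral.integral_mono_on hTT hint2 (hint.const_mul T) ?_
      intro s hs
      exact mul_le_mul_of_nonneg_right hs.2 (pow_nonneg (hnn s) n)
    rw [intervalIntegral.integral_const_mul, ← hIdef, ← hz, mul_zero] at h1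
    rw [← hz]
    have : ((n : ℝ) + 2) * (∫ s in (0:ℝ)..T, s * h s ^ n) ≤ 0 :=
      mul_nonpos_of_nonneg_of_nonpos (by positivity) h1
    simpa using this
  set a : ℝ := ((n : ℝ) + 1) * I with ha
  have hapos : 0 < a := by positivity
  set l : ℝ → ℝ := fun s => max 0 (1 - s / a) with hl
  have hlc : Continuous l := by fun_prop
  have hl0 : ∀ s, 0 ≤ l s := fun s => le_max_left _ _
  set S : Set ℝ := {s | 0 ≤ s ∧ s ≤ T ∧ 0 < h s ∧ 1 - s / a ≤ h s} with hS
  have hS0 : (0:ℝ) ∈ S := ⟨le_refl _, hTT, by rw [h0]; norm_num, by rw [h0]; simp⟩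
  have hSb : BddAbove S := ⟨T, fun s hs => hs.2.1⟩
  set s0 : ℝ := sSup S with hs0
  have hpt : ∀ s ∈ Icc (0:ℝ) T, (s - s0) * (h s ^ n - l s ^ n) ≤ 0 := by
    intro s hs
    rcases lt_trichotomy s s0 with hlt | heq | hgt
    · obtain ⟨s1, hs1, hs1'⟩ := exists_lt_of_lt_csSup ⟨0, hS0⟩ hlt
      have hge : l s ≤ h s := by
        refine max_le (hnn s) ?_
        rcases hs.1.eq_or_lt with h00 | hsp
        · rw [← h00, h0]; simp
        · have hs1p : 0 < s1 := lt_trans hsp hs1'
          have hθ : 0 < s / s1 := by positivity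
          have hθ1 : s / s1 < 1 := by rw [div_lt_one hs1p]; exact hs1'
          have := hcc s1 (s / s1) hs1p hθ hθ1 hs1.2.2.1
          rw [div_mul_cancel₀ _ hs1p.ne'] at this
          refine le_trans ?_ this
          have h2 : (s / s1) * (1 - s1 / a) ≤ (s / s1) * h s1 :=
            mul_le_mul_of_nonneg_left hs1.2.2.2 hθ.le
          have h3 : (s / s1) * (1 - s1 / a) = s / s1 - s / a := by
            field_simp
          linarith
      have hp : l s ^ n ≤ h s ^ n := pow_le_pow_left₀ (hl0 s) hge n
      exact mul_nonpos_of_nonpos_of_nonneg (by linarith) (by linarith)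
    · rw [heq]; simp
    · have hns : s ∉ S := fun hh => absurd (le_csSup hSb hh) (not_le.mpr hgt)
      have hle' : h s ≤ l s := by
        by_contra hcon
        push Not at hcon
        have h1 : 0 < h s := lt_of_le_of_lt (hl0 s) hcon
        exact hns ⟨hs.1, hs.2, h1, (le_trans (le_max_right _ _) hcon.le)⟩
      have hp : h s ^ n ≤ l s ^ n := pow_le_pow_left₀ (hnn s) hle' n
      exact mul_nonpos_of_nonneg_of_nonpos (by linarith) (by linarith)
  have haT : a ≤ T := hI
  -- integrals of l
  have hl_int : ∀ (c : ℕ) , IntervalIntegrable (fun s => s ^ c * l s ^ n) volume 0 T := by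
    intro c
    exact Continuous.intervalIntegrable (by fun_prop) _ _
  have hsplit : ∀ c : ℕ, ∫ s in (0:ℝ)..T, s ^ c * l s ^ n =
      ∫ s in (0:ℝ)..a, s ^ c * (1 - s / a) ^ n := by
    intro c
    rw [← intervalIntegral.integral_add_adjacent_intervals (b := a)
      (Continuous.intervalIntegrable (by fun_prop) _ _)
      (Continuous.intervalIntegrable (by fun_prop) _ _)]
    have h2 : ∫ s in a..T, s ^ c * l s ^ n = 0 := by
      rw [intervalIntegral.integral_congr (g := fun _ => (0:ℝ))]
      · simp
      · intro s hs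
        rw [uIcc_of_le haT] at hs
        have : l s = 0 := by
          refine max_eq_left ?_
          rw [sub_nonpos, le_div_iff₀ hapos]
          linarith [hs.1]
        simp [this, hn.ne']
    rw [h2, add_zero]
    refine intervalIntegral.integral_congr ?_
    intro s hs
    rw [uIcc_of_le hapos.le] at hs
    have : l s = 1 - s / a := by
      refine max_eq_right ?_
      rw [sub_nonneg, div_le_iff₀ hapos]
      linarith [hs.2]
    simp only [this]
  have hl1 : ∫ s in (0:ℝ)..T, l s ^ n = I := by
    have := hsplit 0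
    simp only [pow_zero, one_mul] at this
    rw [this, int_pow_lin hapos, ha]
    field_simp
  have hl2 : ∫ s in (0:ℝ)..T, s * l s ^ n = ((n:ℝ) + 1) * I ^ 2 / (n + 2) := by
    have := hsplit 1
    simp only [pow_one] at this
    rw [this, int_mul_pow_lin hapos, ha]
    field_simp
  have hmain : ∫ s in (0:ℝ)..T, (s - s0) * (h s ^ n - l s ^ n) ≤ 0 := by
    have := intervalIntegral.integral_nonneg (f := fun s => -((s - s0) * (h s ^ n - l s ^ n)))
      (μ := volume) hTT (fun s hs => by simpa using hpt s hs)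
    rw [intervalIntegral.integral_neg] at this
    linarith
  have hlint : IntervalIntegrable (fun s => l s ^ n) volume 0 T :=
    Continuous.intervalIntegrable (by fun_prop) _ _
  have hlint2 : IntervalIntegrable (fun s => s * l s ^ n) volume 0 T :=
    Continuous.intervalIntegrable (by fun_prop) _ _
  have hexp : ∫ s in (0:ℝ)..T, (s - s0) * (h s ^ n - l s ^ n) =
      ((∫ s in (0:ℝ)..T, s * h s ^ n) - ∫ s in (0:ℝ)..T, s * l s ^ n) -
        s0 * ((∫ s in (0:ℝ)..T, h s ^ n) - ∫ s in (0:ℝ)..T, l s ^ n) := by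
    rw [← intervalIntegral.integral_sub hint2 hlint2, ← intervalIntegral.integral_sub hint hlint,
      ← intervalIntegral.integral_const_mul, ← intervalIntegral.integral_sub (hint2.sub hlint2)
        ((hint.sub hlint).const_mul s0)]
    refine intervalIntegral.integral_congr ?_
    intro s _
    simp only
    ring
  rw [hexp, hl1, hl2, ← hIdef, sub_self, mul_zero, sub_zero, sub_nonpos] at hmain
  have h7 : (0:ℝ) < (n:ℝ) + 2 := by positivity
  rw [le_div_iff₀ h7] at hmain
  linarith

/-- additive Brunn-Minkowski with weights, in `Fin n → ℝ` -/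
theorem bm_add {n : ℕ} (hn : 0 < n) {A B C : Set (Fin n → ℝ)} (hA : MeasurableSet A)
    (hB : MeasurableSet B) (hC : MeasurableSet C) (vA : 0 < (volume A).toReal)
    (vB : 0 < (volume B).toReal) (vC : volume C ≠ ∞) {θ : ℝ} (hθ0 : 0 < θ) (hθ1 : θ < 1)
    (h : ∀ a ∈ A, ∀ b ∈ B, (1 - θ) • a + θ • b ∈ C) :
    (1 - θ) * (volume A).toReal ^ ((1:ℝ) / n) + θ * (volume B).toReal ^ ((1:ℝ) / n) ≤
      (volume C).toReal ^ ((1:ℝ) / n) := by
  set α : ℝ := (volume A).toReal ^ ((1:ℝ) / n) with hα
  set β : ℝ := (volume B).toReal ^ ((1:ℝ) / n) with hβ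
  have hα0 : 0 < α := Real.rpow_pos_of_pos vA _
  have hβ0 : 0 < β := Real.rpow_pos_of_pos vB _
  have hnn : (n:ℝ) ≠ 0 := by exact_mod_cast hn.ne'
  have hαn : α ^ n = (volume A).toReal := by
    rw [hα, ← Real.rpow_natCast, ← Real.rpow_mul vA.le]
    simp [hnn]
  have hβn : β ^ n = (volume B).toReal := by
    rw [hβ, ← Real.rpow_natCast, ← Real.rpow_mul vB.le]
    simp [hnn]
  have h1θ : 0 < 1 - θ := by linarith
  set c : ℝ := (1 - θ) * α + θ * β with hc
  have hc0 : 0 < c := by positivity
  have hs : 0 < (1 - θ) * α / c := by positivity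
  have ht : 0 < θ * β / c := by positivity
  have hst : (1 - θ) * α / c + θ * β / c = 1 := by
    rw [← add_div, ← hc, div_self hc0.ne']
  have hfinA : volume A ≠ ∞ := fun hh => by rw [hh] at vA; simp at vA
  have hfinB : volume B ≠ ∞ := fun hh => by rw [hh] at vB; simp at vB
  have key := Vale.Agent.P227.bm_mul (n := n) hs ht hst (A := (1 / α) • A) (B := (1 / β) • B)
    (C := (1 / c) • C) (hA.const_smul₀ _) (hB.const_smul₀ _) (hC.const_smul₀ _) (by
      rintro _ ⟨a, ha, rfl⟩ _ ⟨b, hb, rfl⟩
      refine ⟨_, h a ha b hb, ?_⟩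
      simp only [smul_add, smul_smul]
      congr 2
      · field_simp
      · field_simp)
  have hvA : volume ((1 / α) • A) = 1 := by
    rw [Measure.addHaar_smul, ← ENNReal.ofReal_toReal hfinA, ← hαn,
      ← ENNReal.ofReal_mul (abs_nonneg _)]
    simp only [Module.finrank_fintype_fun_eq_card, Fintype.card_fin]
    rw [abs_of_nonneg (by positivity), ← mul_pow, one_div_mul_cancel hα0.ne', one_pow]
    simp
  have hvB : volume ((1 / β) • B) = 1 := by
    rw [Measure.addHaar_smul, ← ENNReal.ofReal_toReal hfinB, ← hβn,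
      ← ENNReal.ofReal_mul (abs_nonneg _)]
    simp only [Module.finrank_fintype_fun_eq_card, Fintype.card_fin]
    rw [abs_of_nonneg (by positivity), ← mul_pow, one_div_mul_cancel hβ0.ne', one_pow]
    simp
  rw [hvA, hvB, ENNReal.one_rpow, ENNReal.one_rpow, one_mul, Measure.addHaar_smul,
    ← ENNReal.ofReal_toReal vC, ← ENNReal.ofReal_mul (abs_nonneg _)] at key
  simp only [Module.finrank_fintype_fun_eq_card, Fintype.card_fin] at key
  rw [ENNReal.one_le_ofReal, abs_of_nonneg (by positivity), one_div, inv_pow,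
    inv_mul_eq_div, one_le_div (by positivity)] at key
  calc c = (c ^ n) ^ ((1:ℝ) / n) := by
        rw [← Real.rpow_natCast, ← Real.rpow_mul hc0.le]
        simp [hnn]
    _ ≤ _ := Real.rpow_le_rpow (by positivity) key (by positivity)

/-- Berwald's inequality for a coordinate. -/
theorem berwald {n : ℕ} (K : Set (Fin n → ℝ)) (hcv : Convex ℝ K) (hK : IsCompact K)
    (hv : 0 < volume K) (k : Fin n) (h0 : ∀ x ∈ K, 0 ≤ x k) :
    ((n:ℝ) + 2) * (∫ x in K, x k ^ 2) * (volume K).toReal ≤
      2 * ((n:ℝ) + 1) * (∫ x in K, x k) ^ 2 := by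
  have hn : 0 < n := k.pos
  have hnn : (n:ℝ) ≠ 0 := by exact_mod_cast hn.ne'
  obtain ⟨M, hM0, hM⟩ : ∃ M : ℝ, 0 < M ∧ ∀ x ∈ K, x k ≤ M := by
    obtain ⟨M, hM⟩ := hK.bddAbove_image (f := fun x => x k) (by fun_prop)
    exact ⟨max M 1, by positivity, fun x hx => le_trans (hM ⟨x, hx, rfl⟩) (le_max_left _ _)⟩
  have hKm : MeasurableSet K := hK.measurableSet
  have hKf : volume K ≠ ∞ := hK.measure_lt_top.ne
  set Ks : ℝ → Set (Fin n → ℝ) := fun s => K ∩ {x | s ≤ x k} with hKs
  have hKsm : ∀ s, MeasurableSet (Ks s) := fun s =>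
    hKm.inter (measurableSet_le measurable_const (measurable_pi_apply k))
  have hKsf : ∀ s, volume (Ks s) ≠ ∞ := fun s =>
    ((measure_mono inter_subset_left).trans_lt hK.measure_lt_top).ne
  set v : ℝ → ℝ := fun s => (volume (Ks s)).toReal with hvdef
  have hv0 : ∀ s, s ≤ 0 → Ks s = K := by
    intro s hs
    refine inter_eq_left.mpr fun x hx => ?_
    exact le_trans hs (h0 x hx)
  have hvK : v 0 = (volume K).toReal := by rw [hvdef]; simp only [hv0 0 le_rfl]
  have hvpos : 0 < v 0 := by rw [hvK]; exact ENNReal.toReal_pos hv.ne' hKf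
  have hvnn : ∀ s, 0 ≤ v s := fun s => ENNReal.toReal_nonneg
  have hanti : Antitone v := by
    intro s t hst
    refine ENNReal.toReal_mono (hKsf s) (measure_mono ?_)
    exact inter_subset_inter_right K (fun x hx => le_trans hst hx)
  have hvM : ∀ s, M < s → v s = 0 := by
    intro s hs
    have : Ks s = ∅ := by
      ext x
      simp only [hKs, mem_inter_iff, mem_ofPred_eq, mem_empty_iff_false, iff_false, not_and, not_le]
      intro hx
      exact lt_of_le_of_lt (hM x hx) hs
    simp [hvdef, this]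
  set T : ℝ := ((n:ℝ) + 1) * M with hT
  have hTpos : 0 < T := by positivity
  have hMT : M ≤ T := by rw [hT]; nlinarith [Nat.cast_nonneg (α := ℝ) n]
  -- layer cake
  have hfi : Integrable (fun x : Fin n → ℝ => x k) (volume.restrict K) :=
    (continuous_apply k).continuousOn.integrableOn_compact hK
  have hfi2 : Integrable (fun x : Fin n → ℝ => x k ^ 2) (volume.restrict K) :=
    ((continuous_apply k).pow 2).continuousOn.integrableOn_compact hK
  have hmeq : ∀ t, (volume.restrict K).real {x : Fin n → ℝ | t ≤ x k} = v t := by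
    intro t
    rw [Measure.real, Measure.restrict_apply
      (measurableSet_le measurable_const (measurable_pi_apply k)), inter_comm]
  have hmeq' : ∀ t, (volume.restrict K) {x : Fin n → ℝ | t ≤ x k} = volume (Ks t) := by
    intro t
    rw [Measure.restrict_apply
      (measurableSet_le measurable_const (measurable_pi_apply k)), inter_comm]
  have L1 : ∫ x in K, x k = ∫ t in (0:ℝ)..T, v t := by
    rw [hfi.integral_eq_integral_Ioc_meas_le (M := T) ?_ ?_, intervalIntegral.integral_of_le hTpos.le]
    · simp only [hmeq]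
    · filter_upwards [ae_restrict_mem hKm] with x hx using h0 x hx
    · filter_upwards [ae_restrict_mem hKm] with x hx using (hM x hx).trans hMT
  have L2 : ∫ x in K, x k ^ 2 = ∫ t in (0:ℝ)..T, 2 * (t * v t) := by
    have h1 := lintegral_comp_eq_lintegral_meas_le_mul (volume.restrict K)
      (f := fun x : Fin n → ℝ => x k) (g := fun t => 2 * t)
      (by filter_upwards [ae_restrict_mem hKm] with x hx using h0 x hx)
      (measurable_pi_apply k).aemeasurable
      (fun t _ => Continuous.intervalIntegrable (by fun_prop) _ _)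
      (by filter_upwards [ae_restrict_mem measurableSet_Ioi] with t ht
          have : (0:ℝ) < t := ht
          positivity)
    have h2 : ∀ y : ℝ, ∫ t in (0:ℝ)..y, 2 * t = y ^ 2 := by
      intro y
      rw [intervalIntegral.integral_const_mul, integral_id]
      ring
    simp only [h2, hmeq'] at h1
    rw [integral_eq_lintegral_of_nonneg_ae (Filter.Eventually.of_forall fun x => sq_nonneg _)
      hfi2.aestronglyMeasurable, h1, intervalIntegral.integral_of_le hTpos.le,
      integral_eq_lintegral_of_nonneg_ae]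
    · congr 1
      have h3 : ∀ t : ℝ, volume (Ks t) * ENNReal.ofReal (2 * t) =
          ENNReal.ofReal (2 * (t * v t)) := by
        intro t
        rw [show 2 * (t * v t) = v t * (2 * t) by ring, ENNReal.ofReal_mul (hvnn t), hvdef]
        simp only
        rw [ENNReal.ofReal_toReal (hKsf t)]
      simp only [h3]
      have h4 : Ioi (0:ℝ) = Ioc 0 T ∪ Ioi T := (Ioc_union_Ioi_eq_Ioi hTpos.le).symm
      rw [h4, lintegral_union measurableSet_Ioi]
      · have h5 : ∫⁻ t in Ioi T, ENNReal.ofReal (2 * (t * v t)) = 0 := by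
          rw [setLIntegral_congr_fun (g := fun _ => 0) measurableSet_Ioi]
          · simp
          · intro t ht
            have : v t = 0 := hvM t (lt_of_le_of_lt hMT ht)
            simp [this]
        rw [h5, add_zero]
      · exact Set.disjoint_left.mpr fun x hx hx' => absurd hx.2 (not_le.mpr hx')
    · filter_upwards [ae_restrict_mem measurableSet_Ioc] with t ht
      have h6 := hvnn t
      have h7 : (0:ℝ) < t := ht.1
      positivity
    · exact (measurable_const.mul (measurable_id.mul hanti.measurable)).aestronglyMeasurable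
  set h : ℝ → ℝ := fun s => (v s / v 0) ^ ((1:ℝ) / n) with hh
  have hhn : ∀ s, h s ^ n = v s / v 0 := by
    intro s
    rw [hh]
    simp only
    rw [← Real.rpow_natCast, ← Real.rpow_mul (div_nonneg (hvnn s) hvpos.le)]
    simp [hnn]
  have hconc := berwald_one hn h T hTpos (by rw [hh]; simp [div_self hvpos.ne'])
    (fun s => Real.rpow_nonneg (div_nonneg (hvnn s) hvpos.le) _)
    ((hanti.measurable.div_const _).pow_const _)
    (fun s hs => Real.rpow_le_one (div_nonneg (hvnn s) hvpos.le)
      ((div_le_one hvpos).mpr (hanti hs)) (by positivity))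
    (by
      intro s θ hs hθ0 hθ1 hpos
      have hvs : 0 < v s := by
        rcases (hvnn s).eq_or_lt with h1 | h1
        · exfalso
          have : h s = 0 := by
            simp only [hh, ← h1, zero_div]
            exact Real.zero_rpow (by positivity)
          linarith
        · exact h1
      have := bm_add hn hKm (hKsm s) (hKsm (θ * s)) (by rw [← hvK]; exact hvpos) hvs
        (hKsf _) hθ0 hθ1 (by
          intro a ha b hb
          refine ⟨hcv ha hb.1 (by linarith) hθ0.le (by ring), ?_⟩
          have hb2 : s ≤ b k := hb.2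
          have ha2 : 0 ≤ a k := h0 a ha
          simp only [mem_ofPred_eq, Pi.add_apply, Pi.smul_apply, smul_eq_mul]
          have h8 : 0 ≤ (1 - θ) * a k := mul_nonneg (by linarith) ha2
          have h9 : θ * s ≤ θ * b k := mul_le_mul_of_nonneg_left hb2 hθ0.le
          linarith)
      have hr0 : 0 < (v 0) ^ ((1:ℝ) / n) := Real.rpow_pos_of_pos hvpos _
      simp only [hh]
      rw [Real.div_rpow (hvnn _) hvpos.le, Real.div_rpow (hvnn _) hvpos.le]
      rw [← hvK] at this
      rw [le_div_iff₀ hr0]
      calc ((1 - θ) + θ * (v s ^ ((1:ℝ) / n) / v 0 ^ ((1:ℝ) / n))) * v 0 ^ ((1:ℝ) / n)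
          = (1 - θ) * v 0 ^ ((1:ℝ) / n) + θ * v s ^ ((1:ℝ) / n) := by
            field_simp
        _ ≤ _ := this)
    (by
      simp only [hhn]
      rw [intervalIntegral.integral_div, ← L1, hT]
      refine mul_le_mul_of_nonneg_left ?_ (by positivity)
      rw [div_le_iff₀ hvpos, hvK]
      have : ∫ x in K, x k ≤ ∫ x in K, M := by
        refine setIntegral_mono_on hfi (integrableOn_const hKf) hKm ?_
        intro x hx
        exact hM x hx
      rw [setIntegral_const, smul_eq_mul, Measure.real] at this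
      linarith)
  simp only [hhn] at hconc
  have e1 : ∫ s in (0:ℝ)..T, s * (v s / v 0) = (∫ x in K, x k ^ 2) / (2 * v 0) := by
    rw [L2, intervalIntegral.integral_const_mul]
    rw [show (fun s => s * (v s / v 0)) = fun s => (s * v s) / v 0 by ext s; ring]
    rw [intervalIntegral.integral_div]
    field_simp
  have e2 : ∫ s in (0:ℝ)..T, v s / v 0 = (∫ x in K, x k) / v 0 := by
    rw [intervalIntegral.integral_div, L1]
  rw [e1, e2, hvK] at hconc
  rw [hvK] at hvpos
  have hfin : 0 < 2 * (volume K).toReal ^ 2 := by positivity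
  have := mul_le_mul_of_nonneg_right hconc hfin.le
  calc ((n:ℝ) + 2) * (∫ x in K, x k ^ 2) * (volume K).toReal
      = ((n:ℝ) + 2) * ((∫ x in K, x k ^ 2) / (2 * (volume K).toReal)) *
          (2 * (volume K).toReal ^ 2) := by field_simp
    _ ≤ _ := this
    _ = 2 * ((n:ℝ) + 1) * (∫ x in K, x k) ^ 2 := by field_simp

end Vale.Agent.P254.Unc.B966
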