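import Mathlib

/-! P254 (UNCOND): the abstract step CX_n (note 10473 (C)).
`D` = set of moment vectors, `Dc` = those of convex down-closed sets, `h` = support function. -/

namespace Vale.Agent.P254.Unc

open Finset

theorem log_prod_first_order {ι : Type*} [Fintype ι] (x : ι → ℝ)
    (hx : 0 < ∑ i, x i) :
    ∃ ε0 : ℝ, 0 < ε0 ∧ ∀ ε : ℝ, 0 < ε → ε ≤ ε0 → (∀ i, 0 < 1 + ε * x i) ∧
      1 < ∏ i, (1 + ε * x i) := by
  classical
  set S := ∑ i, x i with hS
  set Q := ∑ i, |x i| with hQ
  have hQ0 : 0 ≤ Q := Finset.sum_nonneg fun i _ => abs_nonneg _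
  have hSQ : S ≤ Q := Finset.sum_le_sum fun i _ => le_abs_self _
  have hQp : 0 < Q := lt_of_lt_of_le hx hSQ
  set T := ∑ i, (x i) ^ 2 with hT
  have hT0 : 0 ≤ T := Finset.sum_nonneg fun i _ => sq_nonneg _
  refine ⟨min (1 / (2 * Q)) (S / (2 * (T + 1))), lt_min (by positivity) (by positivity), ?_⟩
  intro ε he hle
  have h1 : ε ≤ 1 / (2 * Q) := hle.trans (min_le_left _ _)
  have h2 : ε ≤ S / (2 * (T + 1)) := hle.trans (min_le_right _ _)
  have hb : ∀ i, |ε * x i| ≤ 1 / 2 := by
    intro i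
    rw [abs_mul, abs_of_pos he]
    have hxi : |x i| ≤ Q := Finset.single_le_sum (f := fun i => |x i|)
      (fun j _ => abs_nonneg _) (Finset.mem_univ i)
    calc ε * |x i| ≤ (1 / (2 * Q)) * Q := mul_le_mul h1 hxi (abs_nonneg _) (by positivity)
      _ = 1 / 2 := by field_simp
  have hpos : ∀ i, 0 < 1 + ε * x i := by
    intro i
    have := (abs_le.1 (hb i)).1
    linarith
  refine ⟨hpos, ?_⟩
  -- log (1+y) ≥ y - 2 y^2
  have hlog : ∀ y : ℝ, |y| ≤ 1 / 2 → y - 2 * y ^ 2 ≤ Real.log (1 + y) := by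
    intro y hy
    have hy1 := abs_le.1 hy
    have h1y : 0 < 1 + y := by linarith
    have h3 := Real.log_le_sub_one_of_pos (x := 1 / (1 + y)) (by positivity)
    rw [Real.log_div one_ne_zero h1y.ne', Real.log_one, zero_sub] at h3
    have h4 : y - 2 * y ^ 2 ≤ 1 - 1 / (1 + y) := by
      rw [le_sub_iff_add_le, ← le_sub_iff_add_le', div_le_iff₀ h1y]
      nlinarith [mul_nonneg (sq_nonneg y) (by linarith : (0:ℝ) ≤ 1 + 2 * y)]
    linarith
  have hsum : 0 < ∑ i, Real.log (1 + ε * x i) := by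
    have h5 : ∑ i, (ε * x i - 2 * (ε * x i) ^ 2) ≤ ∑ i, Real.log (1 + ε * x i) :=
      Finset.sum_le_sum fun i _ => hlog _ (hb i)
    have h6 : ∑ i, (ε * x i - 2 * (ε * x i) ^ 2) = ε * S - 2 * ε ^ 2 * T := by
      rw [Finset.sum_sub_distrib, hS, hT, Finset.mul_sum, Finset.mul_sum]
      congr 1
      exact Finset.sum_congr rfl fun i _ => by ring
    have h7 : 0 < ε * S - 2 * ε ^ 2 * T := by
      have h8 : ε * (2 * (T + 1)) ≤ S := by
        rw [le_div_iff₀ (by positivity)] at h2
        exact h2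
      have h9 : 0 < S - 2 * (ε * T) := by nlinarith
      have h10 : ε * S - 2 * ε ^ 2 * T = ε * (S - 2 * (ε * T)) := by ring
      rw [h10]
      exact mul_pos he h9
    linarith
  rw [← Real.log_prod (s := Finset.univ) (f := fun i => 1 + ε * x i)
    (fun i _ => (hpos i).ne')] at hsum
  have hpp : 0 < ∏ i, (1 + ε * x i) := Finset.prod_pos fun i _ => hpos i
  exact (Real.log_pos_iff hpp.le).1 hsum

theorem abs_cx {ι : Type*} [Fintype ι] [DecidableEq ι] (D Dc : Set (ι → ℝ)) (hsub : Dc ⊆ D)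
    (hconv : Convex ℝ D) (B : ℝ) (hB : ∀ p ∈ D, ∀ i, |p i| ≤ B)
    (h : (ι → ℝ) → ℝ)
    (hle : ∀ u, ∀ p ∈ D, ∑ i, u i * p i ≤ h u)
    (hlub : ∀ u, ∀ c, (∀ p ∈ D, ∑ i, u i * p i ≤ c) → h u ≤ c)
    (H1 : ∀ u : ι → ℝ, (∀ i, 0 < u i) → ∀ s : ℝ, 0 < s → ∃ p ∈ Dc, h u - s ≤ ∑ i, u i * p i)
    (H2 : ∀ u : ι → ℝ, (∀ i, 0 < u i) → ∃ C δ : ℝ, 0 < δ ∧ ∀ v : ι → ℝ, (∀ i, |v i| ≤ δ) →
      h (u + v) + h (u - v) ≤ 2 * h u + C * ∑ i, (v i) ^ 2)
    (I : ℝ) (H3 : ∀ p ∈ Dc, (∀ i, 0 < p i) → ∏ i, p i ≤ I) :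
    ∀ p ∈ D, (∀ i, 0 < p i) → ∏ i, p i ≤ I := by
  intro p hp hp0
  have hbdd : Bornology.IsBounded D := by
    rw [isBounded_iff_forall_norm_le]
    refine ⟨|B|, fun q hq => ?_⟩
    rw [pi_norm_le_iff_of_nonneg (abs_nonneg _)]
    intro i
    rw [Real.norm_eq_abs]
    exact (hB q hq i).trans (le_abs_self _)
  have hcomp : IsCompact (closure D) := Metric.isCompact_of_isClosed_isBounded isClosed_closure
    hbdd.closure
  have hK : IsCompact (closure D ∩ {q : ι → ℝ | ∀ i, 0 ≤ q i}) := by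
    apply hcomp.inter_right
    have : {q : ι → ℝ | ∀ i, 0 ≤ q i} = ⋂ i, {q : ι → ℝ | 0 ≤ q i} := by
      ext q; simp
    rw [this]
    exact isClosed_iInter fun i => isClosed_le continuous_const (continuous_apply i)
  have hcont : Continuous fun q : ι → ℝ => ∏ i, q i :=
    continuous_finsetProd _ fun i _ => continuous_apply i
  obtain ⟨ps, hps, hmax⟩ := hK.exists_isMaxOn ⟨p, subset_closure hp, fun i => (hp0 i).le⟩
    hcont.continuousOn
  have hpsD : ps ∈ closure D := hps.1
  have hps0 : ∀ i, 0 ≤ ps i := hps.2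
  have hΦp : ∏ i, p i ≤ ∏ i, ps i := hmax (a := p) ⟨subset_closure hp, fun i => (hp0 i).le⟩
  have hΦpos : 0 < ∏ i, ps i := lt_of_lt_of_le (Finset.prod_pos fun i _ => hp0 i) hΦp
  have hpspos : ∀ i, 0 < ps i := by
    intro i
    refine lt_of_le_of_ne (hps0 i) fun h0 => ?_
    exact hΦpos.ne' (Finset.prod_eq_zero (Finset.mem_univ i) h0.symm)
  set us : ι → ℝ := fun i => 1 / ps i with hus
  have huspos : ∀ i, 0 < us i := fun i => by simp only [hus]; exact one_div_pos.2 (hpspos i)
  have hconvc : Convex ℝ (closure D) := hconv.closure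
  -- first order condition
  have hfirst : ∀ q ∈ closure D, ∑ i, us i * q i ≤ ∑ i, us i * ps i := by
    intro q hq
    by_contra hcon
    push Not at hcon
    set x : ι → ℝ := fun i => (q i - ps i) / ps i with hx
    have hsx : 0 < ∑ i, x i := by
      have : ∑ i, x i = ∑ i, us i * q i - ∑ i, us i * ps i := by
        rw [← Finset.sum_sub_distrib]
        refine Finset.sum_congr rfl fun i _ => ?_
        simp only [hx, hus]
        ring
      rw [this]
      linarith
    obtain ⟨ε0, he0, hε⟩ := log_prod_first_order x hsx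
    set ε := min ε0 1 with heps
    have hep : 0 < ε := lt_min he0 one_pos
    obtain ⟨ha, hb⟩ := hε ε hep (min_le_left _ _)
    set r : ι → ℝ := fun i => ps i * (1 + ε * x i) with hr
    have hrD : r ∈ closure D := by
      have := hconvc hpsD hq (by linarith [min_le_right ε0 1] : (0:ℝ) ≤ 1 - ε) hep.le (by ring)
      convert this using 1
      ext i
      simp only [hr, hx, Pi.add_apply, Pi.smul_apply, smul_eq_mul]
      have := (hpspos i).ne'
      field_simp
      ring
    have hrpos : ∀ i, 0 ≤ r i := fun i => (mul_pos (hpspos i) (ha i)).le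
    have hmr : ∏ i, r i ≤ ∏ i, ps i := hmax (a := r) ⟨hrD, hrpos⟩
    have : ∏ i, r i = (∏ i, ps i) * ∏ i, (1 + ε * x i) := by
      rw [← Finset.prod_mul_distrib]
    rw [this] at hmr
    nlinarith
  have hcl : ∀ u : ι → ℝ, ∀ q ∈ closure D, ∑ i, u i * q i ≤ h u := by
    intro u q hq
    have hc : IsClosed {q : ι → ℝ | ∑ i, u i * q i ≤ h u} :=
      isClosed_le (continuous_finsetSum _ fun i _ => continuous_const.mul (continuous_apply i))
        continuous_const
    exact closure_minimal (fun q hq => hle u q hq) hc hq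
  have hhus : h us = ∑ i, us i * ps i :=
    le_antisymm (hlub us _ fun q hq => hfirst q (subset_closure hq)) (hcl us ps hpsD)
  obtain ⟨C, δ, hδ, hC⟩ := H2 us huspos
  -- approximation
  have happ : ∀ η : ℝ, 0 < η → η ≤ δ → ∃ q ∈ Dc, ∀ i, |q i - ps i| ≤ (|C| + 1) * η := by
    intro η hη hηδ
    obtain ⟨q, hq, hqs⟩ := H1 us huspos (η ^ 2) (by positivity)
    refine ⟨q, hq, fun i => ?_⟩
    have key : ∀ t : ℝ, |t| = η → t * (q i - ps i) ≤ C * η ^ 2 + η ^ 2 := by
      intro t ht
      set v : ι → ℝ := fun j => if j = i then t else 0 with hv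
      have hvb : ∀ j, |v j| ≤ δ := by
        intro j
        simp only [hv]
        split_ifs
        · rw [ht]; exact hηδ
        · simpa using hδ.le
      have h2 := hC v hvb
      have hs2 : ∑ j, (v j) ^ 2 = η ^ 2 := by
        have : ∀ j, (v j) ^ 2 = if j = i then t ^ 2 else 0 := by
          intro j
          simp only [hv]
          split_ifs <;> simp
        rw [Finset.sum_congr rfl fun j _ => this j, Finset.sum_ite_eq' Finset.univ i]
        simp only [Finset.mem_univ, if_true]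
        rw [← ht, sq_abs]
      rw [hs2] at h2
      have hvs : ∀ w : ι → ℝ, ∑ j, v j * w j = t * w i := by
        intro w
        have : ∀ j, v j * w j = if j = i then t * w i else 0 := by
          intro j
          simp only [hv]
          split_ifs with hji
          · rw [hji]
          · simp
        rw [Finset.sum_congr rfl fun j _ => this j, Finset.sum_ite_eq' Finset.univ i]
        simp
      have h3 := hle (us + v) q (hsub hq)
      have h4 := hcl (us - v) ps hpsD
      simp only [Pi.add_apply, Pi.sub_apply, add_mul, sub_mul, Finset.sum_add_distrib,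
        Finset.sum_sub_distrib, hvs] at h3 h4
      rw [hhus] at h2 hqs
      nlinarith
    have hk1 := key η (abs_of_pos hη)
    have hk2 := key (-η) (by rw [abs_neg, abs_of_pos hη])
    have hCC : C ≤ |C| := le_abs_self C
    rw [abs_le]
    constructor
    · nlinarith [mul_pos hη hη]
    · nlinarith [mul_pos hη hη]
  -- conclusion
  refine hΦp.trans ?_
  by_contra hcon
  push Not at hcon
  have hopen : IsOpen {q : ι → ℝ | I < ∏ i, q i ∧ ∀ i, 0 < q i} := by
    have h1 : IsOpen {q : ι → ℝ | I < ∏ i, q i} := isOpen_lt continuous_const hcont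
    have h2 : IsOpen {q : ι → ℝ | ∀ i, 0 < q i} := by
      have : {q : ι → ℝ | ∀ i, 0 < q i} = ⋂ i, {q : ι → ℝ | 0 < q i} := by
        ext q; simp
      rw [this]
      exact isOpen_iInter_of_finite fun i => isOpen_lt continuous_const (continuous_apply i)
    exact h1.inter h2
  obtain ⟨r, hr, hball⟩ := Metric.isOpen_iff.1 hopen ps ⟨hcon, hpspos⟩
  set η := min δ (r / (2 * (|C| + 1))) with hηd
  have hC1 : 0 < |C| + 1 := by positivity
  have hη : 0 < η := lt_min hδ (by positivity)
  obtain ⟨q, hq, hqb⟩ := happ η hη (min_le_left _ _)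
  have hqball : q ∈ Metric.ball ps r := by
    rw [Metric.mem_ball, dist_pi_lt_iff hr]
    intro i
    rw [Real.dist_eq]
    have h1 := hqb i
    have h2 : (|C| + 1) * η ≤ r / 2 := by
      have : η ≤ r / (2 * (|C| + 1)) := min_le_right _ _
      calc (|C| + 1) * η ≤ (|C| + 1) * (r / (2 * (|C| + 1))) := by gcongr
        _ = r / 2 := by field_simp
    linarith
  have hqq := hball hqball
  exact absurd (H3 q hq hqq.2) (not_le.2 hqq.1)

end Vale.Agent.P254.Unc
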