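import Vale.Agent.P254.Unc.D1a
import Vale.Agent.P254.Unc.D1b
import Vale.Agent.P254.Unc.D1cH

/-! Block D1, complete: `IsProj.dens_le`, `IsProj.exists_dens` (D1a), `IsProj.exists_set` (D1b),
`exists_dens_approx` (D1cH), and the last one with the constant outside of the integral. -/

open MeasureTheory Set
open scoped NNReal

namespace Vale.Agent.P254.Unc

variable {n : ℕ}

/-- `exists_dens_approx` with the constant outside of the integral -/
theorem exists_dens_approx' (L : Set (X n)) (hL : IsClosed L) (hlow : IsLowerSet L)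
    (hpos : 0 < (volume L).toReal) (S : Finset (X n → ℝ)) (hS : ∀ f ∈ S, Continuous f)
    {ε : ℝ} (hε : 0 < ε) :
    ∃ ρ, Dens n ρ ∧ ∀ f ∈ S, |(∫ x, f x * ρ x) - (∫ x in L, f x) / (volume L).toReal| ≤ ε := by
  obtain ⟨ρ, h1, h2⟩ := exists_dens_approx L hL hlow hpos S hS hε
  refine ⟨ρ, h1, fun f hf => ?_⟩
  obtain ⟨K, hK⟩ := h1.lip
  have i1 : Integrable (fun x => f x * ρ x) := integrable_of_cont ((hS f hf).mul hK.continuous)
  have h3 := h2 f hf
  rw [integral_sub i1 (integrable_const _)] at h3
  simpa using h3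

end Vale.Agent.P254.Unc
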