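import Vale.Agent.P254.Unc.AbsCX
import Vale.Agent.P254.Unc.D1a
import Vale.Agent.P254.Unc.D1b
import Vale.Agent.P254.Unc.D1cH

/-! Independent version of block D2 (`cxs_of_unc`), with `isotonic_triple` as a hypothesis. -/

open MeasureTheory Set Filter
open scoped NNReal Topology

namespace Vale.Agent.P254.Unc

namespace D2S

variable {n : ℕ} {M : ℝ≥0}

/-- the statement of `isotonic_triple` -/
def Iso (n : ℕ) : Prop :=
  ∀ (M : ℝ≥0) (f0 f1 z : X n → ℝ), Good M f0 → Good M f1 → Good M z → Rel z f0 f1 →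
    ∃ g0 g1 w : X n → ℝ, Good M g0 ∧ Good M g1 ∧ Good M w ∧ Rel w g0 g1 ∧
      IsProj f0 g0 ∧ IsProj f1 g1 ∧ IsProj z w

/-- the functions whose moments are used -/
def FF (G : X n → ℝ) : Option (Fin n) → X n → ℝ
  | none => G
  | some k => fun x => ((x k : unitInterval) : ℝ)

/-- moment vector of a density -/
noncomputable def mom (G : X n → ℝ) (ρ : X n → ℝ) : Option (Fin n) → ℝ :=
  fun i => ∫ x, FF G i x * ρ x

/-- linear combination -/
def psi (G : X n → ℝ) (u : Option (Fin n) → ℝ) (x : X n) : ℝ := ∑ i, u i * FF G i x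

theorem lip_FF {G : X n → ℝ} (hG : LipschitzWith M G) (i : Option (Fin n)) (x y : X n) :
    |FF G i x - FF G i y| ≤ ((M : ℝ) + 1) * dist x y := by
  cases i with
  | none =>
    have h := hG.dist_le_mul x y
    rw [Real.dist_eq] at h
    have := dist_nonneg (x := x) (y := y)
    show |G x - G y| ≤ _
    nlinarith
  | some k =>
    have h := dist_le_pi_dist x y k
    rw [Subtype.dist_eq, Real.dist_eq] at h
    have h2 : (0 : ℝ) ≤ (M : ℝ) * dist x y := mul_nonneg M.2 dist_nonneg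
    show |((x k : unitInterval) : ℝ) - y k| ≤ _
    linarith

theorem cont_FF {G : X n → ℝ} (hG : Continuous G) (i : Option (Fin n)) : Continuous (FF G i) := by
  cases i with
  | none => exact hG
  | some k => exact continuous_subtype_val.comp (continuous_apply k)

theorem cont_psi {G : X n → ℝ} (hG : Continuous G) (u : Option (Fin n) → ℝ) :
    Continuous (psi G u) :=
  continuous_finsetSum _ fun i _ => continuous_const.mul (cont_FF hG i)

theorem lip_psi {G : X n → ℝ} (hG : LipschitzWith M G) (u : Option (Fin n) → ℝ) {K : ℝ≥0}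
    (hK : (∑ i, |u i|) * ((M : ℝ) + 1) ≤ K) (c : ℝ) :
    LipschitzWith K (fun x => psi G u x + c) := by
  refine LipschitzWith.of_dist_le_mul fun x y => ?_
  rw [Real.dist_eq]
  have e : psi G u x + c - (psi G u y + c) = ∑ i, u i * (FF G i x - FF G i y) := by
    unfold psi
    rw [add_sub_add_right_eq_sub, ← Finset.sum_sub_distrib]
    exact Finset.sum_congr rfl fun i _ => by ring
  rw [e]
  calc |∑ i, u i * (FF G i x - FF G i y)| ≤ ∑ i, |u i * (FF G i x - FF G i y)| :=
        Finset.abs_sum_le_sum_abs _ _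
    _ ≤ ∑ i, |u i| * (((M : ℝ) + 1) * dist x y) := by
        refine Finset.sum_le_sum fun i _ => ?_
        rw [abs_mul]
        exact mul_le_mul_of_nonneg_left (lip_FF hG i x y) (abs_nonneg _)
    _ = (∑ i, |u i|) * ((M : ℝ) + 1) * dist x y := by rw [← Finset.sum_mul]; ring
    _ ≤ K * dist x y := mul_le_mul_of_nonneg_right hK dist_nonneg

theorem iadd {f g : X n → ℝ} (hf : Continuous f) (hg : Continuous g) :
    ∫ x, (f x + g x) = (∫ x, f x) + ∫ x, g x :=
  integral_add (integrable_of_cont hf) (integrable_of_cont hg)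

theorem isubc {f : X n → ℝ} (hf : Continuous f) (c : ℝ) :
    ∫ x, (f x - c) = (∫ x, f x) - c := by
  rw [integral_sub (integrable_of_cont hf) (integrable_const _), integral_const]
  simp [Measure.real]

theorem isum {f : Option (Fin n) → X n → ℝ} (hf : ∀ i, Continuous (f i)) :
    ∫ x, ∑ i, f i x = ∑ i, ∫ x, f i x :=
  integral_finsetSum _ fun i _ => integrable_of_cont (hf i)

theorem isumOn {f : Option (Fin n) → X n → ℝ} (hf : ∀ i, Continuous (f i)) (L : Set (X n)) :
    ∫ x in L, ∑ i, f i x = ∑ i, ∫ x in L, f i x :=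
  integral_finsetSum _ fun i _ => (integrable_of_cont (hf i)).integrableOn

theorem psi_int {G : X n → ℝ} (hG : Continuous G) (u : Option (Fin n) → ℝ) {ρ : X n → ℝ}
    (hρ : Continuous ρ) : ∫ x, psi G u x * ρ x = ∑ i, u i * mom G ρ i := by
  unfold psi mom
  have : ∀ x, (∑ i, u i * FF G i x) * ρ x = ∑ i, u i * (FF G i x * ρ x) := by
    intro x
    rw [Finset.sum_mul]
    exact Finset.sum_congr rfl fun i _ => by ring
  simp only [this]
  rw [isum (f := fun i x => u i * (FF G i x * ρ x))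
    fun i => continuous_const.mul ((cont_FF hG i).mul hρ)]
  exact Finset.sum_congr rfl fun i _ => integral_const_mul _ _

theorem sum_option (a : Option (Fin n) → ℝ) : ∑ i, a i = a none + ∑ k : Fin n, a (some k) := by
  rw [Fintype.sum_option]

theorem sq_dist_le (x y : X n) : dist x y ^ 2 ≤ ∑ k : Fin n, ((x k : ℝ) - y k) ^ 2 := by
  have h : dist x y ≤ Real.sqrt (∑ k : Fin n, ((x k : ℝ) - y k) ^ 2) := by
    refine (dist_pi_le_iff (Real.sqrt_nonneg _)).2 fun k => ?_
    rw [Subtype.dist_eq, Real.dist_eq]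
    rw [← Real.sqrt_sq_eq_abs]
    refine Real.sqrt_le_sqrt ?_
    exact Finset.single_le_sum (f := fun k : Fin n => ((x k : ℝ) - y k) ^ 2)
      (fun j _ => sq_nonneg _) (Finset.mem_univ k)
  have h2 := pow_le_pow_left₀ dist_nonneg h 2
  rwa [Real.sq_sqrt (Finset.sum_nonneg fun k _ => sq_nonneg _)] at h2

theorem mid_coe (x y : X n) (k : Fin n) : ((mid x y k : unitInterval) : ℝ) = ((x k : ℝ) + y k) / 2 :=
  rfl

/-- the relation between the perturbed functions -/
theorem rel_psi {G : X n → ℝ} (hG : LipschitzWith M G) {κ : ℝ}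
    (hs : ∀ x y, (G x + G y) / 2 + κ * ∑ k, ((x k : ℝ) - y k) ^ 2 ≤ G (mid x y))
    (u v : Option (Fin n) → ℝ) (hu : 0 < u none) {a : ℝ} (ha : 0 < a)
    (haκ : a * ((M : ℝ) ^ 2 + 1) ≤ u none * κ) :
    Rel (fun x => psi G u x + (1 / (16 * a)) * ∑ i, (v i) ^ 2) (fun x => psi G (u + v) x + 0)
      (fun x => psi G (u - v) x + 0) := by
  intro x y
  set S := ∑ k : Fin n, ((x k : ℝ) - y k) ^ 2 with hS
  have hS0 : 0 ≤ S := Finset.sum_nonneg fun k _ => sq_nonneg _
  have e1 : (psi G (u + v) x + 0 + (psi G (u - v) y + 0)) / 2 =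
      (∑ i, u i * ((FF G i x + FF G i y) / 2)) + ∑ i, v i * ((FF G i x - FF G i y) / 2) := by
    unfold psi
    rw [add_zero, add_zero, ← Finset.sum_add_distrib, ← Finset.sum_add_distrib, Finset.sum_div]
    refine Finset.sum_congr rfl fun i _ => ?_
    simp only [Pi.add_apply, Pi.sub_apply]
    ring
  have e2 : ∑ i, u i * ((FF G i x + FF G i y) / 2) ≤ psi G u (mid x y) - u none * (κ * S) := by
    unfold psi
    rw [sum_option, sum_option (fun i => u i * FF G i (mid x y))]
    have h1 : u none * ((FF G none x + FF G none y) / 2) ≤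
        u none * FF G none (mid x y) - u none * (κ * S) := by
      have := mul_le_mul_of_nonneg_left (hs x y) hu.le
      show u none * ((G x + G y) / 2) ≤ u none * G (mid x y) - u none * (κ * S)
      linarith
    have h2 : ∑ k : Fin n, u (some k) * ((FF G (some k) x + FF G (some k) y) / 2) =
        ∑ k : Fin n, u (some k) * FF G (some k) (mid x y) :=
      Finset.sum_congr rfl fun k _ => by
        show _ * (((x k : ℝ) + y k) / 2) = _ * ((mid x y k : unitInterval) : ℝ)
        rw [mid_coe]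
    linarith
  have e3 : ∑ i, v i * ((FF G i x - FF G i y) / 2) ≤
      a * (((M : ℝ) ^ 2 + 1) * S) + (1 / (16 * a)) * ∑ i, (v i) ^ 2 := by
    have h1 : ∀ i, v i * ((FF G i x - FF G i y) / 2) ≤
        a * (FF G i x - FF G i y) ^ 2 + (1 / (16 * a)) * (v i) ^ 2 := by
      intro i
      set d := FF G i x - FF G i y
      have : a * d ^ 2 + 1 / (16 * a) * v i ^ 2 - v i * (d / 2) =
          (1 / (16 * a)) * (4 * a * d - v i) ^ 2 := by
        field_simp
        ring
      have h0 : 0 ≤ (1 / (16 * a)) * (4 * a * d - v i) ^ 2 := by positivity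
      linarith
    have h2 : ∑ i, (FF G i x - FF G i y) ^ 2 ≤ ((M : ℝ) ^ 2 + 1) * S := by
      rw [sum_option]
      have h3 : (FF G none x - FF G none y) ^ 2 ≤ (M : ℝ) ^ 2 * S := by
        have h4 := hG.dist_le_mul x y
        rw [Real.dist_eq] at h4
        have h5 := pow_le_pow_left₀ (abs_nonneg _) h4 2
        rw [sq_abs, mul_pow] at h5
        show (G x - G y) ^ 2 ≤ _
        refine h5.trans (mul_le_mul_of_nonneg_left (sq_dist_le x y) (by positivity))
      have h6 : ∑ k : Fin n, (FF G (some k) x - FF G (some k) y) ^ 2 = S := rfl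
      rw [h6]
      linarith
    calc ∑ i, v i * ((FF G i x - FF G i y) / 2)
        ≤ ∑ i, (a * (FF G i x - FF G i y) ^ 2 + (1 / (16 * a)) * (v i) ^ 2) :=
          Finset.sum_le_sum fun i _ => h1 i
      _ = a * ∑ i, (FF G i x - FF G i y) ^ 2 + (1 / (16 * a)) * ∑ i, (v i) ^ 2 := by
          rw [Finset.sum_add_distrib, Finset.mul_sum, Finset.mul_sum]
      _ ≤ _ := by
          have := mul_le_mul_of_nonneg_left h2 ha.le
          linarith
  have e4 : a * (((M : ℝ) ^ 2 + 1) * S) ≤ u none * (κ * S) := by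
    have := mul_le_mul_of_nonneg_right haκ hS0
    nlinarith
  show (psi G (u + v) x + 0 + (psi G (u - v) y + 0)) / 2 ≤
    psi G u (mid x y) + (1 / (16 * a)) * ∑ i, (v i) ^ 2
  rw [e1]
  linarith

/-- concavity of `psi` when the coefficient of `G` is nonnegative -/
theorem conc_psi {G : X n → ℝ} (hc : Rel G G G) (u : Option (Fin n) → ℝ) (hu : 0 ≤ u none)
    (c : ℝ) : Rel (fun x => psi G u x + c) (fun x => psi G u x + c) (fun x => psi G u x + c) := by
  intro x y
  show (psi G u x + c + (psi G u y + c)) / 2 ≤ psi G u (mid x y) + c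
  have h : (psi G u x + psi G u y) / 2 ≤ psi G u (mid x y) := by
    unfold psi
    rw [sum_option, sum_option (fun i => u i * FF G i y), sum_option (fun i => u i * FF G i (mid x y))]
    have h1 : u none * ((G x + G y) / 2) ≤ u none * G (mid x y) :=
      mul_le_mul_of_nonneg_left (hc x y) hu
    have h2 : ∑ k : Fin n, u (some k) * FF G (some k) (mid x y) =
        (∑ k : Fin n, u (some k) * FF G (some k) x + ∑ k : Fin n, u (some k) * FF G (some k) y) / 2 := by
      rw [← Finset.sum_add_distrib, Finset.sum_div]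
      refine Finset.sum_congr rfl fun k _ => ?_
      show u (some k) * ((mid x y k : unitInterval) : ℝ) = (u (some k) * (x k : ℝ) + u (some k) * (y k : ℝ)) / 2
      rw [mid_coe]
      ring
    rw [h2]
    show (u none * G x + _ + (u none * G y + _)) / 2 ≤ u none * G (mid x y) + _
    linarith
  linarith

/-- the constant density -/
theorem dens_one : Dens n (fun _ => (1 : ℝ)) := by
  refine ⟨fun _ _ _ => le_rfl, fun _ => zero_le_one, ⟨0, LipschitzWith.const _⟩, ?_⟩
  simp

/-- the support function -/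
noncomputable def hh (G : X n → ℝ) (u : Option (Fin n) → ℝ) : ℝ :=
  sSup ((fun ρ : X n → ℝ => ∑ i, u i * mom G ρ i) '' {ρ | Dens n ρ})

theorem bdd_FF {G : X n → ℝ} (hG : Continuous G) : ∃ B : ℝ, 0 ≤ B ∧ ∀ i x, |FF G i x| ≤ B := by
  obtain ⟨C, hC⟩ := (isCompact_univ (X := X n)).exists_bound_of_continuousOn hG.continuousOn
  refine ⟨max C 1, le_max_of_le_right zero_le_one, fun i x => ?_⟩
  cases i with
  | none =>
    refine le_max_of_le_left ?_
    have h := hC x (mem_univ x)
    rw [Real.norm_eq_abs] at h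
    exact h
  | some k =>
    refine le_max_of_le_right ?_
    show |((x k : unitInterval) : ℝ)| ≤ 1
    rw [abs_of_nonneg (x k).2.1]
    exact (x k).2.2

theorem mom_bdd {G : X n → ℝ} (hG : Continuous G) {B : ℝ} (hB : ∀ i x, |FF G i x| ≤ B)
    {ρ : X n → ℝ} (hρ : Dens n ρ) (i : Option (Fin n)) : |mom G ρ i| ≤ B := by
  obtain ⟨K, hK⟩ := hρ.lip
  have hc := hK.continuous
  unfold mom
  calc |∫ x, FF G i x * ρ x| ≤ ∫ x, |FF G i x * ρ x| := abs_integral_le_integral_abs
    _ ≤ ∫ x, B * ρ x := by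
        refine integral_mono (integrable_of_cont ((cont_FF hG i).mul hc).abs)
          (integrable_of_cont (continuous_const.mul hc)) fun x => ?_
        show |FF G i x * ρ x| ≤ B * ρ x
        rw [abs_mul, abs_of_nonneg (hρ.nonneg x)]
        exact mul_le_mul_of_nonneg_right (hB i x) (hρ.nonneg x)
    _ = B := by rw [integral_const_mul, hρ.int, mul_one]

theorem hh_bddAbove {G : X n → ℝ} (hG : Continuous G) (u : Option (Fin n) → ℝ) :
    BddAbove ((fun ρ : X n → ℝ => ∑ i, u i * mom G ρ i) '' {ρ | Dens n ρ}) := by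
  obtain ⟨B, _, hB⟩ := bdd_FF hG
  refine ⟨∑ i, |u i| * B, ?_⟩
  rintro _ ⟨ρ, hρ, rfl⟩
  refine Finset.sum_le_sum fun i _ => ?_
  calc u i * mom G ρ i ≤ |u i * mom G ρ i| := le_abs_self _
    _ = |u i| * |mom G ρ i| := abs_mul _ _
    _ ≤ |u i| * B := mul_le_mul_of_nonneg_left (mom_bdd hG hB hρ i) (abs_nonneg _)

theorem le_hh {G : X n → ℝ} (hG : Continuous G) (u : Option (Fin n) → ℝ) {ρ : X n → ℝ}
    (hρ : Dens n ρ) : ∑ i, u i * mom G ρ i ≤ hh G u :=
  le_csSup (hh_bddAbove hG u) ⟨ρ, hρ, rfl⟩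

theorem hh_le {G : X n → ℝ} (u : Option (Fin n) → ℝ) {c : ℝ}
    (h : ∀ ρ, Dens n ρ → ∑ i, u i * mom G ρ i ≤ c) : hh G u ≤ c := by
  refine csSup_le ⟨_, ⟨fun _ => 1, dens_one, rfl⟩⟩ ?_
  rintro _ ⟨ρ, hρ, rfl⟩
  exact h ρ hρ

/-- the convex set of moment vectors -/
def DD (G : X n → ℝ) : Set (Option (Fin n) → ℝ) := {p | ∀ u, ∑ i, u i * p i ≤ hh G u}

/-- moment vectors of sets -/
def Dc (G : X n → ℝ) : Set (Option (Fin n) → ℝ) :=
  {p | ∃ L : Set (X n), IsClosed L ∧ L.Nonempty ∧ IsLowerSet L ∧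
      (∀ x ∈ L, ∀ y ∈ L, mid x y ∈ L) ∧ 0 < (volume L).toReal ∧
      ∀ i, p i = (∫ x in L, FF G i x) / (volume L).toReal}

theorem mom_mem_DD {G : X n → ℝ} (hG : Continuous G) {ρ : X n → ℝ} (hρ : Dens n ρ) :
    mom G ρ ∈ DD G := fun u => le_hh hG u hρ

theorem Dc_sub {G : X n → ℝ} (hG : Continuous G) : Dc G ⊆ DD G := by
  classical
  rintro p ⟨L, hL, _, hlow, _, hpos, hp⟩ u
  refine le_of_forall_pos_le_add fun ε hε => ?_
  obtain ⟨ρ, hρ, hρa⟩ := exists_dens_approx L hL hlow hpos {psi G u}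
    (by intro f hf; rw [Finset.mem_singleton] at hf; rw [hf]; exact cont_psi hG u) hε
  obtain ⟨K, hK⟩ := hρ.lip
  have h1 := hρa (psi G u) (Finset.mem_singleton_self _)
  rw [isubc (f := fun x => psi G u x * ρ x) ((cont_psi hG u).mul hK.continuous),
    psi_int hG u hK.continuous] at h1
  have h2 : (∫ x in L, psi G u x) / (volume L).toReal = ∑ i, u i * p i := by
    unfold psi
    rw [isumOn (f := fun i x => u i * FF G i x) (fun i => continuous_const.mul (cont_FF hG i)),
      Finset.sum_div]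
    refine Finset.sum_congr rfl fun i _ => ?_
    rw [hp i, integral_const_mul, mul_div_assoc]
  rw [h2] at h1
  have h3 := (abs_le.1 h1).1
  have h4 := le_hh hG u hρ
  linarith

theorem DD_convex (G : X n → ℝ) : Convex ℝ (DD G) := by
  intro p hp q hq a b ha hb hab u
  have e : ∑ i, u i * (a • p + b • q) i = a * ∑ i, u i * p i + b * ∑ i, u i * q i := by
    rw [Finset.mul_sum, Finset.mul_sum, ← Finset.sum_add_distrib]
    refine Finset.sum_congr rfl fun i _ => ?_
    simp only [Pi.add_apply, Pi.smul_apply, smul_eq_mul]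
    ring
  rw [e]
  calc a * ∑ i, u i * p i + b * ∑ i, u i * q i ≤ a * hh G u + b * hh G u :=
        add_le_add (mul_le_mul_of_nonneg_left (hp u) ha) (mul_le_mul_of_nonneg_left (hq u) hb)
    _ = hh G u := by rw [← add_mul, hab, one_mul]

theorem DD_bdd {G : X n → ℝ} (hG : Continuous G) : ∃ B : ℝ, ∀ p ∈ DD G, ∀ i, |p i| ≤ B := by
  classical
  obtain ⟨B, _, hB⟩ := bdd_FF hG
  refine ⟨B, fun p hp i => ?_⟩
  have key : ∀ t : ℝ, |t| = 1 → t * p i ≤ B := by
    intro t ht
    set u : Option (Fin n) → ℝ := fun j => if j = i then t else 0 with hu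
    have hs : ∀ w : Option (Fin n) → ℝ, ∑ j, u j * w j = t * w i := by
      intro w
      have : ∀ j, u j * w j = if j = i then t * w i else 0 := by
        intro j
        simp only [hu]
        split_ifs with hji
        · rw [hji]
        · simp
      rw [Finset.sum_congr rfl fun j _ => this j, Finset.sum_ite_eq' Finset.univ i]
      simp
    have h1 := hp u
    rw [hs] at h1
    refine h1.trans (hh_le u fun ρ hρ => ?_)
    rw [hs]
    calc t * mom G ρ i ≤ |t * mom G ρ i| := le_abs_self _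
      _ = |mom G ρ i| := by rw [abs_mul, ht, one_mul]
      _ ≤ B := mom_bdd hG hB hρ i
  rw [abs_le]
  constructor
  · have := key (-1) (by simp)
    linarith
  · have := key 1 (by simp)
    linarith

theorem rel_of_strong {G : X n → ℝ} {κ : ℝ} (hκ : 0 < κ)
    (hs : ∀ x y, (G x + G y) / 2 + κ * ∑ k, ((x k : ℝ) - y k) ^ 2 ≤ G (mid x y)) : Rel G G G := by
  intro x y
  have h0 : 0 ≤ κ * ∑ k, ((x k : ℝ) - y k) ^ 2 :=
    mul_nonneg hκ.le (Finset.sum_nonneg fun k _ => sq_nonneg _)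
  linarith [hs x y]

theorem H1 (IT : Iso n) {G : X n → ℝ} (hG : LipschitzWith M G) (hc : Rel G G G)
    (u : Option (Fin n) → ℝ) (hu : ∀ i, 0 < u i) (s : ℝ) (hs : 0 < s) :
    ∃ p ∈ Dc G, hh G u - s ≤ ∑ i, u i * p i := by
  have hGc := hG.continuous
  set K : ℝ≥0 := ⟨(∑ i, |u i|) * ((M : ℝ) + 1), by positivity⟩ with hK
  have hgood : Good K (fun x => psi G u x + 0) :=
    ⟨lip_psi hG u le_rfl 0, conc_psi hc u (hu none).le 0⟩
  obtain ⟨g, _, _, hg, _, _, _, hp, _, _⟩ := IT K _ _ _ hgood hgood hgood hgood.conc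
  have hcont : Continuous (fun x => psi G u x + 0) := (cont_psi hGc u).add continuous_const
  obtain ⟨L, hL, hne, hlow, hmid, hpos, hbig⟩ := hp.exists_set hcont hg hs
  refine ⟨fun i => (∫ x in L, FF G i x) / (volume L).toReal,
    ⟨L, hL, hne, hlow, hmid, hpos, fun i => rfl⟩, ?_⟩
  have h1 : hh G u ≤ g 0 := by
    refine hh_le u fun ρ hρ => ?_
    obtain ⟨K', hK'⟩ := hρ.lip
    have h2 := hp.dens_le hcont hg.lip.continuous hρ
    rw [← psi_int hGc u hK'.continuous]
    simpa using h2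
  have h2 : ∑ i, u i * ((∫ x in L, FF G i x) / (volume L).toReal) =
      (∫ x in L, (psi G u x + 0)) / (volume L).toReal := by
    simp only [add_zero]
    unfold psi
    rw [isumOn (f := fun i x => u i * FF G i x) (fun i => continuous_const.mul (cont_FF hGc i)),
      Finset.sum_div]
    refine Finset.sum_congr rfl fun i _ => ?_
    rw [integral_const_mul, mul_div_assoc]
  rw [h2, le_div_iff₀ hpos]
  have h3 : (hh G u - s) * (volume L).toReal ≤ (g 0 - s) * (volume L).toReal :=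
    mul_le_mul_of_nonneg_right (by linarith) hpos.le
  exact h3.trans hbig

theorem triple_bound (IT : Iso n) {K : ℝ≥0} {f0 f1 z : X n → ℝ} (h0 : Good K f0) (h1 : Good K f1)
    (hz : Good K z) (hR : Rel z f0 f1) {c : ℝ} (hc : ∀ ρ, Dens n ρ → ∫ x, z x * ρ x ≤ c)
    {ρ0 ρ1 : X n → ℝ} (hρ0 : Dens n ρ0) (hρ1 : Dens n ρ1) :
    (∫ x, f0 x * ρ0 x) + ∫ x, f1 x * ρ1 x ≤ 2 * c := by
  obtain ⟨g0, g1, w, hg0, hg1, hw, hrel, hp0, hp1, hpz⟩ := IT K _ _ _ h0 h1 hz hR
  have e0 := hp0.dens_le h0.lip.continuous hg0.lip.continuous hρ0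
  have e1 := hp1.dens_le h1.lip.continuous hg1.lip.continuous hρ1
  have e2 : w 0 ≤ c := by
    refine le_of_forall_pos_le_add fun ε hε => ?_
    obtain ⟨ρ, hρ, hb⟩ := hpz.exists_dens hz.lip.continuous hw.lip hε
    linarith [hc ρ hρ]
  have e3 := hrel 0 0
  have e4 : mid (0 : X n) 0 = 0 := by
    funext k
    apply Subtype.ext
    show (((0 : unitInterval) : ℝ) + ((0 : unitInterval) : ℝ)) / 2 = ((0 : unitInterval) : ℝ)
    simp
  rw [e4] at e3
  linarith

theorem H2 (IT : Iso n) {G : X n → ℝ} (hG : LipschitzWith M G) {κ : ℝ} (hκ : 0 < κ)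
    (hs : ∀ x y, (G x + G y) / 2 + κ * ∑ k, ((x k : ℝ) - y k) ^ 2 ≤ G (mid x y))
    (u : Option (Fin n) → ℝ) (hu : ∀ i, 0 < u i) :
    ∃ C δ : ℝ, 0 < δ ∧ ∀ v : Option (Fin n) → ℝ, (∀ i, |v i| ≤ δ) →
      hh G (u + v) + hh G (u - v) ≤ 2 * hh G u + C * ∑ i, (v i) ^ 2 := by
  have hGc := hG.continuous
  have hc : Rel G G G := rel_of_strong hκ hs
  set a : ℝ := u none * κ / ((M : ℝ) ^ 2 + 1) with ha
  have hM1 : 0 < (M : ℝ) ^ 2 + 1 := by positivity
  have ha0 : 0 < a := div_pos (mul_pos (hu none) hκ) hM1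
  have haκ : a * ((M : ℝ) ^ 2 + 1) ≤ u none * κ := by
    rw [ha, div_mul_cancel₀ _ hM1.ne']
  refine ⟨2 * (1 / (16 * a)), u none, hu none, fun v hv => ?_⟩
  set c0 : ℝ := (1 / (16 * a)) * ∑ i, (v i) ^ 2 with hc0
  set K : ℝ≥0 := ⟨(∑ i, (|u i| + |v i|)) * ((M : ℝ) + 1), by positivity⟩ with hK
  have hK1 : (∑ i, |(u + v) i|) * ((M : ℝ) + 1) ≤ K := by
    refine mul_le_mul_of_nonneg_right (Finset.sum_le_sum fun i _ => ?_) (by positivity)
    exact abs_add_le _ _
  have hK2 : (∑ i, |(u - v) i|) * ((M : ℝ) + 1) ≤ K := by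
    refine mul_le_mul_of_nonneg_right (Finset.sum_le_sum fun i _ => ?_) (by positivity)
    exact abs_sub _ _
  have hK3 : (∑ i, |u i|) * ((M : ℝ) + 1) ≤ K := by
    refine mul_le_mul_of_nonneg_right (Finset.sum_le_sum fun i _ => ?_) (by positivity)
    linarith [abs_nonneg (v i)]
  have hvn := abs_le.1 (hv none)
  have h0 : Good K (fun x => psi G (u + v) x + 0) :=
    ⟨lip_psi hG _ hK1 0, conc_psi hc _ (by simp only [Pi.add_apply]; linarith) 0⟩
  have h1 : Good K (fun x => psi G (u - v) x + 0) :=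
    ⟨lip_psi hG _ hK2 0, conc_psi hc _ (by simp only [Pi.sub_apply]; linarith) 0⟩
  have hz : Good K (fun x => psi G u x + c0) :=
    ⟨lip_psi hG _ hK3 c0, conc_psi hc _ (hu none).le c0⟩
  have hR := rel_psi hG hs u v (hu none) ha0 haκ
  have hzc : ∀ ρ, Dens n ρ → ∫ x, (psi G u x + c0) * ρ x ≤ hh G u + c0 := by
    intro ρ hρ
    obtain ⟨K', hK'⟩ := hρ.lip
    have e : ∀ x, (psi G u x + c0) * ρ x = psi G u x * ρ x + c0 * ρ x := fun x => by ring
    simp only [e]
    rw [iadd (f := fun x => psi G u x * ρ x) (g := fun x => c0 * ρ x)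
      ((cont_psi hGc u).mul hK'.continuous) (continuous_const.mul hK'.continuous),
      psi_int hGc u hK'.continuous, integral_const_mul, hρ.int, mul_one]
    linarith [le_hh hGc u hρ]
  have main : ∀ ρ0, Dens n ρ0 → ∀ ρ1, Dens n ρ1 →
      (∑ i, (u + v) i * mom G ρ0 i) + ∑ i, (u - v) i * mom G ρ1 i ≤ 2 * (hh G u + c0) := by
    intro ρ0 hρ0 ρ1 hρ1
    obtain ⟨K0, hK0⟩ := hρ0.lip
    obtain ⟨K1', hK1'⟩ := hρ1.lip
    have h := triple_bound IT h0 h1 hz hR hzc hρ0 hρ1
    simp only [add_zero] at h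
    rw [psi_int hGc _ hK0.continuous, psi_int hGc _ hK1'.continuous] at h
    exact h
  have h5 : hh G (u + v) ≤ 2 * (hh G u + c0) - hh G (u - v) := by
    refine hh_le _ fun ρ0 hρ0 => ?_
    have h6 : hh G (u - v) ≤ 2 * (hh G u + c0) - ∑ i, (u + v) i * mom G ρ0 i := by
      refine hh_le _ fun ρ1 hρ1 => ?_
      linarith [main ρ0 hρ0 ρ1 hρ1]
    linarith
  have : 2 * (1 / (16 * a)) * ∑ i, (v i) ^ 2 = 2 * c0 := by rw [hc0]; ring
  rw [this]
  linarith

theorem H3 (hU : UNC n) {G : X n → ℝ} (hG : Continuous G) :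
    ∀ p ∈ Dc G, (∀ i, 0 < p i) → ∏ i, p i ≤ (∫ x, max (G x) 0) / 2 ^ n := by
  rintro p ⟨L, hL, hne, hlow, hmid, hpos, hp⟩ hp0
  have h := hU L hL hne hlow hmid
  set V := (volume L).toReal with hV
  have hx : ∀ k : Fin n, ∫ x in L, ((x k : unitInterval) : ℝ) = p (some k) * V := by
    intro k
    have := hp (some k)
    rw [this, div_mul_cancel₀ _ hpos.ne']
    rfl
  have e1 : ∏ k : Fin n, (2 * ∫ x in L, ((x k : unitInterval) : ℝ)) =
      2 ^ n * (∏ k : Fin n, p (some k)) * V ^ n := by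
    simp only [hx]
    rw [Finset.prod_mul_distrib, Finset.prod_mul_distrib, Finset.prod_const, Finset.prod_const,
      Finset.card_univ, Fintype.card_fin]
    ring
  rw [e1, pow_succ] at h
  have hVn : 0 < V ^ n := pow_pos hpos n
  have h2 : 2 ^ n * (∏ k : Fin n, p (some k)) ≤ V := by
    have : 2 ^ n * (∏ k : Fin n, p (some k)) * V ^ n ≤ V * V ^ n := by linarith
    exact le_of_mul_le_mul_right this hVn
  have h3 : p none * V ≤ ∫ x, max (G x) 0 := by
    rw [hp none, div_mul_cancel₀ _ hpos.ne']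
    calc ∫ x in L, FF G none x ≤ ∫ x in L, max (G x) 0 := by
          refine setIntegral_mono (integrable_of_cont hG).integrableOn
            (integrable_of_cont (hG.max continuous_const)).integrableOn fun x => ?_
          exact le_max_left _ _
      _ ≤ ∫ x, max (G x) 0 := by
          refine setIntegral_le_integral (integrable_of_cont (hG.max continuous_const)) ?_
          exact Eventually.of_forall fun x => le_max_right _ _
  rw [Fintype.prod_option, le_div_iff₀ (by positivity)]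
  calc p none * (∏ k : Fin n, p (some k)) * 2 ^ n = p none * (2 ^ n * ∏ k : Fin n, p (some k)) := by
        ring
    _ ≤ p none * V := mul_le_mul_of_nonneg_left h2 (hp0 none).le
    _ ≤ _ := h3

theorem cxs_of_unc' (IT : Iso n) (hU : UNC n) : CXs n := by
  classical
  intro ρ G M κ hκ hρ hG hs
  have hGc := hG.continuous
  have hc : Rel G G G := rel_of_strong hκ hs
  obtain ⟨K, hK⟩ := hρ.lip
  have hI0 : 0 ≤ ∫ x, max (G x) 0 := integral_nonneg fun x => le_max_right _ _
  have hx0 : ∀ k : Fin n, 0 ≤ ∫ x, ((x k : unitInterval) : ℝ) * ρ x := fun k =>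
    integral_nonneg fun x => mul_nonneg (x k).2.1 (hρ.nonneg x)
  by_cases hpos : ∀ i, 0 < mom G ρ i
  · obtain ⟨B, hB⟩ := DD_bdd hGc
    have h := abs_cx (DD G) (Dc G) (Dc_sub hGc) (DD_convex G) B hB (hh G)
      (fun u p hp => hp u)
      (fun u c hcc => hh_le u fun ρ' hρ' => hcc _ (mom_mem_DD hGc hρ'))
      (fun u hu s hs' => H1 IT hG hc u hu s hs')
      (fun u hu => H2 IT hG hκ hs u hu) _ (H3 hU hGc) (mom G ρ) (mom_mem_DD hGc hρ) hpos
    rw [Fintype.prod_option, le_div_iff₀ (by positivity)] at h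
    have e : ∏ k : Fin n, (2 * ∫ x, ((x k : unitInterval) : ℝ) * ρ x) =
        2 ^ n * ∏ k : Fin n, mom G ρ (some k) := by
      rw [Finset.prod_mul_distrib, Finset.prod_const, Finset.card_univ, Fintype.card_fin]
      rfl
    rw [e]
    calc (∫ x, G x * ρ x) * (2 ^ n * ∏ k : Fin n, mom G ρ (some k))
        = mom G ρ none * (∏ k : Fin n, mom G ρ (some k)) * 2 ^ n := by
          show mom G ρ none * _ = _
          ring
      _ ≤ _ := h
  · push Not at hpos
    obtain ⟨i, hi⟩ := hpos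
    have hprod0 : 0 ≤ ∏ k : Fin n, (2 * ∫ x, ((x k : unitInterval) : ℝ) * ρ x) :=
      Finset.prod_nonneg fun k _ => mul_nonneg zero_le_two (hx0 k)
    cases i with
    | none =>
      have h1 : ∫ x, G x * ρ x ≤ 0 := hi
      have := mul_nonpos_of_nonpos_of_nonneg h1 hprod0
      linarith
    | some k =>
      have h1 : ∫ x, ((x k : unitInterval) : ℝ) * ρ x = 0 := le_antisymm hi (hx0 k)
      have h2 : ∏ k : Fin n, (2 * ∫ x, ((x k : unitInterval) : ℝ) * ρ x) = 0 :=
        Finset.prod_eq_zero (Finset.mem_univ k) (by rw [h1, mul_zero])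
      rw [h2, mul_zero]
      exact hI0

end D2S

end Vale.Agent.P254.Unc
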