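import Vale.Agent.P254.Unc.Defs2

open MeasureTheory Set
open scoped NNReal

namespace Vale.Agent.P254.Unc

variable {n : ℕ}

theorem d3h_cont_sq (n : ℕ) : Continuous fun x : X n => ∑ k, ((x k : unitInterval) : ℝ) ^ 2 := by
  fun_prop

theorem d3h_lip_sq (n : ℕ) :
    LipschitzWith (2 * n) fun x : X n => ∑ k, ((x k : unitInterval) : ℝ) ^ 2 := by
  refine LipschitzWith.of_dist_le_mul fun x y => ?_
  rw [Real.dist_eq, ← Finset.sum_sub_distrib]
  refine (Finset.abs_sum_le_sum_abs _ _).trans ?_
  have h : ∀ k ∈ (Finset.univ : Finset (Fin n)),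
      |((x k : unitInterval) : ℝ) ^ 2 - ((y k : unitInterval) : ℝ) ^ 2| ≤ 2 * dist x y := by
    intro k _
    have h1 : |((x k : unitInterval) : ℝ) - (y k : unitInterval)| ≤ dist x y := by
      have := dist_le_pi_dist x y k
      rwa [Subtype.dist_eq, Real.dist_eq] at this
    have h2 : ((x k : unitInterval) : ℝ) ^ 2 - ((y k : unitInterval) : ℝ) ^ 2 =
        (((x k : unitInterval) : ℝ) + (y k : unitInterval)) *
          (((x k : unitInterval) : ℝ) - (y k : unitInterval)) := by ring
    have h3 : |((x k : unitInterval) : ℝ) + (y k : unitInterval)| ≤ 2 := by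
      rw [abs_le]
      have a1 := (x k).2.1
      have a2 := (x k).2.2
      have a3 := (y k).2.1
      have a4 := (y k).2.2
      constructor <;> linarith
    rw [h2, abs_mul]
    exact mul_le_mul h3 h1 (abs_nonneg _) (by norm_num)
  refine (Finset.sum_le_sum h).trans ?_
  simp only [Finset.sum_const, Finset.card_univ, Fintype.card_fin, nsmul_eq_mul]
  push_cast
  have : (0 : ℝ) ≤ dist x y := dist_nonneg
  linarith

/-- D3: remove strong concavity and normalisation -/
theorem cx_of_cxs (n : ℕ) (h : CXs n) : CX n := by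
  intro ρ G K M hanti hnn hlip hG hrel
  have hρc : Continuous ρ := hlip.continuous
  have hGc : Continuous G := hG.continuous
  have hint : ∀ f : X n → ℝ, Continuous f → Integrable f := fun f hf =>
    hf.integrable_of_hasCompactSupport (HasCompactSupport.of_compactSpace f)
  have hI0 : 0 ≤ ∫ x, max (G x) 0 := integral_nonneg fun x => le_max_right _ _
  have hc0 : 0 ≤ ∫ x, ρ x := integral_nonneg hnn
  rcases hc0.eq_or_lt with hc | hc
  · have hz : ρ =ᵐ[volume] 0 :=
      (integral_eq_zero_iff_of_nonneg (fun x => hnn x) (hint ρ hρc)).1 hc.symm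
    have h1 : ∫ x, G x * ρ x = 0 := by
      refine integral_eq_zero_of_ae ?_
      filter_upwards [hz] with x hx
      simp [hx]
    rw [h1, zero_mul]
    positivity
  set c := ∫ x, ρ x with hcdef
  have hdens : Dens n fun x => ρ x / c := by
    refine ⟨fun x y hxy => ?_, fun x => div_nonneg (hnn x) hc.le, ?_, ?_⟩
    · exact div_le_div_of_nonneg_right (hanti hxy) hc.le
    · refine ⟨K * ‖c⁻¹‖₊, ?_⟩
      refine LipschitzWith.of_dist_le_mul fun x y => ?_
      have h2 := hlip.dist_le_mul x y
      rw [Real.dist_eq] at h2 ⊢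
      rw [← sub_div, abs_div, div_eq_mul_inv]
      push_cast
      rw [norm_inv, Real.norm_eq_abs]
      have h3 : 0 ≤ |c|⁻¹ := by positivity
      nlinarith [mul_le_mul_of_nonneg_right h2 h3]
    · rw [integral_div, ← hcdef, div_self hc.ne']
  set A := ∫ x, G x * (ρ x / c) with hA
  set P := ∏ k : Fin n, (2 * ∫ x, ((x k : unitInterval) : ℝ) * (ρ x / c)) with hP
  set B := ∫ x, (∑ k, ((x k : unitInterval) : ℝ) ^ 2) * (ρ x / c) with hB
  have hP0 : 0 ≤ P := Finset.prod_nonneg fun k _ => mul_nonneg (by norm_num)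
    (integral_nonneg fun x => mul_nonneg (x k).2.1 (div_nonneg (hnn x) hc.le))
  have hB0 : 0 ≤ B := integral_nonneg fun x => mul_nonneg
    (Finset.sum_nonneg fun k _ => sq_nonneg _) (div_nonneg (hnn x) hc.le)
  have hκ : ∀ κ : ℝ, 0 < κ → (A - 4 * κ * B) * P ≤ ∫ x, max (G x) 0 := by
    intro κ hκ
    have h4 : LipschitzWith (M + ‖4 * κ‖₊ * (2 * n))
        fun x : X n => G x - 4 * κ * ∑ k, ((x k : unitInterval) : ℝ) ^ 2 := by
      refine LipschitzWith.of_dist_le_mul fun x y => ?_
      have a1 := hG.dist_le_mul x y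
      have a2 := (d3h_lip_sq n).dist_le_mul x y
      rw [Real.dist_eq] at a1 a2 ⊢
      have e : G x - 4 * κ * ∑ k, ((x k : unitInterval) : ℝ) ^ 2 -
          (G y - 4 * κ * ∑ k, ((y k : unitInterval) : ℝ) ^ 2) =
          (G x - G y) - (4 * κ) * (∑ k, ((x k : unitInterval) : ℝ) ^ 2 -
            ∑ k, ((y k : unitInterval) : ℝ) ^ 2) := by ring
      rw [e]
      refine (abs_sub _ _).trans ?_
      rw [abs_mul (4 * κ)]
      push_cast at a1 a2 ⊢
      rw [Real.norm_eq_abs]
      have a3 := mul_le_mul_of_nonneg_left a2 (abs_nonneg (4 * κ))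
      calc _ ≤ (M : ℝ) * dist x y + |4 * κ| * (2 * n * dist x y) := add_le_add a1 a3
        _ = _ := by ring
    have h5 := h (fun x => ρ x / c) (fun x => G x - 4 * κ * ∑ k, ((x k : unitInterval) : ℝ) ^ 2)
      _ κ hκ hdens h4 (by
        intro x y
        have b1 := hrel x y
        have b2 : (∑ k, ((x k : unitInterval) : ℝ) ^ 2 + ∑ k, ((y k : unitInterval) : ℝ) ^ 2) / 2
            = ∑ k, (((mid x y) k : unitInterval) : ℝ) ^ 2 +
              (∑ k, (((x k : unitInterval) : ℝ) - y k) ^ 2) / 4 := by
          rw [← Finset.sum_add_distrib, Finset.sum_div, Finset.sum_div, ← Finset.sum_add_distrib]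
          refine Finset.sum_congr rfl fun k _ => ?_
          simp only [mid, mid1]
          ring
        linear_combination b1 - 4 * κ * b2)
    have h6 : ∫ x, (G x - 4 * κ * ∑ k, ((x k : unitInterval) : ℝ) ^ 2) * (ρ x / c) =
        A - 4 * κ * B := by
      rw [hA, hB, ← integral_const_mul, ← integral_sub]
      · congr 1
        funext x
        ring
      · exact hint _ (hGc.mul (hρc.div_const c))
      · exact (hint _ ((d3h_cont_sq n).mul (hρc.div_const c))).const_mul _
    rw [h6] at h5
    refine h5.trans ?_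
    refine integral_mono (hint _ ?_) (hint _ (hGc.max continuous_const)) fun x => ?_
    · exact ((hGc.sub ((d3h_cont_sq n).const_mul (4 * κ))).max continuous_const)
    · refine max_le_max ?_ le_rfl
      have : 0 ≤ 4 * κ * ∑ k, ((x k : unitInterval) : ℝ) ^ 2 := by positivity
      linarith
  have hmain : A * P ≤ ∫ x, max (G x) 0 := by
    refine le_of_forall_pos_le_add fun ε hε => ?_
    have hBP : 0 ≤ B * P := mul_nonneg hB0 hP0
    have h7 := hκ (ε / (4 * (B * P + 1))) (by positivity)
    have h8 : 4 * (ε / (4 * (B * P + 1))) * B * P ≤ ε := by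
      have e : 4 * (ε / (4 * (B * P + 1))) * B * P = ε * ((B * P) / (B * P + 1)) := by
        field_simp
      rw [e]
      have : (B * P) / (B * P + 1) ≤ 1 := by
        rw [div_le_one (by positivity)]
        linarith
      nlinarith
    linarith [sub_mul A (4 * (ε / (4 * (B * P + 1))) * B) P]
  have hA' : A = (∫ x, G x * ρ x) / c := by
    rw [hA, ← integral_div]
    congr 1
    funext x
    ring
  have hP' : P = (∏ k : Fin n, (2 * ∫ x, ((x k : unitInterval) : ℝ) * ρ x)) / c ^ n := by
    have e : ∀ k : Fin n, (2 * ∫ x : X n, ((x k : unitInterval) : ℝ) * (ρ x / c)) =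
        (2 * ∫ x : X n, ((x k : unitInterval) : ℝ) * ρ x) / c := by
      intro k
      rw [mul_div_assoc, ← integral_div]
      congr 2
      funext x
      ring
    rw [hP, Finset.prod_congr rfl fun k _ => e k, Finset.prod_div_distrib, Finset.prod_const,
      Finset.card_univ, Fintype.card_fin]
  rw [hA', hP', div_mul_div_comm, div_le_iff₀ (by positivity)] at hmain
  calc _ ≤ _ := hmain
    _ = _ := by ring

end Vale.Agent.P254.Unc
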