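import Mathlib

open MeasureTheory Set
open scoped NNReal

namespace Vale.Agent.P254.Unc

/-- The unit cube, with its product probability measure `volume` and the sup metric. -/
abbrev X (n : ℕ) := Fin n → unitInterval

/-- Midpoint in the unit interval. -/
noncomputable def mid1 (a b : unitInterval) : unitInterval :=
  ⟨((a : ℝ) + b) / 2, by
    constructor
    · have := a.2.1; have := b.2.1; linarith
    · have := a.2.2; have := b.2.2; linarith⟩

/-- Coordinatewise midpoint in the cube. -/
noncomputable def mid {n : ℕ} (x y : X n) : X n := fun k => mid1 (x k) (y k)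

/-- The two-function midpoint relation. `Rel f f f` is midpoint concavity of `f`. -/
def Rel {n : ℕ} (z f g : X n → ℝ) : Prop := ∀ x y, (f x + g y) / 2 ≤ z (mid x y)

/-- `M`-Lipschitz and (midpoint) concave. -/
structure Good {n : ℕ} (M : ℝ≥0) (f : X n → ℝ) : Prop where
  lip : LipschitzWith M f
  conc : Rel f f f

/-- Mean of `f` over `x_k ∈ [0,b]`. -/
noncomputable def avgB {n : ℕ} (k : Fin n) (f : X n → ℝ) (x : X n) (b : unitInterval) : ℝ :=
  ∫ u : unitInterval, f (Function.update x k (b * u))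

/-- Supremum of `f` over the points above `x` in direction `k`. -/
noncomputable def upB {n : ℕ} (k : Fin n) (f : X n → ℝ) (x : X n) : ℝ :=
  ⨆ s : unitInterval, f (Function.update x k (x k ⊔ s))

/-- The isotonic regression of a concave function in direction `k`. -/
noncomputable def Q {n : ℕ} (k : Fin n) (f : X n → ℝ) (x : X n) : ℝ :=
  min (⨆ b : unitInterval, avgB k f x b) (upB k f x)

/-- Antitone in the coordinate `k`. -/
def AntiK {n : ℕ} (k : Fin n) (v : X n → ℝ) : Prop :=
  ∀ (x : X n) (s t : unitInterval), s ≤ t → v (Function.update x k t) ≤ v (Function.update x k s)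

/-- `g` is the `L²`-projection of `f` to the antitone functions. -/
structure IsProj {n : ℕ} (f g : X n → ℝ) : Prop where
  anti : Antitone g
  le : ∀ v : X n → ℝ, Antitone v → (∃ K, LipschitzWith K v) → ∫ x, (f x - g x) * v x ≤ 0
  eq : ∫ x, (f x - g x) * g x = 0

/-- The inequality `|L| ≥ ∏ 2 E x_k` for closed convex lower sets in the cube. -/
def UNC (n : ℕ) : Prop :=
  ∀ L : Set (X n), IsClosed L → L.Nonempty → IsLowerSet L → (∀ x ∈ L, ∀ y ∈ L, mid x y ∈ L) →
    ∏ k : Fin n, (2 * ∫ x in L, ((x k : unitInterval) : ℝ)) ≤ (volume L).toReal ^ (n + 1)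

/-- The functional inequality `E_ρ G ∏ 2 E_ρ x_k ≤ ∫ G₊`. -/
def CX (n : ℕ) : Prop :=
  ∀ (ρ G : X n → ℝ) (K M : ℝ≥0), Antitone ρ → (∀ x, 0 ≤ ρ x) → LipschitzWith K ρ →
    LipschitzWith M G → Rel G G G →
    (∫ x, G x * ρ x) * ∏ k : Fin n, (2 * ∫ x, ((x k : unitInterval) : ℝ) * ρ x) ≤
      (∫ x, ρ x) ^ (n + 1) * ∫ x, max (G x) 0

end Vale.Agent.P254.Unc
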