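import Vale.Agent.P254.Unc.E1Defs

open MeasureTheory Set
open scoped NNReal

namespace Vale.Agent.P254.Unc

variable {n : ℕ}

theorem int_consJ (F : X (n + 1) → ℝ) (hF : Integrable F) :
    ∫ z, F z = ∫ x : X n, ∫ t : unitInterval, F (Fin.cons t x) := by
  have e := (volume_preserving_piFinSuccAbove (fun _ : Fin (n + 1) => unitInterval) 0).symm
  have h1 := e.integral_comp' F
  rw [← h1]
  have h2 : Integrable (fun p : unitInterval × X n =>
      F ((MeasurableEquiv.piFinSuccAbove (fun _ : Fin (n + 1) => unitInterval) 0).symm p)) :=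
    (e.integrable_comp_emb (MeasurableEquiv.measurableEmbedding _)).2 hF
  rw [show (volume : Measure (unitInterval × X n)) = (volume : Measure unitInterval).prod
    (volume : Measure (X n)) from rfl] at h2 ⊢
  rw [integral_prod_symm _ h2]
  refine integral_congr_ae (Filter.Eventually.of_forall fun x => ?_)
  refine integral_congr_ae (Filter.Eventually.of_forall fun t => ?_)
  simp only [MeasurableEquiv.piFinSuccAbove_symm_apply, Fin.insertNthEquiv, Equiv.coe_fn_mk,
    Fin.insertNth_zero']

theorem continuous_consJ : Continuous (fun p : unitInterval × X n => (Fin.cons p.1 p.2 : X (n + 1))) := by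
  refine continuous_pi (fun i => ?_)
  refine Fin.cases ?_ (fun j => ?_) i
  · simpa using continuous_fst
  · have h : Continuous (fun p : unitInterval × X n => p.2 j) :=
      (continuous_apply j).comp continuous_snd
    simpa using h

theorem fib_closedJ {L : Set (X (n + 1))} (hL : IsClosed L) (x : X n) :
    IsClosed {t : unitInterval | (Fin.cons t x : X (n + 1)) ∈ L} :=
  hL.preimage (continuous_consJ.comp (Continuous.prodMk continuous_id continuous_const))

theorem fib_lowerJ {L : Set (X (n + 1))} (hlow : IsLowerSet L) (x : X n) :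
    IsLowerSet {t : unitInterval | (Fin.cons t x : X (n + 1)) ∈ L} := by
  intro s t hts hs
  refine hlow ?_ hs
  intro i
  refine Fin.cases ?_ (fun j => ?_) i
  · simpa using hts
  · simp

theorem fib_casesJ {L : Set (X (n + 1))} (hL : IsClosed L) (hlow : IsLowerSet L) (x : X n) :
    {t : unitInterval | (Fin.cons t x : X (n + 1)) ∈ L} = ∅ ∨
      ∃ a : unitInterval, {t : unitInterval | (Fin.cons t x : X (n + 1)) ∈ L} = Iic a := by
  rcases Set.eq_empty_or_nonempty {t : unitInterval | (Fin.cons t x : X (n + 1)) ∈ L} with h | h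
  · exact Or.inl h
  · right
    obtain ⟨a, ha, hmax⟩ := (fib_closedJ hL x).isCompact.exists_isMaxOn h continuous_id.continuousOn
    refine ⟨a, Set.Subset.antisymm (fun t ht => hmax ht) (fun t ht => fib_lowerJ hlow x ht ha)⟩

theorem Hf_nonnegJ (L : Set (X (n + 1))) (x : X n) : 0 ≤ Hf L x := ENNReal.toReal_nonneg

theorem Hf_le_oneJ (L : Set (X (n + 1))) (x : X n) : Hf L x ≤ 1 := by
  unfold Hf
  exact ENNReal.toReal_le_of_le_ofReal zero_le_one (by simpa using prob_le_one)

theorem Hf_antitoneJ {L : Set (X (n + 1))} (hlow : IsLowerSet L) : Antitone (Hf L) := by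
  intro x y hxy
  unfold Hf
  refine ENNReal.toReal_mono (measure_ne_top _ _) (measure_mono ?_)
  intro t ht
  refine hlow ?_ ht
  intro i
  refine Fin.cases ?_ (fun j => ?_) i
  · simp
  · simpa using hxy j

theorem Hf_eq_intJ {L : Set (X (n + 1))} (hL : IsClosed L) (x : X n) :
    Hf L x = ∫ t : unitInterval, L.indicator (fun _ => (1 : ℝ)) (Fin.cons t x) := by
  have h : (fun t : unitInterval => L.indicator (fun _ => (1 : ℝ)) (Fin.cons t x : X (n + 1))) =
      {t : unitInterval | (Fin.cons t x : X (n + 1)) ∈ L}.indicator (fun _ => (1 : ℝ)) := by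
    funext t
    simp only [Set.indicator]
    rfl
  rw [h, integral_indicator_const _ (fib_closedJ hL x).measurableSet]
  simp [Hf, Measure.real]

theorem Hf_measurableJ {L : Set (X (n + 1))} (hL : IsClosed L) : Measurable (Hf L) := by
  have hm : MeasurableSet {p : X n × unitInterval | (Fin.cons p.2 p.1 : X (n + 1)) ∈ L} := by
    have : Continuous (fun p : X n × unitInterval => (Fin.cons p.2 p.1 : X (n + 1))) :=
      continuous_consJ.comp (continuous_swap)
    exact (hL.preimage this).measurableSet
  exact (measurable_measure_prodMk_left hm).ennreal_toReal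

theorem int_coe_IicJ (a : unitInterval) :
    ∫ t : unitInterval, (Iic a).indicator (fun t => (t : ℝ)) t = (a : ℝ) ^ 2 / 2 := by
  have h1 : (fun t : unitInterval => (Iic a).indicator (fun t => (t : ℝ)) t) =
      fun t : unitInterval => ((fun s : ℝ => (Iic (a : ℝ)).indicator (fun s => s) s) (t : ℝ)) := by
    funext t
    by_cases ht : t ≤ a
    · rw [Set.indicator_of_mem (show t ∈ Iic a from ht)]
      simp only
      rw [Set.indicator_of_mem (show (t : ℝ) ∈ Iic (a : ℝ) from ht)]
    · rw [Set.indicator_of_notMem (show t ∉ Iic a from ht)]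
      simp only
      rw [Set.indicator_of_notMem (show (t : ℝ) ∉ Iic (a : ℝ) from ht)]
  rw [h1]
  have h2 := unitInterval.measurePreserving_coe.integral_comp unitInterval.measurableEmbedding_coe
    (fun s : ℝ => (Iic (a : ℝ)).indicator (fun s => s) s)
  rw [h2, integral_indicator measurableSet_Iic, Measure.restrict_restrict measurableSet_Iic]
  have h3 : Iic (a : ℝ) ∩ unitInterval = Icc 0 (a : ℝ) := by
    ext s
    simp only [Set.mem_inter_iff, Set.mem_Iic, Set.mem_Icc]
    constructor
    · rintro ⟨h, h', -⟩; exact ⟨h', h⟩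
    · rintro ⟨h, h'⟩; exact ⟨h', h, h'.trans a.2.2⟩
  rw [h3, integral_Icc_eq_integral_Ioc, ← intervalIntegral.integral_of_le a.2.1]
  simp

theorem fub_vol (L : Set (X (n + 1))) (hL : IsClosed L) :
    (volume L).toReal = ∫ x, Hf L x := by
  have h1 : (volume L).toReal = ∫ z, L.indicator (fun _ => (1 : ℝ)) z := by
    rw [integral_indicator_const _ hL.measurableSet]
    simp [Measure.real]
  rw [h1, int_consJ]
  · exact integral_congr_ae (Filter.Eventually.of_forall fun x => (Hf_eq_intJ hL x).symm)
  · exact (integrable_const 1).indicator hL.measurableSet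

theorem fub_succ (L : Set (X (n + 1))) (hL : IsClosed L) (k : Fin n) :
    ∫ z in L, ((z k.succ : unitInterval) : ℝ) = ∫ x, ((x k : unitInterval) : ℝ) * Hf L x := by
  have hc : Continuous (fun z : X (n + 1) => ((z k.succ : unitInterval) : ℝ)) :=
    continuous_subtype_val.comp (continuous_apply _)
  rw [← integral_indicator hL.measurableSet, int_consJ]
  · refine integral_congr_ae (Filter.Eventually.of_forall fun x => ?_)
    simp only
    rw [Hf_eq_intJ hL x, ← integral_const_mul]
    refine integral_congr_ae (Filter.Eventually.of_forall fun t => ?_)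
    simp only
    by_cases ht : (Fin.cons t x : X (n + 1)) ∈ L
    · rw [Set.indicator_of_mem ht, Set.indicator_of_mem ht]
      simp
    · rw [Set.indicator_of_notMem ht, Set.indicator_of_notMem ht]
      simp
  · refine Integrable.indicator ?_ hL.measurableSet
    exact hc.integrable_of_hasCompactSupport (HasCompactSupport.of_compactSpace _)

theorem fub_zero (L : Set (X (n + 1))) (hL : IsClosed L) (hlow : IsLowerSet L) :
    2 * ∫ z in L, ((z 0 : unitInterval) : ℝ) = ∫ x, Hf L x ^ 2 := by
  suffices key : ∫ z in L, ((z 0 : unitInterval) : ℝ) = ∫ x, Hf L x ^ 2 / 2 by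
    rw [key, integral_div]
    ring
  have hc : Continuous (fun z : X (n + 1) => ((z 0 : unitInterval) : ℝ)) :=
    continuous_subtype_val.comp (continuous_apply _)
  rw [← integral_indicator hL.measurableSet, int_consJ]
  · refine integral_congr_ae (Filter.Eventually.of_forall fun x => ?_)
    simp only
    have h : (fun t : unitInterval => L.indicator (fun z : X (n + 1) => ((z 0 : unitInterval) : ℝ))
        (Fin.cons t x : X (n + 1))) =
        {t : unitInterval | (Fin.cons t x : X (n + 1)) ∈ L}.indicator (fun t => (t : ℝ)) := by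
      funext t
      simp only [Set.indicator, Fin.cons_zero]
      rfl
    rw [h]
    unfold Hf
    rcases fib_casesJ hL hlow x with h0 | ⟨a, ha⟩
    · rw [h0]; simp
    · rw [ha, int_coe_IicJ, unitInterval.volume_Iic, ENNReal.toReal_ofReal a.2.1]
  · refine Integrable.indicator ?_ hL.measurableSet
    exact hc.integrable_of_hasCompactSupport (HasCompactSupport.of_compactSpace _)

end Vale.Agent.P254.Unc
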