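import Vale.Agent.P254.Unc.E1aH
import Vale.Agent.P254.Unc.E1bJ

open MeasureTheory Set Filter
open scoped NNReal Topology

namespace Vale.Agent.P254.Unc

theorem unc_succ (n : ℕ) (h : CX n) : UNC (n + 1) := by
  intro L hL hne hlow hmid
  obtain ⟨g, hlip, hrel, hanti, hle, htend⟩ := exists_supconv L hL hne hlow hmid
  set ρ : ℕ → X n → ℝ := fun N x => max (g N x) 0 with hρ
  have hρ0 : ∀ N x, 0 ≤ ρ N x := fun N x => le_max_right _ _
  have hρ1 : ∀ N x, ρ N x ≤ 1 := fun N x => max_le (hle N x) zero_le_one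
  have hρlip : ∀ N, ∃ K, LipschitzWith K (ρ N) := by
    intro N
    obtain ⟨K, hK⟩ := hlip N
    exact ⟨K, hK.max_const 0⟩
  have hρc : ∀ N, Continuous (ρ N) := fun N => by
    obtain ⟨K, hK⟩ := hρlip N
    exact hK.continuous
  have hρanti : ∀ N, Antitone (ρ N) := fun N x y hxy => max_le_max (hanti N hxy) le_rfl
  -- the inequality for the approximations
  have key : ∀ N, (∫ x, ρ N x ^ 2) * ∏ k : Fin n, (2 * ∫ x, ((x k : unitInterval) : ℝ) * ρ N x) ≤
      (∫ x, ρ N x) ^ (n + 1) * ∫ x, ρ N x := by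
    intro N
    obtain ⟨K, hK⟩ := hρlip N
    obtain ⟨M, hM⟩ := hlip N
    have h1 := h (ρ N) (g N) K M (hρanti N) (hρ0 N) hK hM (hrel N)
    have h2 : ∀ x, g N x * ρ N x = ρ N x ^ 2 := by
      intro x
      simp only [hρ]
      rcases le_total (g N x) 0 with h3 | h3
      · rw [max_eq_right h3]; simp
      · rw [max_eq_left h3]; ring
    simp only [h2] at h1
    exact h1
  -- limits
  have hconv : ∀ (w : X n → ℝ), Continuous w → (∀ x, |w x| ≤ 1) → ∀ (q : ℕ), 
      Tendsto (fun N => ∫ x, w x * ρ N x ^ q) atTop (𝓝 (∫ x, w x * Hf L x ^ q)) := by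
    intro w hw hwb q
    apply tendsto_integral_of_dominated_convergence (fun _ => (1 : ℝ))
    · intro N
      exact (hw.mul ((hρc N).pow q)).aestronglyMeasurable
    · exact integrable_const _
    · intro N
      refine Eventually.of_forall fun x => ?_
      rw [Real.norm_eq_abs, abs_mul, abs_pow, abs_of_nonneg (hρ0 N x)]
      exact mul_le_one₀ (hwb x) (by have := hρ0 N x; positivity) (pow_le_one₀ (hρ0 N x) (hρ1 N x))
    · refine Eventually.of_forall fun x => ?_
      exact ((htend x).pow q).const_mul (w x)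
  have c1 : Tendsto (fun N => ∫ x, ρ N x) atTop (𝓝 (∫ x, Hf L x)) := by
    have := hconv (fun _ => 1) continuous_const (by intro x; simp) 1
    simpa using this
  have c2 : Tendsto (fun N => ∫ x, ρ N x ^ 2) atTop (𝓝 (∫ x, Hf L x ^ 2)) := by
    have := hconv (fun _ => 1) continuous_const (by intro x; simp) 2
    simpa using this
  have c3 : ∀ k : Fin n, Tendsto (fun N => 2 * ∫ x, ((x k : unitInterval) : ℝ) * ρ N x) atTop
      (𝓝 (2 * ∫ x, ((x k : unitInterval) : ℝ) * Hf L x)) := by
    intro k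
    have := hconv (fun x => ((x k : unitInterval) : ℝ)) (by fun_prop)
      (by intro x; rw [abs_of_nonneg (x k).2.1]; exact (x k).2.2) 1
    simp only [pow_one] at this
    exact this.const_mul 2
  have hfin : (∫ x, Hf L x ^ 2) * ∏ k : Fin n, (2 * ∫ x, ((x k : unitInterval) : ℝ) * Hf L x) ≤
      (∫ x, Hf L x) ^ (n + 1) * ∫ x, Hf L x := by
    refine le_of_tendsto_of_tendsto' (c2.mul (tendsto_finsetProd _ fun k _ => c3 k))
      ((c1.pow (n + 1)).mul c1) key
  rw [Fin.prod_univ_succ, fub_zero L hL hlow, fub_vol L hL, pow_succ]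
  simp only [fub_succ L hL]
  exact hfin

end Vale.Agent.P254.Unc
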