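import Vale.Agent.P254.Unc.E1bJ
import Vale.Agent.P254.Unc.E1a

open MeasureTheory Set Filter Topology
open scoped NNReal

namespace Vale.Agent.P254.Unc

/-- `UNC (n + 1)` from `CX n` and the sup-convolutions of `E1a`. -/
theorem unc_succ (n : ℕ) (h : CX n) : UNC (n + 1) := by
  intro L hL hne hlow hmid
  obtain ⟨g, hlip, hrel, hanti, hle1, hlim⟩ := exists_supconv L hL hne hlow hmid
  have hgc : ∀ N, Continuous (g N) := fun N => by
    obtain ⟨K, hK⟩ := hlip N
    exact hK.continuous
  have hmc : ∀ N, Continuous (fun x => max (g N x) 0) := fun N => (hgc N).max continuous_const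
  have hb : ∀ N x, ‖max (g N x) 0‖ ≤ 1 := fun N x => by
    rw [Real.norm_eq_abs, abs_of_nonneg (le_max_right _ _)]
    exact max_le (hle1 N x) zero_le_one
  have hb2 : ∀ N x, ‖max (g N x) 0 ^ 2‖ ≤ 1 := fun N x => by
    rw [norm_pow]
    exact pow_le_one₀ (norm_nonneg _) (hb N x)
  have hbk : ∀ (k : Fin n) N (x : X n), ‖((x k : unitInterval) : ℝ) * max (g N x) 0‖ ≤ 1 :=
    fun k N x => by
    rw [norm_mul]
    have h1 : ‖((x k : unitInterval) : ℝ)‖ ≤ 1 := by
      rw [Real.norm_eq_abs, abs_of_nonneg (x k).2.1]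
      exact (x k).2.2
    exact mul_le_one₀ h1 (norm_nonneg _) (hb N x)
  have hN : ∀ N, (∫ x, (max (g N x) 0) ^ 2) *
      ∏ k : Fin n, (2 * ∫ x, ((x k : unitInterval) : ℝ) * max (g N x) 0) ≤
      (∫ x, max (g N x) 0) ^ (n + 2) := by
    intro N
    obtain ⟨K, hK⟩ := hlip N
    have h1 := h (fun x => max (g N x) 0) (g N) K K
      (fun x y hxy => max_le_max_right 0 (hanti N hxy)) (fun x => le_max_right _ _)
      (hK.max_const 0) hK (hrel N)
    have h2 : ∫ x, g N x * max (g N x) 0 = ∫ x, (max (g N x) 0) ^ 2 := by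
      refine integral_congr_ae (Filter.Eventually.of_forall fun x => ?_)
      simp only
      rcases le_total (g N x) 0 with h0 | h0
      · rw [max_eq_right h0]; simp
      · rw [max_eq_left h0]; ring
    rw [h2] at h1
    refine h1.trans (le_of_eq ?_)
    ring
  have l1 : Tendsto (fun N => ∫ x, (max (g N x) 0) ^ 2) atTop (𝓝 (∫ x, Hf L x ^ 2)) := by
    refine tendsto_integral_of_dominated_convergence (fun _ => (1 : ℝ)) ?_ (integrable_const 1) ?_ ?_
    · exact fun N => ((hmc N).pow 2).aestronglyMeasurable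
    · exact fun N => Filter.Eventually.of_forall (hb2 N)
    · exact Filter.Eventually.of_forall fun x => (hlim x).pow 2
  have l2 : ∀ k : Fin n, Tendsto (fun N => ∫ x, ((x k : unitInterval) : ℝ) * max (g N x) 0) atTop
      (𝓝 (∫ x, ((x k : unitInterval) : ℝ) * Hf L x)) := by
    intro k
    have hc : Continuous (fun x : X n => ((x k : unitInterval) : ℝ)) :=
      continuous_subtype_val.comp (continuous_apply _)
    refine tendsto_integral_of_dominated_convergence (fun _ => (1 : ℝ)) ?_ (integrable_const 1) ?_ ?_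
    · exact fun N => (hc.mul (hmc N)).aestronglyMeasurable
    · exact fun N => Filter.Eventually.of_forall (hbk k N)
    · exact Filter.Eventually.of_forall fun x => (hlim x).const_mul _
  have l3 : Tendsto (fun N => ∫ x, max (g N x) 0) atTop (𝓝 (∫ x, Hf L x)) := by
    refine tendsto_integral_of_dominated_convergence (fun _ => (1 : ℝ)) ?_ (integrable_const 1) ?_ ?_
    · exact fun N => (hmc N).aestronglyMeasurable
    · exact fun N => Filter.Eventually.of_forall (hb N)
    · exact Filter.Eventually.of_forall fun x => hlim x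
  have l4 : Tendsto (fun N => ∏ k : Fin n, (2 * ∫ x, ((x k : unitInterval) : ℝ) * max (g N x) 0))
      atTop (𝓝 (∏ k : Fin n, (2 * ∫ x, ((x k : unitInterval) : ℝ) * Hf L x))) :=
    tendsto_finsetProd _ fun k _ => (l2 k).const_mul 2
  have hfin := le_of_tendsto_of_tendsto' (l1.mul l4) (l3.pow (n + 2)) hN
  rw [Fin.prod_univ_succ, fub_zero L hL hlow, fub_vol L hL]
  simp only [fub_succ L hL]
  exact hfin

end Vale.Agent.P254.Unc
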