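import Vale.Agent.P254.Unc.E1Defs

open MeasureTheory Set Filter
open scoped NNReal Topology

namespace Vale.Agent.P254.Unc

namespace E1

variable {n : ℕ}


/-- The objective of the Lipschitz envelope. -/
noncomputable def obj (M : ℝ) (x : X n) (z : X (n + 1)) : ℝ :=
  ((z 0 : unitInterval) : ℝ) - M * dist x (Fin.tail z)

/-- Lipschitz envelope of the length of the fibres. -/
noncomputable def G (L : Set (X (n + 1))) (M : ℝ) (x : X n) : ℝ := ⨆ z : L, obj M x z

theorem continuous_tail : Continuous (fun z : X (n + 1) => (Fin.tail z : X n)) := by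
  unfold Fin.tail
  fun_prop

theorem continuous_obj (M : ℝ) (x : X n) : Continuous (obj M x) := by
  unfold obj
  have := continuous_tail (n := n)
  fun_prop

theorem obj_le_one {M : ℝ} (hM : 0 ≤ M) (x : X n) (z : X (n + 1)) : obj M x z ≤ 1 := by
  unfold obj
  have h1 := (z 0).2.2
  have h2 : 0 ≤ M * dist x (Fin.tail z) := by positivity
  linarith

theorem bdd {L : Set (X (n + 1))} {M : ℝ} (hM : 0 ≤ M) (x : X n) :
    BddAbove (range fun z : L => obj M x z) := by
  refine ⟨1, ?_⟩
  rintro _ ⟨z, rfl⟩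
  exact obj_le_one hM x z

theorem le_G {L : Set (X (n + 1))} {M : ℝ} (hM : 0 ≤ M) (x : X n) {z : X (n + 1)} (hz : z ∈ L) :
    obj M x z ≤ G L M x :=
  le_ciSup (bdd hM x) (⟨z, hz⟩ : L)

theorem exists_G {L : Set (X (n + 1))} (hL : IsClosed L) (hne : L.Nonempty) (M : ℝ) (hM : 0 ≤ M)
    (x : X n) : ∃ z ∈ L, G L M x = obj M x z := by
  obtain ⟨z, hz, hmax⟩ := hL.isCompact.exists_isMaxOn hne (continuous_obj M x).continuousOn
  refine ⟨z, hz, le_antisymm ?_ (le_G hM x hz)⟩
  have : Nonempty L := ⟨⟨z, hz⟩⟩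
  exact ciSup_le fun w => hmax w.2

theorem G_le_one {L : Set (X (n + 1))} (hne : L.Nonempty) {M : ℝ} (hM : 0 ≤ M)
    (x : X n) : G L M x ≤ 1 := by
  obtain ⟨z, hz⟩ := hne
  have : Nonempty L := ⟨⟨z, hz⟩⟩
  exact ciSup_le fun w => obj_le_one hM x w

theorem G_lip {L : Set (X (n + 1))} (hL : IsClosed L) (hne : L.Nonempty) (M : ℝ≥0) :
    LipschitzWith M (G L M) := by
  apply LipschitzWith.of_le_add_mul
  intro x y
  obtain ⟨z, hz, h⟩ := exists_G hL hne M M.2 x
  have h2 := le_G (L := L) (M := M) M.2 y hz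
  rw [h]
  have h3 : obj M x z ≤ obj M y z + M * dist x y := by
    unfold obj
    have h4 : dist y (Fin.tail z) ≤ dist x y + dist x (Fin.tail z) := by
      rw [dist_comm x y]; exact dist_triangle _ _ _
    have h5 : (M : ℝ) * dist y (Fin.tail z) ≤ M * (dist x y + dist x (Fin.tail z)) :=
      mul_le_mul_of_nonneg_left h4 M.2
    linarith
  linarith

theorem tail_mid (z w : X (n + 1)) : (Fin.tail (mid z w) : X n) = mid (Fin.tail z) (Fin.tail w) := by
  rfl

theorem mid1_coe (a b : unitInterval) : ((mid1 a b : unitInterval) : ℝ) = ((a : ℝ) + b) / 2 := rfl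

theorem dist_mid (x y a b : X n) : dist (mid x y) (mid a b) ≤ (dist x a + dist y b) / 2 := by
  rw [dist_pi_le_iff (by positivity)]
  intro k
  have h1 := dist_le_pi_dist x a k
  have h2 := dist_le_pi_dist y b k
  rw [Subtype.dist_eq, Real.dist_eq] at h1 h2
  rw [Subtype.dist_eq, Real.dist_eq]
  show |((mid1 (x k) (y k) : unitInterval) : ℝ) - ((mid1 (a k) (b k) : unitInterval) : ℝ)| ≤ _
  rw [mid1_coe, mid1_coe]
  have h3 : ((x k : ℝ) + y k) / 2 - ((a k : ℝ) + b k) / 2 =
      (((x k : ℝ) - a k) + ((y k : ℝ) - b k)) / 2 := by ring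
  rw [h3, abs_div, abs_of_pos (by norm_num : (0 : ℝ) < 2)]
  have h4 := abs_add_le ((x k : ℝ) - a k) ((y k : ℝ) - b k)
  linarith

theorem G_rel {L : Set (X (n + 1))} (hL : IsClosed L) (hne : L.Nonempty)
    (hc : ∀ x ∈ L, ∀ y ∈ L, mid x y ∈ L) {M : ℝ} (hM : 0 ≤ M) :
    Rel (G L M) (G L M) (G L M) := by
  intro x y
  obtain ⟨z, hz, h1⟩ := exists_G hL hne M hM x
  obtain ⟨w, hw, h2⟩ := exists_G hL hne M hM y
  have h3 := le_G (M := M) hM (mid x y) (hc z hz w hw)
  rw [h1, h2]
  refine le_trans ?_ h3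
  unfold obj
  rw [tail_mid]
  have h4 := dist_mid x y (Fin.tail z) (Fin.tail w)
  have h5 : M * dist (mid x y) (mid (Fin.tail z) (Fin.tail w)) ≤
    M * ((dist x (Fin.tail z) + dist y (Fin.tail w)) / 2) := mul_le_mul_of_nonneg_left h4 hM
  have h6 : (((mid z w) 0 : unitInterval) : ℝ) = (((z 0 : unitInterval) : ℝ) + ((w 0 : unitInterval) : ℝ)) / 2 := rfl
  rw [h6]
  linarith

theorem G_anti {L : Set (X (n + 1))} (hL : IsClosed L) (hne : L.Nonempty) (hlow : IsLowerSet L)
    {M : ℝ} (hM : 0 ≤ M) : Antitone (G L M) := by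
  intro x x' hxx'
  obtain ⟨z, hz, h⟩ := exists_G hL hne M hM x'
  rw [h]
  let z' : X (n + 1) := Fin.cons (z 0) ((Fin.tail z : X n) ⊓ x)
  have hz' : z' ∈ L := by
    apply hlow _ hz
    intro k
    refine Fin.cases ?_ ?_ k
    · exact le_refl _
    · intro j
      show ((Fin.tail z : X n) ⊓ x) j ≤ z j.succ
      exact inf_le_left
  refine le_trans ?_ (le_G hM x hz')
  unfold obj
  have h0 : z' 0 = z 0 := rfl
  have h1 : (Fin.tail z' : X n) = (Fin.tail z : X n) ⊓ x := rfl
  rw [h0, h1]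
  have h2 : dist x ((Fin.tail z : X n) ⊓ x) ≤ dist x' (Fin.tail z) := by
    rw [dist_pi_le_iff dist_nonneg]
    intro k
    refine le_trans ?_ (dist_le_pi_dist x' (Fin.tail z) k)
    have h3 := hxx' k
    rw [Subtype.dist_eq, Subtype.dist_eq, Real.dist_eq, Real.dist_eq]
    show |((x k : unitInterval) : ℝ) - (((Fin.tail z k : unitInterval) ⊓ x k : unitInterval) : ℝ)| ≤ _
    rcases le_total (Fin.tail z k : unitInterval) (x k) with h | h
    · rw [inf_eq_left.2 h]
      have h4 : ((Fin.tail z k : unitInterval) : ℝ) ≤ x k := h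
      have h5 : ((x k : unitInterval) : ℝ) ≤ x' k := h3
      rw [abs_of_nonneg (by linarith), abs_of_nonneg (by linarith)]
      linarith
    · rw [inf_eq_right.2 h]
      simp
  have h3 := mul_le_mul_of_nonneg_left h2 hM
  linarith

/-- The positive part. -/
noncomputable def g (L : Set (X (n + 1))) (M : ℝ) (x : X n) : ℝ := max (G L M x) 0

theorem g_lip {L : Set (X (n + 1))} (hL : IsClosed L) (hne : L.Nonempty) (M : ℝ≥0) :
    LipschitzWith M (g L M) := by
  have := (G_lip hL hne M).max_const 0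
  exact this

theorem g_anti {L : Set (X (n + 1))} (hL : IsClosed L) (hne : L.Nonempty) (hlow : IsLowerSet L)
    {M : ℝ} (hM : 0 ≤ M) : Antitone (g L M) := by
  intro x y hxy
  exact max_le_max (G_anti hL hne hlow hM hxy) le_rfl

theorem G_mono_M {L : Set (X (n + 1))} (hL : IsClosed L) (hne : L.Nonempty)
    {M M' : ℝ} (hM : 0 ≤ M) (hMM : M ≤ M') (x : X n) : G L M' x ≤ G L M x := by
  obtain ⟨z, hz, h⟩ := exists_G hL hne M' (hM.trans hMM) x
  rw [h]
  refine le_trans ?_ (le_G hM x hz)
  unfold obj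
  have := mul_le_mul_of_nonneg_right hMM (dist_nonneg (x := x) (y := (Fin.tail z : X n)))
  linarith

/-- The limit: the length of the fibre. -/
noncomputable def H (L : Set (X (n + 1))) (x : X n) : ℝ := ⨅ m : ℕ, g L m x

theorem g_nonneg (L : Set (X (n + 1))) (M : ℝ) (x : X n) : 0 ≤ g L M x := le_max_right _ _

theorem g_le_one {L : Set (X (n + 1))} (hne : L.Nonempty) {M : ℝ} (hM : 0 ≤ M) (x : X n) :
    g L M x ≤ 1 := max_le (G_le_one hne hM x) zero_le_one

theorem bddBelow_g (L : Set (X (n + 1))) (x : X n) : BddBelow (range fun m : ℕ => g L m x) := by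
  refine ⟨0, ?_⟩
  rintro _ ⟨m, rfl⟩
  exact g_nonneg _ _ _

theorem tendsto_g {L : Set (X (n + 1))} (hL : IsClosed L) (hne : L.Nonempty) (x : X n) :
    Tendsto (fun m : ℕ => g L m x) atTop (𝓝 (H L x)) := by
  apply tendsto_atTop_ciInf _ (bddBelow_g L x)
  intro a b hab
  exact max_le_max (G_mono_M hL hne (by positivity) (by exact_mod_cast hab) x) le_rfl

theorem H_nonneg (L : Set (X (n + 1))) (x : X n) : 0 ≤ H L x := le_ciInf fun m => g_nonneg _ _ _

theorem H_le_one {L : Set (X (n + 1))} (hne : L.Nonempty) (x : X n) : H L x ≤ 1 :=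
  (ciInf_le (bddBelow_g L x) 0).trans (g_le_one hne (by simp) x)

/-- The height as a point of the unit interval. -/
noncomputable def HI {L : Set (X (n + 1))} (hne : L.Nonempty) (x : X n) : unitInterval :=
  ⟨H L x, H_nonneg L x, H_le_one hne x⟩

theorem mem_iff {L : Set (X (n + 1))} (hL : IsClosed L) (hne : L.Nonempty) (hlow : IsLowerSet L)
    (x : X n) (t : unitInterval) (ht : 0 < t) : (Fin.cons t x : X (n + 1)) ∈ L ↔ (t : ℝ) ≤ H L x := by
  constructor
  · intro h
    refine le_ciInf fun m => ?_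
    refine le_trans ?_ (le_max_left _ _)
    refine le_trans ?_ (le_G (by positivity) x h)
    unfold obj
    have h1 : (Fin.tail (Fin.cons t x : X (n + 1)) : X n) = x := by
      exact Fin.tail_cons _ _
    rw [h1, dist_self]
    simp
  · intro h
    have ht' : (0 : ℝ) < t := ht
    have key : ∀ m : ℕ, ∃ y : X n, (Fin.cons t y : X (n + 1)) ∈ L ∧ (m : ℝ) * dist x y ≤ 1 := by
      intro m
      obtain ⟨z, hz, h1⟩ := exists_G hL hne (m : ℝ) (by positivity) x
      have h2 : (t : ℝ) ≤ g L m x := h.trans (ciInf_le (bddBelow_g L x) m)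
      have h3 : (t : ℝ) ≤ G L m x := by
        rcases le_max_iff.1 h2 with h3 | h3
        · exact h3
        · exact absurd h3 (not_le.2 ht')
      rw [h1] at h3
      unfold obj at h3
      have h4 : 0 ≤ (m : ℝ) * dist x (Fin.tail z) := by positivity
      refine ⟨Fin.tail z, ?_, ?_⟩
      · apply hlow _ hz
        intro k
        refine Fin.cases ?_ ?_ k
        · show t ≤ z 0
          have : (t : ℝ) ≤ ((z 0 : unitInterval) : ℝ) := by linarith
          exact this
        · intro j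
          exact le_refl _
      · have := (z 0).2.2
        linarith
    choose y hy hd using key
    have hlim : Tendsto y atTop (𝓝 x) := by
      rw [tendsto_iff_dist_tendsto_zero]
      refine squeeze_zero' (Eventually.of_forall fun _ => dist_nonneg) ?_
        (tendsto_one_div_atTop_nhds_zero_nat (𝕜 := ℝ))
      filter_upwards [eventually_gt_atTop 0] with m hm
      have hm' : (0 : ℝ) < m := by exact_mod_cast hm
      rw [le_div_iff₀ hm', dist_comm, mul_comm]
      exact hd m
    have hlim2 : Tendsto (fun m => (Fin.cons t (y m) : X (n + 1))) atTop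
        (𝓝 (Fin.cons t x : X (n + 1))) := by
      rw [tendsto_pi_nhds]
      intro k
      refine Fin.cases ?_ ?_ k
      · simp
      · intro j
        simp only [Fin.cons_succ]
        exact (tendsto_pi_nhds.1 hlim) j
    exact hL.mem_of_tendsto hlim2 (Eventually.of_forall hy)

theorem Hf_eq {L : Set (X (n + 1))} (hL : IsClosed L) (hne : L.Nonempty) (hlow : IsLowerSet L)
    (x : X n) : Hf L x = H L x := by
  have hs : {t : unitInterval | (Fin.cons t x : X (n + 1)) ∈ L} =ᵐ[volume] Iic (HI hne x) := by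
    have h0 : ∀ᵐ t : unitInterval, t ≠ 0 := by
      have : (volume : Measure unitInterval) {0} = 0 := measure_singleton 0
      rw [ae_iff]
      simpa using this
    filter_upwards [h0] with t ht
    have ht' : 0 < t := lt_of_le_of_ne bot_le (Ne.symm ht)
    apply propext
    exact mem_iff hL hne hlow x t ht'
  unfold Hf
  rw [measure_congr hs, unitInterval.volume_Iic]
  exact ENNReal.toReal_ofReal (H_nonneg L x)

end E1

theorem exists_supconv {n : ℕ} (L : Set (X (n + 1))) (hL : IsClosed L) (hne : L.Nonempty)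
    (hlow : IsLowerSet L) (hmid : ∀ x ∈ L, ∀ y ∈ L, mid x y ∈ L) :
    ∃ g : ℕ → X n → ℝ, (∀ N, ∃ K, LipschitzWith K (g N)) ∧ (∀ N, Rel (g N) (g N) (g N)) ∧
      (∀ N, Antitone (g N)) ∧ (∀ N x, g N x ≤ 1) ∧
      ∀ x, Tendsto (fun N => max (g N x) 0) atTop (𝓝 (Hf L x)) := by
  refine ⟨fun N => E1.G L N, fun N => ⟨N, ?_⟩, fun N => ?_, fun N => ?_, fun N x => ?_, fun x => ?_⟩
  · have := E1.G_lip hL hne (N : ℝ≥0)
    simpa using this
  · exact E1.G_rel hL hne hmid (by positivity)
  · exact E1.G_anti hL hne hlow (by positivity)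
  · exact E1.G_le_one hne (by positivity) x
  · rw [E1.Hf_eq hL hne hlow x]
    exact E1.tendsto_g hL hne x

end Vale.Agent.P254.Unc
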