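import Vale.Agent.P254.Unc.E1Defs

open MeasureTheory Set Filter Topology
open scoped NNReal

namespace Vale.Agent.P254.Unc

variable {n : ℕ}

/-- E1: the limit inequality -/
theorem e1as_lim (h : CX n) {H : X n → ℝ} {g : ℕ → X n → ℝ} (hlip : ∀ N, ∃ K, LipschitzWith K (g N))
    (hrel : ∀ N, Rel (g N) (g N) (g N)) (hanti : ∀ N, Antitone (g N)) (hle : ∀ N x, g N x ≤ 1)
    (hlim : ∀ x, Tendsto (fun N => max (g N x) 0) atTop (𝓝 (H x))) :
    (∫ x, H x ^ 2) * ∏ k : Fin n, (2 * ∫ x : X n, ((x k : unitInterval) : ℝ) * H x) ≤ (∫ x, H x) ^ (n + 2) := by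
  have hc : ∀ N, Continuous (fun x => max (g N x) 0) := fun N => by
    obtain ⟨K, hK⟩ := hlip N
    exact hK.continuous.max continuous_const
  have hb : ∀ N x, |max (g N x) 0| ≤ 1 := by
    intro N x
    rw [abs_of_nonneg (le_max_right _ _)]
    exact max_le (hle N x) zero_le_one
  have h1 : ∀ N, (∫ x, (max (g N x) 0) ^ 2) * ∏ k : Fin n, (2 * ∫ x : X n, ((x k : unitInterval) : ℝ) * max (g N x) 0) ≤
      (∫ x, max (g N x) 0) ^ (n + 2) := by
    intro N
    obtain ⟨K, hK⟩ := hlip N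
    have h2 := h (fun x => max (g N x) 0) (g N) K K ((hanti N).max antitone_const) (fun x => le_max_right _ _)
      (hK.max_const 0) hK (hrel N)
    have e1 : ∀ x, g N x * max (g N x) 0 = (max (g N x) 0) ^ 2 := by
      intro x
      rcases le_total (g N x) 0 with h3 | h3
      · rw [max_eq_right h3]; ring
      · rw [max_eq_left h3]; ring
    simp only [e1] at h2
    rw [← pow_succ] at h2
    exact h2
  have l1 : Tendsto (fun N => ∫ x : X n, max (g N x) 0) atTop (𝓝 (∫ x, H x)) := by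
    refine tendsto_integral_of_dominated_convergence (fun _ => (1 : ℝ)) (fun N => (hc N).aestronglyMeasurable)
      (integrable_const _) (fun N => Eventually.of_forall fun x => ?_) (Eventually.of_forall hlim)
    rw [Real.norm_eq_abs]
    exact hb N x
  have l2 : Tendsto (fun N => ∫ x : X n, (max (g N x) 0) ^ 2) atTop (𝓝 (∫ x, H x ^ 2)) := by
    refine tendsto_integral_of_dominated_convergence (fun _ => (1 : ℝ)) (fun N => ((hc N).pow 2).aestronglyMeasurable)
      (integrable_const _) (fun N => Eventually.of_forall fun x => ?_) (Eventually.of_forall fun x => (hlim x).pow 2)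
    rw [Real.norm_eq_abs, abs_pow]
    exact pow_le_one₀ (abs_nonneg _) (hb N x)
  have l3 : ∀ k : Fin n, Tendsto (fun N => ∫ x : X n, ((x k : unitInterval) : ℝ) * max (g N x) 0) atTop
      (𝓝 (∫ x : X n, ((x k : unitInterval) : ℝ) * H x)) := by
    intro k
    have hck : Continuous (fun x : X n => ((x k : unitInterval) : ℝ)) :=
      continuous_subtype_val.comp (continuous_apply k)
    refine tendsto_integral_of_dominated_convergence (fun _ => (1 : ℝ)) (fun N => (hck.mul (hc N)).aestronglyMeasurable)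
      (integrable_const _) (fun N => Eventually.of_forall fun x => ?_)
      (Eventually.of_forall fun x => (hlim x).const_mul _)
    rw [Real.norm_eq_abs, abs_mul]
    refine mul_le_one₀ ?_ (abs_nonneg _) (hb N x)
    rw [abs_of_nonneg (x k).2.1]
    exact (x k).2.2
  have l4 : Tendsto (fun N => (∫ x : X n, (max (g N x) 0) ^ 2) *
      ∏ k : Fin n, (2 * ∫ x : X n, ((x k : unitInterval) : ℝ) * max (g N x) 0)) atTop
      (𝓝 ((∫ x, H x ^ 2) * ∏ k : Fin n, (2 * ∫ x : X n, ((x k : unitInterval) : ℝ) * H x))) :=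
    l2.mul (tendsto_finsetProd _ fun k _ => (l3 k).const_mul 2)
  exact le_of_tendsto_of_tendsto' l4 (l1.pow (n + 2)) h1

/-- E1: assembly from E1a and E1b -/
theorem unc_succ_of (h : CX n)
    (hsup : ∀ L : Set (X (n + 1)), IsClosed L → L.Nonempty → IsLowerSet L → (∀ x ∈ L, ∀ y ∈ L, mid x y ∈ L) →
      ∃ g : ℕ → X n → ℝ, (∀ N, ∃ K, LipschitzWith K (g N)) ∧ (∀ N, Rel (g N) (g N) (g N)) ∧
      (∀ N, Antitone (g N)) ∧ (∀ N x, g N x ≤ 1) ∧
      ∀ x, Tendsto (fun N => max (g N x) 0) atTop (𝓝 (Hf L x)))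
    (hvol : ∀ L : Set (X (n + 1)), IsClosed L → (volume L).toReal = ∫ x : X n, Hf L x)
    (hzero : ∀ L : Set (X (n + 1)), IsClosed L → IsLowerSet L →
      2 * ∫ p in L, ((p 0 : unitInterval) : ℝ) = ∫ x : X n, Hf L x ^ 2)
    (hsucc : ∀ L : Set (X (n + 1)), IsClosed L → ∀ k : Fin n,
      ∫ p in L, ((p k.succ : unitInterval) : ℝ) = ∫ x : X n, ((x k : unitInterval) : ℝ) * Hf L x) :
    UNC (n + 1) := by
  intro L hL hne hlow hmid
  obtain ⟨g, hlip, hrel, hanti, hle, hlim⟩ := hsup L hL hne hlow hmid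
  have h1 := e1as_lim h hlip hrel hanti hle hlim
  rw [Fin.prod_univ_succ, hzero L hL hlow, hvol L hL]
  simp only [hsucc L hL]
  exact h1

end Vale.Agent.P254.Unc
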