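import Vale.Agent.P254.Unc.Defs2

open MeasureTheory Set Filter Topology
open scoped NNReal

namespace Vale.Agent.P254.Unc

/-- assembly of `UNC (n+1)` from `CX n`, an approximating sequence and the Fubini identities -/
theorem unc_succ_core {n : ℕ} (h : CX n) (L : Set (X (n + 1))) (H : X n → ℝ)
    (g : ℕ → X n → ℝ) (hlip : ∀ N, ∃ K, LipschitzWith K (g N))
    (hrel : ∀ N, Rel (g N) (g N) (g N))
    (hanti : ∀ N, Antitone (g N)) (hle : ∀ N x, g N x ≤ 1)
    (hlim : ∀ x, Tendsto (fun N => max (g N x) 0) atTop (𝓝 (H x)))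
    (hvol : (volume L).toReal = ∫ x, H x)
    (h0 : 2 * ∫ x in L, ((x 0 : unitInterval) : ℝ) = ∫ x, H x ^ 2)
    (hk : ∀ k : Fin n, ∫ x in L, ((x k.succ : unitInterval) : ℝ) =
      ∫ x, ((x k : unitInterval) : ℝ) * H x) :
    ∏ k : Fin (n + 1), (2 * ∫ x in L, ((x k : unitInterval) : ℝ)) ≤
      (volume L).toReal ^ (n + 1 + 1) := by
  set r : ℕ → X n → ℝ := fun N x => max (g N x) 0 with hr
  have hgc : ∀ N, Continuous (g N) := fun N => by
    obtain ⟨K, hK⟩ := hlip N
    exact hK.continuous
  have hrc : ∀ N, Continuous (r N) := fun N => (hgc N).max continuous_const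
  have hr0 : ∀ N x, 0 ≤ r N x := fun N x => le_max_right _ _
  have hr1 : ∀ N x, r N x ≤ 1 := fun N x => max_le (hle N x) zero_le_one
  have hrl : ∀ N, ∃ K, LipschitzWith K (r N) := fun N => by
    obtain ⟨K, hK⟩ := hlip N
    exact ⟨K, hK.max_const 0⟩
  have hra : ∀ N, Antitone (r N) := fun N x y hxy => max_le_max (hanti N hxy) le_rfl
  -- limits
  have l1 : Tendsto (fun N => ∫ x, r N x) atTop (𝓝 (∫ x, H x)) := by
    refine tendsto_integral_of_dominated_convergence (fun _ => 1)
      (fun N => (hrc N).aestronglyMeasurable) (integrable_const _) ?_ ?_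
    · intro N
      refine Eventually.of_forall fun x => ?_
      rw [Real.norm_of_nonneg (hr0 N x)]
      exact hr1 N x
    · exact Eventually.of_forall fun x => hlim x
  have l2 : Tendsto (fun N => ∫ x, r N x ^ 2) atTop (𝓝 (∫ x, H x ^ 2)) := by
    refine tendsto_integral_of_dominated_convergence (fun _ => 1)
      (fun N => ((hrc N).pow 2).aestronglyMeasurable) (integrable_const _) ?_ ?_
    · intro N
      refine Eventually.of_forall fun x => ?_
      have := hr0 N x
      rw [Real.norm_of_nonneg (by positivity)]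
      exact pow_le_one₀ (hr0 N x) (hr1 N x)
    · exact Eventually.of_forall fun x => (hlim x).pow 2
  have l3 : ∀ k : Fin n, Tendsto (fun N => ∫ x, ((x k : unitInterval) : ℝ) * r N x) atTop
      (𝓝 (∫ x, ((x k : unitInterval) : ℝ) * H x)) := by
    intro k
    have hxc : Continuous (fun x : X n => ((x k : unitInterval) : ℝ)) := by fun_prop
    refine tendsto_integral_of_dominated_convergence (fun _ => 1)
      (fun N => (hxc.mul (hrc N)).aestronglyMeasurable) (integrable_const _) ?_ ?_
    · intro N
      refine Eventually.of_forall fun x => ?_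
      rw [Real.norm_of_nonneg (mul_nonneg (x k).2.1 (hr0 N x))]
      exact mul_le_one₀ (x k).2.2 (hr0 N x) (hr1 N x)
    · exact Eventually.of_forall fun x => (hlim x).const_mul _
  -- the inequality for each N
  have key : ∀ N, (∫ x, r N x ^ 2) * ∏ k : Fin n, (2 * ∫ x, ((x k : unitInterval) : ℝ) * r N x) ≤
      (∫ x, r N x) ^ (n + 1 + 1) := by
    intro N
    obtain ⟨K, hK⟩ := hrl N
    obtain ⟨M, hM⟩ := hlip N
    have := h (r N) (g N) K M (hra N) (hr0 N) hK hM (hrel N)
    have e : ∀ x, g N x * r N x = r N x ^ 2 := by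
      intro x
      rcases le_total (g N x) 0 with hx | hx
      · have : r N x = 0 := max_eq_right hx
        rw [this]; ring
      · have : r N x = g N x := max_eq_left hx
        rw [this]; ring
    simp only [e] at this
    rw [pow_succ (∫ x, r N x) (n + 1)]
    exact this
  have lim := le_of_tendsto_of_tendsto'
    (l2.mul (tendsto_finsetProd Finset.univ (fun k _ => (l3 k).const_mul 2))) (l1.pow (n + 1 + 1)) key
  rw [Fin.prod_univ_succ, h0, hvol]
  simp only [hk]
  exact lim

end Vale.Agent.P254.Unc
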