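import Vale.Agent.P254.Unc.Defs

/-! P254 (UNCOND), block E1 (helper232): `UNC (n+1)` from `CX n`, with the single approximating
function `gN x = sup over z in L of (z 0 - N dist x (tail z))`. -/

open MeasureTheory Set Filter Topology
open scoped NNReal

namespace Vale.Agent.P254.Unc.E1w

variable {n : ℕ}

/-- the penalised height -/
noncomputable def ph (N : ℕ) (x : X n) (z : X (n + 1)) : ℝ :=
  ((z 0 : unitInterval) : ℝ) - N * dist x (Fin.tail z)

/-- sup-convolution of the fibre height -/
noncomputable def gN (L : Set (X (n + 1))) (N : ℕ) (x : X n) : ℝ := ⨆ z : L, ph N x z.1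

theorem continuous_tail : Continuous (fun z : X (n + 1) => (Fin.tail z : X n)) :=
  continuous_pi (fun j => continuous_apply j.succ)

theorem continuous_ph (N : ℕ) (x : X n) : Continuous (ph N x) := by
  unfold ph
  exact (continuous_subtype_val.comp (continuous_apply 0)).sub
    (continuous_const.mul (continuous_const.dist continuous_tail))

theorem ph_le (N : ℕ) (x : X n) (z : X (n + 1)) : ph N x z ≤ ((z 0 : unitInterval) : ℝ) := by
  unfold ph
  have : 0 ≤ (N : ℝ) * dist x (Fin.tail z) := by positivity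
  linarith

theorem ph_le_one (N : ℕ) (x : X n) (z : X (n + 1)) : ph N x z ≤ 1 :=
  (ph_le N x z).trans (z 0).2.2

theorem bdd (L : Set (X (n + 1))) (N : ℕ) (x : X n) :
    BddAbove (range (fun z : L => ph N x z.1)) :=
  ⟨1, by rintro _ ⟨z, rfl⟩; exact ph_le_one N x z.1⟩

theorem le_gN {L : Set (X (n + 1))} (N : ℕ) (x : X n) {z : X (n + 1)} (hz : z ∈ L) :
    ph N x z ≤ gN L N x :=
  le_ciSup (bdd L N x) (⟨z, hz⟩ : L)

theorem gN_le {L : Set (X (n + 1))} (hne : L.Nonempty) (N : ℕ) (x : X n) {c : ℝ}
    (h : ∀ z ∈ L, ph N x z ≤ c) : gN L N x ≤ c := by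
  have : Nonempty L := hne.to_subtype
  exact ciSup_le (fun z => h z.1 z.2)

theorem exists_gN {L : Set (X (n + 1))} (hL : IsClosed L) (hne : L.Nonempty) (N : ℕ) (x : X n) :
    ∃ z ∈ L, gN L N x = ph N x z := by
  obtain ⟨z, hz, hm⟩ := hL.isCompact.exists_isMaxOn hne (continuous_ph N x).continuousOn
  exact ⟨z, hz, le_antisymm (gN_le hne N x (fun w hw => hm hw)) (le_gN N x hz)⟩

theorem gN_lip {L : Set (X (n + 1))} (hne : L.Nonempty) (N : ℕ) :
    LipschitzWith (N : ℝ≥0) (gN L N) := by
  refine LipschitzWith.of_le_add_mul (N : ℝ≥0) (fun x y => ?_)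
  refine gN_le hne N x (fun z hz => ?_)
  have h1 := le_gN (L := L) N y hz
  have h2 := dist_triangle y x (Fin.tail z)
  have h3 : (N : ℝ) * dist y (Fin.tail z) ≤ N * (dist y x + dist x (Fin.tail z)) :=
    mul_le_mul_of_nonneg_left h2 (Nat.cast_nonneg _)
  unfold ph at h1 ⊢
  rw [dist_comm y x] at h3
  have h4 : ((N : ℝ≥0) : ℝ) = (N : ℝ) := by simp
  rw [h4]
  linarith

theorem mid1_dist (a b c d : unitInterval) :
    dist (mid1 a b) (mid1 c d) ≤ (dist a c + dist b d) / 2 := by
  rw [Subtype.dist_eq, Subtype.dist_eq, Subtype.dist_eq, Real.dist_eq, Real.dist_eq, Real.dist_eq]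
  have h : ((mid1 a b : unitInterval) : ℝ) - (mid1 c d : unitInterval) =
      (((a : ℝ) - c) + ((b : ℝ) - d)) / 2 := by
    simp only [mid1]; ring
  rw [h, abs_div, abs_two]
  have := abs_add_le ((a : ℝ) - c) ((b : ℝ) - d)
  linarith

theorem mid_dist (a b c d : X n) : dist (mid a b) (mid c d) ≤ (dist a c + dist b d) / 2 := by
  rw [dist_pi_le_iff (by positivity)]
  intro k
  refine (mid1_dist _ _ _ _).trans ?_
  have h1 := dist_le_pi_dist a c k
  have h2 := dist_le_pi_dist b d k
  linarith

theorem gN_rel {L : Set (X (n + 1))} (hL : IsClosed L) (hne : L.Nonempty)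
    (hmid : ∀ x ∈ L, ∀ y ∈ L, mid x y ∈ L) (N : ℕ) : Rel (gN L N) (gN L N) (gN L N) := by
  intro x y
  obtain ⟨z, hz, h1⟩ := exists_gN hL hne N x
  obtain ⟨w, hw, h2⟩ := exists_gN hL hne N y
  refine le_trans ?_ (le_gN N (mid x y) (hmid z hz w hw))
  rw [h1, h2]
  unfold ph
  have h3 : (Fin.tail (mid z w) : X n) = mid (Fin.tail z) (Fin.tail w) := rfl
  have h4 : ((mid z w 0 : unitInterval) : ℝ) = (((z 0 : unitInterval) : ℝ) + (w 0 : unitInterval)) / 2 :=
    rfl
  rw [h3, h4]
  have h5 := mid_dist x y (Fin.tail z) (Fin.tail w)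
  have h6 : (N : ℝ) * dist (mid x y) (mid (Fin.tail z) (Fin.tail w)) ≤
      N * ((dist x (Fin.tail z) + dist y (Fin.tail w)) / 2) :=
    mul_le_mul_of_nonneg_left h5 (Nat.cast_nonneg _)
  linarith

theorem gN_anti {L : Set (X (n + 1))} (hne : L.Nonempty) (hlow : IsLowerSet L) (N : ℕ) :
    Antitone (gN L N) := by
  intro x x' hx
  refine gN_le hne N x' (fun z hz => ?_)
  set y : X n := fun k => ⟨max 0 ((x k : ℝ) + (z k.succ : unitInterval) - (x' k : unitInterval)), by
    constructor
    · exact le_max_left _ _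
    · refine max_le zero_le_one ?_
      have h1 : ((x k : unitInterval) : ℝ) ≤ (x' k : unitInterval) := hx k
      have h2 := (z k.succ).2.2
      linarith⟩ with hy
  have hyz : ∀ k, y k ≤ z k.succ := by
    intro k
    have h1 : ((x k : unitInterval) : ℝ) ≤ (x' k : unitInterval) := hx k
    have h2 := (z k.succ).2.1
    show max 0 _ ≤ ((z k.succ : unitInterval) : ℝ)
    exact max_le h2 (by linarith)
  have hw : (Fin.cons (z 0) y : X (n + 1)) ∈ L := by
    refine hlow ?_ hz
    intro k
    refine Fin.cases ?_ (fun j => ?_) k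
    · simp
    · simpa using hyz j
  refine le_trans ?_ (le_gN N x hw)
  have hd : dist x y ≤ dist x' (Fin.tail z) := by
    rw [dist_pi_le_iff dist_nonneg]
    intro k
    refine le_trans ?_ (dist_le_pi_dist x' (Fin.tail z) k)
    rw [Subtype.dist_eq, Subtype.dist_eq, Real.dist_eq, Real.dist_eq]
    have h1 : ((x k : unitInterval) : ℝ) ≤ (x' k : unitInterval) := hx k
    have h2 := (x k).2.1
    have h3 : ((Fin.tail z k : unitInterval) : ℝ) = (z k.succ : unitInterval) := rfl
    rw [h3]
    show |((x k : unitInterval) : ℝ) - max 0 ((x k : ℝ) + (z k.succ : unitInterval) -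
      (x' k : unitInterval))| ≤ _
    rcases le_total 0 ((x k : ℝ) + (z k.succ : unitInterval) - (x' k : unitInterval)) with h | h
    · rw [max_eq_right h]
      apply le_of_eq
      congr 1
      ring
    · rw [max_eq_left h, sub_zero, abs_of_nonneg h2]
      refine le_trans ?_ (le_abs_self _)
      linarith
  unfold ph
  have h0 : ((Fin.cons (z 0) y : X (n + 1)) 0) = z 0 := rfl
  have ht : (Fin.tail (Fin.cons (z 0) y : X (n + 1)) : X n) = y := by
    simp
  rw [h0, ht]
  have h6 : (N : ℝ) * dist x y ≤ N * dist x' (Fin.tail z) :=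
    mul_le_mul_of_nonneg_left hd (Nat.cast_nonneg _)
  linarith

/-- the fibre -/
def fib (L : Set (X (n + 1))) (x : X n) : Set unitInterval := {s | (Fin.cons s x : X (n + 1)) ∈ L}

/-- the fibre height -/
noncomputable def ht (L : Set (X (n + 1))) (x : X n) : ℝ := (volume (fib L x)).toReal

theorem continuous_cons (x : X n) : Continuous (fun s : unitInterval => (Fin.cons s x : X (n + 1))) := by
  refine continuous_pi (fun k => ?_)
  refine Fin.cases ?_ (fun j => ?_) k
  · simp only [Fin.cons_zero]
    exact continuous_id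
  · simp only [Fin.cons_succ]
    exact continuous_const

theorem fib_closed {L : Set (X (n + 1))} (hL : IsClosed L) (x : X n) : IsClosed (fib L x) :=
  hL.preimage (continuous_cons x)

theorem fib_lower {L : Set (X (n + 1))} (hlow : IsLowerSet L) (x : X n) : IsLowerSet (fib L x) := by
  intro a b hba ha
  refine hlow ?_ ha
  intro k
  refine Fin.cases ?_ (fun j => ?_) k
  · simpa using hba
  · simp

theorem fib_eq {L : Set (X (n + 1))} (hL : IsClosed L) (hlow : IsLowerSet L) (x : X n)
    (hne : (fib L x).Nonempty) : ∃ a ∈ fib L x, fib L x = Iic a := by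
  obtain ⟨a, ha⟩ := (fib_closed hL x).isCompact.exists_isGreatest hne
  refine ⟨a, ha.1, ?_⟩
  ext s
  exact ⟨fun hs => ha.2 hs, fun hs => fib_lower hlow x hs ha.1⟩

theorem vol_Iic (a : unitInterval) : (volume (Iic a)).toReal = (a : ℝ) := by
  rw [unitInterval.volume_Iic, ENNReal.toReal_ofReal a.2.1]

theorem int_Iic (a : unitInterval) : ∫ s in Iic a, ((s : unitInterval) : ℝ) = (a : ℝ) ^ 2 / 2 := by
  rw [← integral_indicator measurableSet_Iic]
  have h1 : ∀ s : unitInterval, (Iic a).indicator (fun s : unitInterval => (s : ℝ)) s =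
      (Iic (a : ℝ)).indicator (fun x : ℝ => x) (s : ℝ) := by
    intro s
    by_cases h : s ≤ a
    · rw [indicator_of_mem (show s ∈ Iic a from h),
        indicator_of_mem (show (s : ℝ) ∈ Iic (a : ℝ) from h)]
    · rw [indicator_of_notMem (show s ∉ Iic a from h),
        indicator_of_notMem (show (s : ℝ) ∉ Iic (a : ℝ) from h)]
  simp_rw [h1]
  have h2 := integral_subtype_comap (μ := (volume : Measure ℝ)) (s := Icc (0 : ℝ) 1)
    measurableSet_Icc ((Iic (a : ℝ)).indicator (fun x : ℝ => x))
  refine h2.trans ?_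
  rw [setIntegral_indicator measurableSet_Iic]
  have h3 : Icc (0 : ℝ) 1 ∩ Iic (a : ℝ) = Icc 0 (a : ℝ) := by
    ext x
    constructor
    · rintro ⟨h1, h2⟩; exact ⟨h1.1, h2⟩
    · rintro ⟨h1, h2⟩; exact ⟨⟨h1, h2.trans a.2.2⟩, h2⟩
  rw [h3, integral_Icc_eq_integral_Ioc, ← intervalIntegral.integral_of_le a.2.1, integral_id]
  ring

theorem int_fib {L : Set (X (n + 1))} (hL : IsClosed L) (hlow : IsLowerSet L) (x : X n) :
    ∫ s in fib L x, ((s : unitInterval) : ℝ) = ht L x ^ 2 / 2 := by
  rcases (fib L x).eq_empty_or_nonempty with h | h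
  · simp [ht, h]
  · obtain ⟨a, _, ha⟩ := fib_eq hL hlow x h
    rw [ht, ha, int_Iic, vol_Iic]

theorem ht_nonneg (L : Set (X (n + 1))) (x : X n) : 0 ≤ ht L x := ENNReal.toReal_nonneg

theorem ht_le {L : Set (X (n + 1))} (hL : IsClosed L) (hlow : IsLowerSet L) (N : ℕ) (x : X n) :
    ht L x ≤ max (gN L N x) 0 := by
  rcases (fib L x).eq_empty_or_nonempty with h | h
  · simp [ht, h]
  · obtain ⟨a, ha1, ha⟩ := fib_eq hL hlow x h
    rw [ht, ha, vol_Iic]
    refine le_trans ?_ (le_max_left _ _)
    refine le_trans ?_ (le_gN N x ha1)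
    unfold ph
    simp

theorem tendsto_ht {L : Set (X (n + 1))} (hL : IsClosed L) (hne : L.Nonempty)
    (hlow : IsLowerSet L) (x : X n) :
    Tendsto (fun N : ℕ => max (gN L N x) 0) atTop (𝓝 (ht L x)) := by
  rw [Metric.tendsto_atTop]
  intro ε hε
  set L' : Set (X (n + 1)) := L ∩ {z | ht L x + ε / 2 ≤ ((z 0 : unitInterval) : ℝ)} with hL'
  have hcl : IsClosed L' := hL.inter
    (isClosed_le continuous_const (continuous_subtype_val.comp (continuous_apply 0)))
  have hkey : ∃ N0 : ℕ, ∀ N ≥ N0, ∀ z ∈ L', ph N x z ≤ 0 := by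
    rcases L'.eq_empty_or_nonempty with h | h
    · exact ⟨0, fun N _ z hz => by rw [h] at hz; exact absurd hz (by simp)⟩
    · obtain ⟨z0, hz0, hm⟩ := hcl.isCompact.exists_isMinOn h
        ((continuous_const.dist continuous_tail : Continuous
          (fun z : X (n + 1) => dist x (Fin.tail z))).continuousOn)
      have hpos : 0 < dist x (Fin.tail z0) := by
        rw [dist_pos]
        intro heq
        have h1 : z0 0 ∈ fib L x := by
          show (Fin.cons (z0 0) x : X (n + 1)) ∈ L
          rw [heq]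
          have : (Fin.cons (z0 0) (Fin.tail z0) : X (n + 1)) = z0 := Fin.cons_self_tail z0
          rw [this]
          exact hz0.1
        have h2 : Iic (z0 0) ⊆ fib L x := fun s hs => fib_lower hlow x hs h1
        have h3 : ((z0 0 : unitInterval) : ℝ) ≤ ht L x := by
          rw [← vol_Iic, ht]
          exact ENNReal.toReal_mono (measure_ne_top _ _) (measure_mono h2)
        have h4 : ht L x + ε / 2 ≤ ((z0 0 : unitInterval) : ℝ) := hz0.2
        linarith
      obtain ⟨N0, hN0⟩ := exists_nat_gt (1 / dist x (Fin.tail z0))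
      refine ⟨N0, fun N hN z hz => ?_⟩
      have h1 : dist x (Fin.tail z0) ≤ dist x (Fin.tail z) := hm hz
      have h2 : (N0 : ℝ) ≤ N := by exact_mod_cast hN
      have h3 : 1 < (N0 : ℝ) * dist x (Fin.tail z0) := by
        rwa [div_lt_iff₀ hpos] at hN0
      have h4 : (N0 : ℝ) * dist x (Fin.tail z0) ≤ N * dist x (Fin.tail z) :=
        mul_le_mul h2 h1 dist_nonneg (Nat.cast_nonneg _)
      unfold ph
      linarith [(z 0).2.2]
  obtain ⟨N0, hN0⟩ := hkey
  refine ⟨N0, fun N hN => ?_⟩
  have h1 := ht_le hL hlow N x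
  have h0 := ht_nonneg L x
  have h2 : max (gN L N x) 0 ≤ ht L x + ε / 2 := by
    refine max_le ?_ (by linarith)
    refine gN_le hne N x (fun z hz => ?_)
    by_cases hz' : ht L x + ε / 2 ≤ ((z 0 : unitInterval) : ℝ)
    · exact (hN0 N hN z ⟨hz, hz'⟩).trans (by linarith)
    · rw [not_le] at hz'
      exact (ph_le N x z).trans hz'.le
  rw [Real.dist_eq, abs_of_nonneg (by linarith)]
  linarith

/-! ### Fubini -/

theorem fub {L : Set (X (n + 1))} (hL : IsClosed L) (f : X (n + 1) → ℝ) (hf : Continuous f) :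
    ∫ z in L, f z = ∫ x : X n, ∫ s in fib L x, f (Fin.cons s x) := by
  have hm : MeasurableSet L := hL.measurableSet
  rw [← integral_indicator hm]
  set e := MeasurableEquiv.piFinSuccAbove (fun _ : Fin (n + 1) => unitInterval) 0 with he
  have hp := volume_preserving_piFinSuccAbove (fun _ : Fin (n + 1) => unitInterval) 0
  set g : unitInterval × X n → ℝ := fun y => L.indicator f (Fin.cons y.1 y.2) with hg
  have hge : ∀ z : X (n + 1), g (e z) = L.indicator f z := by
    intro z
    show L.indicator f (Fin.cons (z 0) (fun j => z (Fin.succAbove 0 j))) = _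
    congr 1
    funext k
    refine Fin.cases ?_ (fun j => ?_) k
    · simp
    · simp
  have h1 : ∫ z : X (n + 1), L.indicator f z = ∫ y : unitInterval × X n, g y := by
    have h2 := hp.integral_comp' (g := g)
    rw [← h2]
    exact integral_congr_ae (Eventually.of_forall (fun z => (hge z).symm))
  rw [h1]
  have hcc : Continuous (fun y : unitInterval × X n => (Fin.cons y.1 y.2 : X (n + 1))) := by
    refine continuous_pi (fun k => ?_)
    refine Fin.cases ?_ (fun j => ?_) k
    · simp only [Fin.cons_zero]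
      exact continuous_fst
    · simp only [Fin.cons_succ]
      exact (continuous_apply j).comp continuous_snd
  have hint : Integrable g (volume : Measure (unitInterval × X n)) := by
    obtain ⟨B, hB⟩ := isCompact_univ.exists_bound_of_continuousOn (f := f) hf.continuousOn
    refine Integrable.of_bound (C := B) ?_ ?_
    · exact ((hf.measurable.indicator hm).comp hcc.measurable).aestronglyMeasurable
    · refine Eventually.of_forall (fun y => ?_)
      simp only [hg]
      exact (norm_indicator_le_norm_self f _).trans (hB _ (mem_univ _))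
  rw [Measure.volume_eq_prod, integral_prod_symm _ (by rwa [← Measure.volume_eq_prod])]
  refine integral_congr_ae (Eventually.of_forall (fun x => ?_))
  show ∫ s : unitInterval, L.indicator f (Fin.cons s x) = ∫ s in fib L x, f (Fin.cons s x)
  rw [← integral_indicator (fib_closed hL x).measurableSet]
  refine integral_congr_ae (Eventually.of_forall (fun s => ?_))
  show L.indicator f (Fin.cons s x) = (fib L x).indicator (fun s => f (Fin.cons s x)) s
  by_cases h : (Fin.cons s x : X (n + 1)) ∈ L
  · rw [indicator_of_mem h, indicator_of_mem (show s ∈ fib L x from h)]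
  · rw [indicator_of_notMem h, indicator_of_notMem (show s ∉ fib L x from h)]

theorem vol_eq {L : Set (X (n + 1))} (hL : IsClosed L) :
    (volume L).toReal = ∫ x : X n, ht L x := by
  have h := fub hL (fun _ => (1 : ℝ)) continuous_const
  simp only [integral_const, smul_eq_mul, mul_one, measureReal_restrict_apply_univ] at h
  exact h

theorem tail_eq {L : Set (X (n + 1))} (hL : IsClosed L) (k : Fin n) :
    ∫ z in L, ((z k.succ : unitInterval) : ℝ) = ∫ x : X n, ((x k : unitInterval) : ℝ) * ht L x := by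
  rw [fub hL (fun z => ((z k.succ : unitInterval) : ℝ))
    (continuous_subtype_val.comp (continuous_apply _))]
  refine integral_congr_ae (Eventually.of_forall (fun x => ?_))
  simp only [Fin.cons_succ, integral_const, smul_eq_mul, measureReal_restrict_apply_univ]
  rw [mul_comm]
  rfl

theorem head_eq {L : Set (X (n + 1))} (hL : IsClosed L) (hlow : IsLowerSet L) :
    ∫ z in L, ((z 0 : unitInterval) : ℝ) = (∫ x : X n, ht L x ^ 2) / 2 := by
  rw [fub hL (fun z => ((z 0 : unitInterval) : ℝ))
    (continuous_subtype_val.comp (continuous_apply _)), ← integral_div]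
  refine integral_congr_ae (Eventually.of_forall (fun x => ?_))
  simp only [Fin.cons_zero]
  exact int_fib hL hlow x

/-! ### The limit -/

theorem rho_le_one {L : Set (X (n + 1))} (hne : L.Nonempty) (N : ℕ) (x : X n) :
    max (gN L N x) 0 ≤ 1 :=
  max_le (gN_le hne N x (fun z _ => ph_le_one N x z)) zero_le_one

theorem rho_cont {L : Set (X (n + 1))} (hne : L.Nonempty) (N : ℕ) :
    Continuous (fun x : X n => max (gN L N x) 0) :=
  (gN_lip hne N).continuous.max continuous_const

theorem lim_sq {L : Set (X (n + 1))} (hL : IsClosed L) (hne : L.Nonempty) (hlow : IsLowerSet L) :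
    Tendsto (fun N : ℕ => ∫ x : X n, (max (gN L N x) 0) ^ 2) atTop (𝓝 (∫ x : X n, ht L x ^ 2)) := by
  refine tendsto_integral_of_dominated_convergence (fun _ => (1 : ℝ))
    (fun N => ((rho_cont hne N).pow 2).aestronglyMeasurable) (integrable_const _) ?_ ?_
  · intro N
    refine Eventually.of_forall (fun x => ?_)
    have h1 := rho_le_one hne N x
    have h0 : 0 ≤ max (gN L N x) 0 := le_max_right _ _
    rw [Real.norm_of_nonneg (by positivity)]
    exact pow_le_one₀ h0 h1
  · exact Eventually.of_forall (fun x => (tendsto_ht hL hne hlow x).pow 2)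

theorem lim_w {L : Set (X (n + 1))} (hL : IsClosed L) (hne : L.Nonempty) (hlow : IsLowerSet L)
    (w : X n → ℝ) (hw : Continuous w) (hw1 : ∀ x, |w x| ≤ 1) :
    Tendsto (fun N : ℕ => ∫ x : X n, w x * max (gN L N x) 0) atTop
      (𝓝 (∫ x : X n, w x * ht L x)) := by
  refine tendsto_integral_of_dominated_convergence (fun _ => (1 : ℝ))
    (fun N => (hw.mul (rho_cont hne N)).aestronglyMeasurable) (integrable_const _) ?_ ?_
  · intro N
    refine Eventually.of_forall (fun x => ?_)
    have h1 := rho_le_one hne N x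
    have h0 : 0 ≤ max (gN L N x) 0 := le_max_right _ _
    rw [norm_mul, Real.norm_eq_abs, Real.norm_of_nonneg h0]
    exact mul_le_one₀ (hw1 x) h0 h1
  · exact Eventually.of_forall (fun x => (tendsto_ht hL hne hlow x).const_mul _)

theorem lim_one {L : Set (X (n + 1))} (hL : IsClosed L) (hne : L.Nonempty) (hlow : IsLowerSet L) :
    Tendsto (fun N : ℕ => ∫ x : X n, max (gN L N x) 0) atTop (𝓝 (∫ x : X n, ht L x)) := by
  have h := lim_w hL hne hlow (fun _ => (1 : ℝ)) continuous_const (fun _ => by simp)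
  simpa using h

theorem unc_succ_w (n : ℕ) (h : CX n) : UNC (n + 1) := by
  intro L hL hne hlow hmid
  rw [Fin.prod_univ_succ, head_eq hL hlow, vol_eq hL]
  simp only [tail_eq hL]
  have hN : ∀ N : ℕ, (∫ x : X n, (max (gN L N x) 0) ^ 2) *
      ∏ k : Fin n, (2 * ∫ x : X n, ((x k : unitInterval) : ℝ) * max (gN L N x) 0) ≤
      (∫ x : X n, max (gN L N x) 0) ^ (n + 1) * ∫ x : X n, max (gN L N x) 0 := by
    intro N
    have h1 := h (fun x => max (gN L N x) 0) (gN L N) N N
      ((gN_anti hne hlow N).max antitone_const) (fun x => le_max_right _ _)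
      ((gN_lip hne N).max_const 0) (gN_lip hne N) (gN_rel hL hne hmid N)
    have h2 : ∀ x : X n, gN L N x * max (gN L N x) 0 = (max (gN L N x) 0) ^ 2 := by
      intro x
      rcases le_total (gN L N x) 0 with h3 | h3
      · rw [max_eq_right h3]; ring
      · rw [max_eq_left h3]; ring
    simp only [h2] at h1
    exact h1
  have l1 := lim_sq hL hne hlow
  have l2 : ∀ k : Fin n, Tendsto (fun N : ℕ =>
      ∫ x : X n, ((x k : unitInterval) : ℝ) * max (gN L N x) 0) atTop
      (𝓝 (∫ x : X n, ((x k : unitInterval) : ℝ) * ht L x)) := by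
    intro k
    refine lim_w hL hne hlow (fun x => ((x k : unitInterval) : ℝ))
      (continuous_subtype_val.comp (continuous_apply k)) (fun x => ?_)
    rw [abs_of_nonneg (x k).2.1]
    exact (x k).2.2
  have l3 := lim_one hL hne hlow
  have l4 := l1.mul (tendsto_finsetProd Finset.univ (fun k _ => (l2 k).const_mul (2 : ℝ)))
  have l5 := (l3.pow (n + 1)).mul l3
  have h5 := le_of_tendsto_of_tendsto' l4 l5 hN
  calc 2 * ((∫ x : X n, ht L x ^ 2) / 2) *
        ∏ k : Fin n, (2 * ∫ x : X n, ((x k : unitInterval) : ℝ) * ht L x)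
      = (∫ x : X n, ht L x ^ 2) *
        ∏ k : Fin n, (2 * ∫ x : X n, ((x k : unitInterval) : ℝ) * ht L x) := by ring
    _ ≤ (∫ x : X n, ht L x) ^ (n + 1) * ∫ x : X n, ht L x := h5
    _ = (∫ x : X n, ht L x) ^ (n + 1 + 1) := by ring

end Vale.Agent.P254.Unc.E1w
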