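import Mathlib

namespace Vale.Agent.P254.Unc

theorem num_aux (m : ℕ) (hm : 3 ≤ m) : (m + 1) ^ (2 * m + 1) ≤ 8 * m ^ (2 * m + 1) := by
  rcases Nat.lt_or_ge m 13 with h | h
  · interval_cases m <;> norm_num
  · have hm0 : (0 : ℝ) < m := by exact_mod_cast (show 0 < m by omega)
    have h13 : (13 : ℝ) ≤ m := by exact_mod_cast h
    have h1 : (1 + 1 / (m : ℝ)) ^ (2 * m + 1) ≤ Real.exp (27 / 13) := by
      have h2 : 1 + 1 / (m : ℝ) ≤ Real.exp (1 / m) := by
        have := Real.add_one_le_exp (1 / (m : ℝ))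
        linarith
      calc (1 + 1 / (m : ℝ)) ^ (2 * m + 1) ≤ (Real.exp (1 / m)) ^ (2 * m + 1) :=
            pow_le_pow_left₀ (by positivity) h2 _
        _ = Real.exp (((2 * m + 1 : ℕ) : ℝ) * (1 / m)) := (Real.exp_nat_mul _ _).symm
        _ ≤ Real.exp (27 / 13) := by
            apply Real.exp_le_exp.2
            rw [mul_one_div, div_le_div_iff₀ hm0 (by norm_num)]
            push_cast
            linarith
    have h3 : Real.exp (27 / 13) ≤ 8 := by
      have h4 : Real.exp (27 / 13) ^ 13 ≤ 8 ^ 13 := by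
        rw [← Real.exp_nat_mul]
        have : ((13 : ℕ) : ℝ) * (27 / 13) = ((27 : ℕ) : ℝ) * 1 := by norm_num
        rw [this, Real.exp_nat_mul]
        have he := Real.exp_one_lt_d9
        calc Real.exp 1 ^ 27 ≤ (2.7182818286 : ℝ) ^ 27 :=
              pow_le_pow_left₀ (Real.exp_pos 1).le he.le _
          _ ≤ 8 ^ 13 := by norm_num
      exact le_of_pow_le_pow_left₀ (by norm_num) (by norm_num) h4
    have h5 : ((m + 1 : ℕ) : ℝ) ^ (2 * m + 1) ≤ 8 * (m : ℝ) ^ (2 * m + 1) := by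
      have : ((m + 1 : ℕ) : ℝ) = (1 + 1 / (m : ℝ)) * m := by
        push_cast
        field_simp
      rw [this, mul_pow]
      exact mul_le_mul_of_nonneg_right (h1.trans h3) (by positivity)
    exact_mod_cast h5

/-- F2 -/
theorem num_ineq (n : ℕ) (hn : 2 ≤ n) :
    (n + 1) ^ (2 * n + 1) < 8 ^ n * (n.factorial) ^ 2 := by
  induction n, hn using Nat.le_induction with
  | base => norm_num [Nat.factorial]
  | succ n hn ih =>
    have h := num_aux (n + 1) (by omega)
    calc (n + 1 + 1) ^ (2 * (n + 1) + 1) ≤ 8 * (n + 1) ^ (2 * (n + 1) + 1) := h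
      _ = 8 * (n + 1) ^ 2 * (n + 1) ^ (2 * n + 1) := by ring
      _ < 8 * (n + 1) ^ 2 * (8 ^ n * (n.factorial) ^ 2) :=
          Nat.mul_lt_mul_of_pos_left ih (by positivity)
      _ = 8 ^ (n + 1) * ((n + 1).factorial) ^ 2 := by
          rw [Nat.factorial_succ]; ring

end Vale.Agent.P254.Unc
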