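import Mathlib

/-!
# Projection onto an intersection of closed convex sets preserves a closed convex set
which is preserved by the single projections (abstract Hilbert space part of P254, UNCOND)

Setting.  `E` is a real inner product space, `C k` (`k : ι`, finite) are sets, `P k : E → E` are
maps with `P k u ∈ C k` and the variational inequality `⟪u - P k u, v - P k u⟫ ≤ 0` for
`v ∈ C k` (so `P k` is the metric projection on `C k`).  `KK` is a complete convex set with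
`P k u ∈ KK` for `u ∈ KK`.

For `lam > 0` and `psi ∈ KK` the map `u ↦ (psi + lam ∑ P k u) / (1 + n lam)` is a contraction of
`KK`; its fixed point `u` satisfies `psi - u = lam ∑ (u - P k u)` and

* `hil_strong`  : `|v-psi|² + lam ∑|v-P k v|² ≥ |u-psi|² + lam ∑|u-P k u|² + |v-u|²` for all `v`;
* `hil_strong'` : `|v-psi|² ≥ |u-psi|² + 2 lam ∑|u-P k u|² + |v-u|²` for all `v ∈ ⋂ C k`;
* `hil_main`    : there is `u ∈ KK ∩ ⋂ C k` with `⟪psi - u, v - u⟫ ≤ 0` for all `v ∈ ⋂ C k`.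
-/

open scoped RealInnerProductSpace
open Filter Topology

namespace Vale.Agent.P254.Unc.Hil

variable {E : Type*} [NormedAddCommGroup E] [InnerProductSpace ℝ E]

/-- a map with the variational inequality is nonexpansive -/
theorem hil_nonexp {A : Set E} {Q : E → E} (hmem : ∀ u, Q u ∈ A)
    (hvar : ∀ u, ∀ v ∈ A, ⟪u - Q u, v - Q u⟫ ≤ 0) (u v : E) :
    ‖Q u - Q v‖ ≤ ‖u - v‖ := by
  have h1 := hvar u (Q v) (hmem v)
  have h2 := hvar v (Q u) (hmem u)
  have key : ‖Q u - Q v‖ ^ 2 ≤ ⟪u - v, Q u - Q v⟫ := by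
    have e : ⟪u - v, Q u - Q v⟫ - ‖Q u - Q v‖ ^ 2
        = -⟪u - Q u, Q v - Q u⟫ - ⟪v - Q v, Q u - Q v⟫ := by
      rw [← real_inner_self_eq_norm_sq]
      simp only [inner_sub_left, inner_sub_right]
      ring
    linarith
  have h3 := real_inner_le_norm (u - v) (Q u - Q v)
  by_contra hlt
  push Not at hlt
  have hpos : 0 < ‖Q u - Q v‖ := lt_of_le_of_lt (norm_nonneg _) hlt
  nlinarith [norm_nonneg (u - v)]

/-- convexity of the squared distance, with the quadratic remainder dropped -/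
theorem hil_sq {A : Set E} {Q : E → E} (hmem : ∀ u, Q u ∈ A)
    (hvar : ∀ u, ∀ v ∈ A, ⟪u - Q u, v - Q u⟫ ≤ 0) (u v : E) :
    ‖u - Q u‖ ^ 2 + 2 * ⟪v - u, u - Q u⟫ ≤ ‖v - Q v‖ ^ 2 := by
  have h1 := hvar u (Q v) (hmem v)
  have h2 : 0 ≤ ‖(v - Q v) - (u - Q u)‖ ^ 2 := sq_nonneg _
  have e : ‖v - Q v‖ ^ 2 - ‖u - Q u‖ ^ 2 - 2 * ⟪v - u, u - Q u⟫
      = ‖(v - Q v) - (u - Q u)‖ ^ 2 - 2 * ⟪u - Q u, Q v - Q u⟫ := by
    simp only [← real_inner_self_eq_norm_sq]
    simp only [inner_sub_left, inner_sub_right]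
    rw [real_inner_comm (Q u) u, real_inner_comm (Q v) u, real_inner_comm (Q u) v,
      real_inner_comm (Q v) v, real_inner_comm u v, real_inner_comm (Q v) (Q u)]
    ring
  linarith

/-- for `v ∈ A` -/
theorem hil_mem {A : Set E} {Q : E → E}
    (hvar : ∀ u, ∀ v ∈ A, ⟪u - Q u, v - Q u⟫ ≤ 0) (u : E) {v : E} (hv : v ∈ A) :
    ‖u - Q u‖ ^ 2 + ⟪v - u, u - Q u⟫ ≤ 0 := by
  have h1 := hvar u v hv
  have e : ‖u - Q u‖ ^ 2 + ⟪v - u, u - Q u⟫ = ⟪u - Q u, v - Q u⟫ := by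
    simp only [← real_inner_self_eq_norm_sq]
    simp only [inner_sub_left, inner_sub_right]
    rw [real_inner_comm (Q u) u, real_inner_comm (Q u) v, real_inner_comm u v]
    ring
  linarith

variable {ι : Type*} [Fintype ι] {C : ι → Set E} {P : ι → E → E}

theorem hil_expand (u v psi : E) :
    ‖v - psi‖ ^ 2 = ‖v - u‖ ^ 2 + ‖u - psi‖ ^ 2 - 2 * ⟪v - u, psi - u⟫ := by
  have e : v - psi = (v - u) - (psi - u) := by abel
  rw [e, norm_sub_sq_real, norm_sub_rev psi u]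
  ring

theorem hil_inner_sum {lam : ℝ} {psi u : E} (hu : psi - u = lam • ∑ k, (u - P k u)) (v : E) :
    ⟪v - u, psi - u⟫ = lam * ∑ k, ⟪v - u, u - P k u⟫ := by
  rw [hu, real_inner_smul_right, inner_sum]

/-- strong minimality of the fixed point for `|v-psi|² + lam ∑ dist(v, C k)²` -/
theorem hil_strong (hmem : ∀ k u, P k u ∈ C k)
    (hvar : ∀ k u, ∀ v ∈ C k, ⟪u - P k u, v - P k u⟫ ≤ 0)
    {lam : ℝ} (hlam : 0 ≤ lam) {psi u : E} (hu : psi - u = lam • ∑ k, (u - P k u)) (v : E) :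
    ‖u - psi‖ ^ 2 + lam * ∑ k, ‖u - P k u‖ ^ 2 + ‖v - u‖ ^ 2
      ≤ ‖v - psi‖ ^ 2 + lam * ∑ k, ‖v - P k v‖ ^ 2 := by
  rw [hil_expand u v psi, hil_inner_sum hu v]
  have h : ∑ k, (‖u - P k u‖ ^ 2 + 2 * ⟪v - u, u - P k u⟫) ≤ ∑ k, ‖v - P k v‖ ^ 2 :=
    Finset.sum_le_sum fun k _ => hil_sq (hmem k) (hvar k) u v
  rw [Finset.sum_add_distrib, ← Finset.mul_sum] at h
  have h2 := mul_le_mul_of_nonneg_left h hlam
  linarith

/-- the version for `v` in the intersection -/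
theorem hil_strong' (hvar : ∀ k u, ∀ v ∈ C k, ⟪u - P k u, v - P k u⟫ ≤ 0)
    {lam : ℝ} (hlam : 0 ≤ lam) {psi u : E} (hu : psi - u = lam • ∑ k, (u - P k u))
    {v : E} (hv : ∀ k, v ∈ C k) :
    ‖u - psi‖ ^ 2 + 2 * (lam * ∑ k, ‖u - P k u‖ ^ 2) + ‖v - u‖ ^ 2 ≤ ‖v - psi‖ ^ 2 := by
  rw [hil_expand u v psi, hil_inner_sum hu v]
  have h : ∑ k, (‖u - P k u‖ ^ 2 + ⟪v - u, u - P k u⟫) ≤ ∑ _k : ι, (0 : ℝ) :=
    Finset.sum_le_sum fun k _ => hil_mem (hvar k) u (hv k)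
  rw [Finset.sum_add_distrib, Finset.sum_const_zero] at h
  have h2 := mul_le_mul_of_nonneg_left h hlam
  linarith

/-- two fixed points for two parameters: the Cauchy estimate -/
theorem hil_cauchy (hmem : ∀ k u, P k u ∈ C k)
    (hvar : ∀ k u, ∀ v ∈ C k, ⟪u - P k u, v - P k u⟫ ≤ 0)
    {lam lam' : ℝ} (hlam : 0 ≤ lam) (hll : lam ≤ lam') {psi u u' : E}
    (hu : psi - u = lam • ∑ k, (u - P k u)) :
    ‖u' - u‖ ^ 2 ≤ (‖u' - psi‖ ^ 2 + lam' * ∑ k, ‖u' - P k u'‖ ^ 2)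
      - (‖u - psi‖ ^ 2 + lam * ∑ k, ‖u - P k u‖ ^ 2) := by
  have h1 := hil_strong hmem hvar hlam hu u'
  have h2 : lam * ∑ k, ‖u' - P k u'‖ ^ 2 ≤ lam' * ∑ k, ‖u' - P k u'‖ ^ 2 :=
    mul_le_mul_of_nonneg_right hll (Finset.sum_nonneg fun k _ => sq_nonneg _)
  linarith

/-- the fixed point equation -/
theorem hil_eq_of_fix {lam : ℝ} (hlam : 0 ≤ lam) {psi u : E}
    (hu : u = (1 + Fintype.card ι * lam)⁻¹ • (psi + lam • ∑ k, P k u)) :
    psi - u = lam • ∑ k, (u - P k u) := by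
  have hpos : (0 : ℝ) < 1 + Fintype.card ι * lam := by positivity
  have h1 : (1 + Fintype.card ι * lam) • u = psi + lam • ∑ k, P k u := by
    conv_lhs => rw [hu]
    rw [smul_smul, mul_inv_cancel₀ hpos.ne', one_smul]
  have h2 : psi = (1 + Fintype.card ι * lam) • u - lam • ∑ k, P k u := by
    rw [h1]; abel
  rw [Finset.sum_sub_distrib, Finset.sum_const, Finset.card_univ, smul_sub]
  conv_lhs => rw [h2]
  rw [add_smul, one_smul, mul_comm, mul_smul, Nat.cast_smul_eq_nsmul ℝ]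
  abel

/-- existence of the fixed point in `KK` -/
theorem hil_fix (hmem : ∀ k u, P k u ∈ C k)
    (hvar : ∀ k u, ∀ v ∈ C k, ⟪u - P k u, v - P k u⟫ ≤ 0)
    {KK : Set E} (hcomp : IsComplete KK) (hconv : Convex ℝ KK)
    (hpres : ∀ k, ∀ u ∈ KK, P k u ∈ KK) {lam : ℝ} (hlam : 0 ≤ lam) {psi : E} (hpsi : psi ∈ KK) :
    ∃ u ∈ KK, psi - u = lam • ∑ k, (u - P k u) := by
  have hpos : (0 : ℝ) < 1 + Fintype.card ι * lam := by positivity
  set G : E → E := fun u => (1 + Fintype.card ι * lam)⁻¹ • (psi + lam • ∑ k, P k u) with hG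
  have hGmap : Set.MapsTo G KK KK := by
    intro u hu
    -- a convex combination over `Option ι`
    have h := hconv.sum_mem (t := (Finset.univ : Finset (Option ι)))
      (w := fun o => Option.elim o ((1 + Fintype.card ι * lam)⁻¹)
        (fun _ => (1 + Fintype.card ι * lam)⁻¹ * lam))
      (z := fun o => Option.elim o psi (fun k => P k u))
      (by
        intro o _
        cases o with
        | none => exact inv_nonneg.2 hpos.le
        | some k => exact mul_nonneg (inv_nonneg.2 hpos.le) hlam)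
      (by
        rw [Fintype.sum_option]
        simp only [Option.elim_none, Option.elim_some, Finset.sum_const, Finset.card_univ,
          nsmul_eq_mul]
        field_simp)
      (by
        intro o _
        cases o with
        | none => exact hpsi
        | some k => exact hpres k u hu)
    rw [Fintype.sum_option] at h
    simp only [Option.elim_none, Option.elim_some] at h
    have e : G u = (1 + Fintype.card ι * lam)⁻¹ • psi
        + ∑ k, ((1 + Fintype.card ι * lam)⁻¹ * lam) • P k u := by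
      simp only [hG]
      rw [smul_add, smul_smul, Finset.smul_sum]
    rw [e]
    exact h
  set q : ℝ := (1 + Fintype.card ι * lam)⁻¹ * (Fintype.card ι * lam) with hq
  have hq0 : 0 ≤ q := by positivity
  have hq1 : q < 1 := by
    rw [hq, inv_mul_lt_iff₀ hpos]; linarith
  have hdist : ∀ u v : E, dist (G u) (G v) ≤ q * dist u v := by
    intro u v
    have e : G u - G v = (1 + Fintype.card ι * lam)⁻¹ • (lam • ∑ k, (P k u - P k v)) := by
      have e0 : lam • ∑ k, (P k u - P k v) = (psi + lam • ∑ k, P k u) - (psi + lam • ∑ k, P k v) := by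
        rw [Finset.sum_sub_distrib, smul_sub, add_sub_add_left_eq_sub]
      rw [e0, smul_sub]
    rw [dist_eq_norm, dist_eq_norm, e, norm_smul, norm_smul, Real.norm_eq_abs, Real.norm_eq_abs,
      abs_of_pos (inv_pos.2 hpos), abs_of_nonneg hlam]
    have h1 : ‖∑ k, (P k u - P k v)‖ ≤ Fintype.card ι * ‖u - v‖ := by
      refine (norm_sum_le _ _).trans ?_
      refine (Finset.sum_le_sum fun k _ => hil_nonexp (hmem k) (hvar k) u v).trans ?_
      rw [Finset.sum_const, Finset.card_univ, nsmul_eq_mul]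
    calc (1 + Fintype.card ι * lam)⁻¹ * (lam * ‖∑ k, (P k u - P k v)‖)
        ≤ (1 + Fintype.card ι * lam)⁻¹ * (lam * (Fintype.card ι * ‖u - v‖)) := by gcongr
      _ = q * ‖u - v‖ := by rw [hq]; ring
  have hcontr : ContractingWith (Real.toNNReal q) (hGmap.restrict G KK KK) := by
    refine ⟨?_, ?_⟩
    · rw [← NNReal.coe_lt_coe, Real.coe_toNNReal q hq0]; exact_mod_cast hq1
    · refine LipschitzWith.of_dist_le_mul fun x y => ?_
      rw [Real.coe_toNNReal q hq0]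
      exact hdist x y
  obtain ⟨u, huK, hufix, -⟩ := ContractingWith.exists_fixedPoint' hcomp hGmap hcontr hpsi
    (edist_ne_top _ _)
  refine ⟨u, huK, hil_eq_of_fix hlam ?_⟩
  exact hufix.symm

/-- **Projection onto an intersection preserves what the single projections preserve.** -/
theorem hil_main (hclosed : ∀ k, IsClosed (C k)) (hmem : ∀ k u, P k u ∈ C k)
    (hvar : ∀ k u, ∀ v ∈ C k, ⟪u - P k u, v - P k u⟫ ≤ 0)
    {KK : Set E} (hcomp : IsComplete KK) (hconv : Convex ℝ KK)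
    (hpres : ∀ k, ∀ u ∈ KK, P k u ∈ KK) (hne : ∃ v0, ∀ k, v0 ∈ C k)
    {psi : E} (hpsi : psi ∈ KK) :
    ∃ u ∈ KK, (∀ k, u ∈ C k) ∧ ∀ v, (∀ k, v ∈ C k) → ⟪psi - u, v - u⟫ ≤ 0 := by
  obtain ⟨v0, hv0⟩ := hne
  choose w hwK hw using fun m : ℕ =>
    hil_fix hmem hvar hcomp hconv hpres (Nat.cast_nonneg m : (0 : ℝ) ≤ (m : ℝ)) hpsi
  set F : ℕ → ℝ := fun m => ‖w m - psi‖ ^ 2 + (m : ℝ) * ∑ k, ‖w m - P k (w m)‖ ^ 2 with hF
  have hcau : ∀ m m' : ℕ, m ≤ m' → ‖w m' - w m‖ ^ 2 ≤ F m' - F m := by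
    intro m m' hmm
    exact hil_cauchy hmem hvar (Nat.cast_nonneg m) (Nat.cast_le.2 hmm) (hw m)
  have hmono : Monotone F := by
    intro m m' hmm
    have h := hcau m m' hmm
    nlinarith [sq_nonneg ‖w m' - w m‖]
  have hbdd : ∀ m, F m ≤ ‖v0 - psi‖ ^ 2 := by
    intro m
    have h := hil_strong' hvar (Nat.cast_nonneg m) (hw m) hv0
    have h1 : 0 ≤ (m : ℝ) * ∑ k, ‖w m - P k (w m)‖ ^ 2 :=
      mul_nonneg (Nat.cast_nonneg m) (Finset.sum_nonneg fun k _ => sq_nonneg _)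
    have h2 := sq_nonneg ‖v0 - w m‖
    simp only [hF]
    linarith
  have hFlim : Tendsto F atTop (𝓝 (⨆ m, F m)) :=
    tendsto_atTop_ciSup hmono ⟨‖v0 - psi‖ ^ 2, by rintro _ ⟨m, rfl⟩; exact hbdd m⟩
  have hFc : CauchySeq F := hFlim.cauchySeq
  have hwc : CauchySeq w := by
    rw [Metric.cauchySeq_iff'] at hFc ⊢
    intro ε hε
    obtain ⟨N, hN⟩ := hFc (ε ^ 2) (by positivity)
    refine ⟨N, fun n hn => ?_⟩
    have h1 := hN n hn
    have h2 := hcau N n hn
    rw [Real.dist_eq] at h1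
    have h3 : F n - F N < ε ^ 2 := lt_of_le_of_lt (le_abs_self _) h1
    rw [dist_eq_norm]
    exact lt_of_pow_lt_pow_left₀ 2 hε.le (lt_of_le_of_lt h2 h3)
  obtain ⟨u, huK, hulim⟩ := cauchySeq_tendsto_of_isComplete hcomp hwK hwc
  refine ⟨u, huK, ?_, ?_⟩
  · intro k
    -- `P k (w m) → u`
    have hdk : ∀ m : ℕ, (m : ℝ) * ‖w m - P k (w m)‖ ^ 2 ≤ ‖v0 - psi‖ ^ 2 := by
      intro m
      have h := hbdd m
      simp only [hF] at h
      have h1 : ‖w m - P k (w m)‖ ^ 2 ≤ ∑ k, ‖w m - P k (w m)‖ ^ 2 :=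
        Finset.single_le_sum (f := fun k => ‖w m - P k (w m)‖ ^ 2)
          (fun k _ => sq_nonneg _) (Finset.mem_univ k)
      have h2 := mul_le_mul_of_nonneg_left h1 (Nat.cast_nonneg m : (0 : ℝ) ≤ (m : ℝ))
      have h3 := sq_nonneg ‖w m - psi‖
      linarith
    have hlim0 : Tendsto (fun m : ℕ => ‖w m - P k (w m)‖ ^ 2) atTop (𝓝 0) := by
      have h1 : Tendsto (fun m : ℕ => ‖v0 - psi‖ ^ 2 / (m : ℝ)) atTop (𝓝 0) :=
        tendsto_const_div_atTop_nhds_zero_nat _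
      refine squeeze_zero' (Eventually.of_forall fun m => sq_nonneg _) ?_ h1
      filter_upwards [eventually_gt_atTop 0] with m hm
      rw [le_div_iff₀ (by exact_mod_cast hm)]
      have := hdk m
      linarith
    have hlim1 : Tendsto (fun m : ℕ => ‖w m - P k (w m)‖) atTop (𝓝 0) := by
      have h := hlim0.sqrt
      simpa [Real.sqrt_sq (norm_nonneg _)] using h
    have hlim2 : Tendsto (fun m : ℕ => w m - P k (w m)) atTop (𝓝 0) :=
      tendsto_zero_iff_norm_tendsto_zero.2 hlim1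
    have hlim3 : Tendsto (fun m : ℕ => P k (w m)) atTop (𝓝 u) := by
      have h := hulim.sub hlim2
      simpa using h
    exact (hclosed k).mem_of_tendsto hlim3 (Eventually.of_forall fun m => hmem k _)
  · intro v hv
    have h1 : ∀ m, ‖w m - psi‖ ^ 2 + ‖v - w m‖ ^ 2 ≤ ‖v - psi‖ ^ 2 := by
      intro m
      have h := hil_strong' hvar (Nat.cast_nonneg m) (hw m) hv
      have h1 : 0 ≤ (m : ℝ) * ∑ k, ‖w m - P k (w m)‖ ^ 2 :=
        mul_nonneg (Nat.cast_nonneg m) (Finset.sum_nonneg fun k _ => sq_nonneg _)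
      linarith
    have h2 : Tendsto (fun m => ‖w m - psi‖ ^ 2 + ‖v - w m‖ ^ 2) atTop
        (𝓝 (‖u - psi‖ ^ 2 + ‖v - u‖ ^ 2)) :=
      ((hulim.sub_const psi).norm.pow 2).add ((hulim.const_sub v).norm.pow 2)
    have h3 : ‖u - psi‖ ^ 2 + ‖v - u‖ ^ 2 ≤ ‖v - psi‖ ^ 2 :=
      le_of_tendsto' h2 h1
    have h4 := hil_expand u v psi
    have h5 : ⟪psi - u, v - u⟫ = ⟪v - u, psi - u⟫ := real_inner_comm _ _
    rw [h5]
    linarith

/-- The same with `IsClosed KK` in a complete space, and the conclusion for the metric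
projection: any `u` in the intersection with the variational inequality is in `KK`. -/
theorem hil_proj_mem [CompleteSpace E] (hclosed : ∀ k, IsClosed (C k)) (hmem : ∀ k u, P k u ∈ C k)
    (hvar : ∀ k u, ∀ v ∈ C k, ⟪u - P k u, v - P k u⟫ ≤ 0)
    {KK : Set E} (hKcl : IsClosed KK) (hconv : Convex ℝ KK)
    (hpres : ∀ k, ∀ u ∈ KK, P k u ∈ KK)
    {psi : E} (hpsi : psi ∈ KK) {u : E} (huC : ∀ k, u ∈ C k)
    (huv : ∀ v, (∀ k, v ∈ C k) → ⟪psi - u, v - u⟫ ≤ 0) : u ∈ KK := by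
  obtain ⟨u', hu'K, hu'C, hu'v⟩ := hil_main hclosed hmem hvar hKcl.isComplete hconv hpres
    ⟨u, huC⟩ hpsi
  have h1 := huv u' hu'C
  have h2 := hu'v u huC
  have e : ⟪psi - u, u' - u⟫ + ⟪psi - u', u - u'⟫ = ‖u' - u‖ ^ 2 := by
    rw [← real_inner_self_eq_norm_sq]
    simp only [inner_sub_left, inner_sub_right]
    rw [real_inner_comm u' u]
    ring
  have h3 : ‖u' - u‖ ^ 2 ≤ 0 := by linarith
  have h4 : ‖u' - u‖ = 0 := by
    have := sq_nonneg ‖u' - u‖
    exact pow_eq_zero_iff (two_ne_zero) |>.1 (le_antisymm h3 this)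
  have h5 : u' = u := sub_eq_zero.1 (norm_eq_zero.1 h4)
  rw [← h5]; exact hu'K

/-- **Lemma 1 (helper82)**: two closed convex sets with projections: if the projection on `A`
maps `B` into `B`, then the projection on `B` maps `A` into `A`.  Pointwise form. -/
theorem hil_swap {A B : Set E} {QA : E → E} (hAmem : ∀ u, QA u ∈ A)
    (hAvar : ∀ u, ∀ v ∈ A, ⟪u - QA u, v - QA u⟫ ≤ 0) (hAB : ∀ b ∈ B, QA b ∈ B)
    {a b : E} (ha : a ∈ A) (hb : b ∈ B) (hbv : ∀ v ∈ B, ⟪a - b, v - b⟫ ≤ 0) : b ∈ A := by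
  have h1 := hbv (QA b) (hAB b hb)
  have h2 := hAvar b a ha
  have e : ⟪a - b, QA b - b⟫ + ⟪b - QA b, a - QA b⟫ = ‖b - QA b‖ ^ 2 := by
    rw [← real_inner_self_eq_norm_sq]
    simp only [inner_sub_left, inner_sub_right]
    rw [real_inner_comm a (QA b), real_inner_comm b a, real_inner_comm (QA b) b]
    ring
  have h3 : ‖b - QA b‖ ^ 2 ≤ 0 := by linarith
  have h4 : ‖b - QA b‖ = 0 :=
    pow_eq_zero_iff (two_ne_zero) |>.1 (le_antisymm h3 (sq_nonneg _))
  have h5 : b = QA b := sub_eq_zero.1 (norm_eq_zero.1 h4)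
  rw [h5]; exact hAmem b

end Vale.Agent.P254.Unc.Hil
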