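import Vale.Agent.P254.Unc.P5b

/-! P254-UNC: the isotonic regression of one good function (from `isotonic_triple`, `P5b.lean`). -/

open MeasureTheory Set
open scoped NNReal

namespace Vale.Agent.P254.Unc

variable {n : ℕ} {M : ℝ≥0}

/-- The isotonic regression of one good function. -/
theorem isotonic_one {f : X n → ℝ} (h : Good M f) : ∃ g : X n → ℝ, Good M g ∧ IsProj f g := by
  obtain ⟨g, -, -, hg, -, -, -, hp, -, -⟩ := isotonic_triple h h h h.conc
  exact ⟨g, hg, hp⟩

end Vale.Agent.P254.Unc
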