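import Mathlib

/-! P254 / Unc: the one dimensional isotonic regression of a concave function.

`av f b = ∫_0^1 f (b u) du` is the average of `f` on `[0,b]`, `mx f = sup_{b ∈ [0,1]} av f b`,
`dn f t = sup_{s ∈ [t,1]} f s`, and the decreasing regression of a concave `f` is
`pr f t = min (mx f) (dn f t)`.  -/

namespace Vale.Agent.P254.Unc.OneD

open MeasureTheory Set intervalIntegral

/-- the average of `f` on `[0,b]` -/
noncomputable def av (f : ℝ → ℝ) (b : ℝ) : ℝ := ∫ u in (0:ℝ)..1, f (b * u)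

lemma mul_av (f : ℝ → ℝ) (b : ℝ) : b * av f b = ∫ x in (0:ℝ)..b, f x := by
  have := intervalIntegral.smul_integral_comp_mul_left (f := f) (a := 0) (b := 1) b
  simp [av]

lemma av_zero (f : ℝ → ℝ) : av f 0 = f 0 := by simp [av]

lemma av_cont {f : ℝ → ℝ} (hc : Continuous f) : Continuous (av f) := by
  unfold av
  apply intervalIntegral.continuous_parametric_intervalIntegral_of_continuous'
  fun_prop

/-- quasi-concavity on `[0,1]` -/
def QC (f : ℝ → ℝ) : Prop :=
  ∀ a ∈ Icc (0:ℝ) 1, ∀ b ∈ Icc (0:ℝ) 1, ∀ t ∈ Icc a b, min (f a) (f b) ≤ f t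

lemma QC.of_concave {f : ℝ → ℝ} (hf : ConcaveOn ℝ (Icc 0 1) f) : QC f := by
  intro a ha b hb t ht
  exact hf.ge_on_segment ha hb (by rw [segment_eq_Icc (ht.1.trans ht.2)]; exact ht)

/-- a continuous midpoint-concave function is quasi-concave -/
lemma QC.of_mid {f : ℝ → ℝ} (hc : Continuous f)
    (hm : ∀ x ∈ Icc (0:ℝ) 1, ∀ y ∈ Icc (0:ℝ) 1, (f x + f y) / 2 ≤ f ((x + y) / 2)) : QC f := by
  intro a ha b hb t ht
  by_contra hlt
  push Not at hlt
  obtain ⟨c, hc1, hcmin⟩ := (isCompact_Icc (a := a) (b := b)).exists_isMinOn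
    ⟨t, ht⟩ hc.continuousOn
  have hmin : ∀ s ∈ Icc a b, f c ≤ f s := fun s hs => hcmin hs
  -- the smallest minimum point
  set S : Set ℝ := {s ∈ Icc a b | f s ≤ f c} with hS
  have hSc : IsCompact S := by
    apply isCompact_Icc.of_isClosed_subset _ (fun t ht => ht.1)
    exact isClosed_Icc.inter (isClosed_le hc continuous_const)
  have hSn : S.Nonempty := ⟨c, hc1, le_rfl⟩
  set p := sInf S with hp
  have hpS : p ∈ S := hSc.sInf_mem hSn
  have hct : f c < min (f a) (f b) := lt_of_le_of_lt (hmin t ht) hlt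
  have hpa : a < p := by
    rcases eq_or_lt_of_le hpS.1.1 with h | h
    · exfalso
      have h1 : f p ≤ f c := hpS.2
      rw [← h] at h1
      exact absurd (lt_of_lt_of_le hct (min_le_left _ _)) (not_lt.2 h1)
    · exact h
  have hpb : p < b := by
    rcases eq_or_lt_of_le hpS.1.2 with h | h
    · exfalso
      have h1 : f p ≤ f c := hpS.2
      rw [h] at h1
      exact absurd (lt_of_lt_of_le hct (min_le_right _ _)) (not_lt.2 h1)
    · exact h
  set δ := min (p - a) (b - p) with hδ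
  have hδ0 : 0 < δ := lt_min (by linarith) (by linarith)
  have hδ1 : δ ≤ p - a := min_le_left _ _
  have hδ2 : δ ≤ b - p := min_le_right _ _
  have h1 := hm (p - δ) ⟨by linarith [ha.1], by linarith [hb.2]⟩ (p + δ)
    ⟨by linarith [ha.1], by linarith [hb.2]⟩
  have h2 : (p - δ + (p + δ)) / 2 = p := by ring
  rw [h2] at h1
  have h3 := hmin (p + δ) ⟨by linarith, by linarith⟩
  have h4 : f p ≤ f c := hpS.2
  have h5 : p - δ ∈ S := ⟨⟨by linarith, by linarith⟩, by linarith⟩
  have := csInf_le hSc.bddBelow h5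
  linarith

/-- the data of the maximal average -/
lemma exists_tau {f : ℝ → ℝ} (hc : Continuous f) (hf : QC f) :
    ∃ τ ∈ Icc (0:ℝ) 1, ∃ A : ℝ, A = av f τ ∧ (∀ b ∈ Icc (0:ℝ) 1, av f b ≤ A) ∧
      (∫ x in (0:ℝ)..τ, f x) = τ * A ∧ A ≤ f τ ∧ (τ < 1 → f τ = A) ∧
      AntitoneOn f (Icc τ 1) := by
  obtain ⟨τ, hτ, hmax⟩ := (isCompact_Icc (a := (0:ℝ)) (b := 1)).exists_isMaxOn
    ⟨0, by simp⟩ (av_cont hc).continuousOn
  have hm : ∀ b ∈ Icc (0:ℝ) 1, av f b ≤ av f τ := fun b hb => hmax hb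
  have hint : ∀ a b, IntervalIntegrable f volume a b := fun a b => hc.intervalIntegrable a b
  have hI : ∀ b ∈ Icc (0:ℝ) 1, (∫ x in (0:ℝ)..b, f x) ≤ b * av f τ := by
    intro b hb
    rw [← mul_av]
    exact mul_le_mul_of_nonneg_left (hm b hb) hb.1
  have hE : (∫ x in (0:ℝ)..τ, f x) = τ * av f τ := (mul_av f τ).symm
  -- lower bound at τ
  have h3 : av f τ ≤ f τ := by
    rcases eq_or_lt_of_le hτ.1 with h0 | h0
    · rw [← h0, av_zero]
    · by_contra hlt
      push Not at hlt
      have hev : ∀ᶠ t in nhds τ, f t < av f τ := (hc.tendsto τ).eventually_lt_const hlt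
      obtain ⟨ε, hε, hball⟩ := Metric.eventually_nhds_iff.1 hev
      set b := max (τ / 2) (τ - ε / 2) with hb
      have hb1 : b < τ := by
        rw [hb]; exact max_lt (by linarith) (by linarith)
      have hb0 : 0 < b := lt_of_lt_of_le (by linarith) (le_max_left _ _)
      have hb2 : τ - ε / 2 ≤ b := le_max_right _ _
      have hlt2 : (∫ x in b..τ, f x) < ∫ x in b..τ, av f τ := by
        apply intervalIntegral.integral_lt_integral_of_continuousOn_of_le_of_exists_lt hb1
          hc.continuousOn continuousOn_const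
        · intro x hx
          refine (hball ?_).le
          rw [Real.dist_eq, abs_lt]; constructor <;> linarith [hx.1, hx.2]
        · exact ⟨τ, right_mem_Icc.2 hb1.le, hlt⟩
      have hsum := intervalIntegral.integral_add_adjacent_intervals (hint 0 b) (hint b τ)
      have hbI := hI b ⟨hb0.le, by linarith [hτ.2]⟩
      simp only [intervalIntegral.integral_const, smul_eq_mul] at hlt2
      nlinarith
  have h4 : τ < 1 → f τ ≤ av f τ := by
    intro h1
    by_contra hlt
    push Not at hlt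
    have hev : ∀ᶠ t in nhds τ, av f τ < f t := (hc.tendsto τ).eventually_const_lt hlt
    obtain ⟨ε, hε, hball⟩ := Metric.eventually_nhds_iff.1 hev
    set b := min 1 (τ + ε / 2) with hb
    have hb1 : τ < b := by
      rw [hb]; exact lt_min h1 (by linarith)
    have hb0 : b ≤ 1 := min_le_left _ _
    have hb2 : b ≤ τ + ε / 2 := min_le_right _ _
    have hlt2 : (∫ x in τ..b, av f τ) < ∫ x in τ..b, f x := by
      apply intervalIntegral.integral_lt_integral_of_continuousOn_of_le_of_exists_lt hb1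
        continuousOn_const hc.continuousOn
      · intro x hx
        refine (hball ?_).le
        rw [Real.dist_eq, abs_lt]; constructor <;> linarith [hx.1, hx.2]
      · exact ⟨τ, left_mem_Icc.2 hb1.le, hlt⟩
    have hsum := intervalIntegral.integral_add_adjacent_intervals (hint 0 τ) (hint τ b)
    have hbI := hI b ⟨by linarith [hτ.1], hb0⟩
    simp only [intervalIntegral.integral_const, smul_eq_mul] at hlt2
    nlinarith
  refine ⟨τ, hτ, av f τ, rfl, hm, hE, h3, fun h => le_antisymm (h4 h) h3, ?_⟩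
  -- antitone after τ
  intro x hx y hy hxy
  by_contra hlt
  push Not at hlt
  have hxy' : x < y := lt_of_le_of_ne hxy (by rintro rfl; exact lt_irrefl _ hlt)
  have hyI : y ∈ Icc (0:ℝ) 1 := ⟨hτ.1.trans hy.1, hy.2⟩
  have hmin : ∀ t ∈ Icc τ y, min (f τ) (f y) ≤ f t := by
    intro t ht
    exact hf _ hτ _ hyI _ ht
  have hyτ : f τ < f y := by
    by_contra hle
    push Not at hle
    have := hmin x ⟨hx.1, hxy⟩
    rw [min_eq_right hle] at this
    linarith
  have hge : ∀ t ∈ Icc τ y, f τ ≤ f t := by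
    intro t ht
    have := hmin t ht
    rwa [min_eq_left hyτ.le] at this
  have hτy : τ < y := lt_of_le_of_lt hx.1 hxy'
  have hlt2 : (∫ x in τ..y, av f τ) < ∫ x in τ..y, f x := by
    apply intervalIntegral.integral_lt_integral_of_continuousOn_of_le_of_exists_lt hτy
      continuousOn_const hc.continuousOn
    · intro t ht
      exact h3.trans (hge t (Ioc_subset_Icc_self ht))
    · exact ⟨y, right_mem_Icc.2 hτy.le, lt_of_le_of_lt h3 hyτ⟩
  have hsum := intervalIntegral.integral_add_adjacent_intervals (hint 0 τ) (hint τ y)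
  have hbI := hI y hyI
  simp only [intervalIntegral.integral_const, smul_eq_mul] at hlt2
  nlinarith

/-- maximal average -/
noncomputable def mx (f : ℝ → ℝ) : ℝ := sSup (av f '' Icc (0:ℝ) 1)

/-- decreasing envelope on `[0,1]` -/
noncomputable def dn (f : ℝ → ℝ) (t : ℝ) : ℝ := sSup (f '' Icc t 1)

/-- one dimensional decreasing regression of a concave function -/
noncomputable def pr (f : ℝ → ℝ) (t : ℝ) : ℝ := min (mx f) (dn f t)

lemma mx_eq {f : ℝ → ℝ} {τ A : ℝ} (hτ : τ ∈ Icc (0:ℝ) 1) (hA : A = av f τ)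
    (hm : ∀ b ∈ Icc (0:ℝ) 1, av f b ≤ A) : mx f = A := by
  apply le_antisymm
  · apply csSup_le ⟨_, mem_image_of_mem _ hτ⟩
    rintro _ ⟨b, hb, rfl⟩
    exact hm b hb
  · rw [hA]
    apply le_csSup _ (mem_image_of_mem _ hτ)
    refine ⟨A, ?_⟩
    rintro _ ⟨b, hb, rfl⟩
    exact hm b hb

lemma le_dn {f : ℝ → ℝ} (hc : Continuous f) {t s : ℝ} (hs : s ∈ Icc t 1) : f s ≤ dn f t :=
  le_csSup ((isCompact_Icc.image hc).bddAbove) (mem_image_of_mem _ hs)

lemma dn_anti {f : ℝ → ℝ} (hc : Continuous f) : AntitoneOn (dn f) (Icc 0 1) := by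
  intro x hx y hy hxy
  apply csSup_le ⟨_, mem_image_of_mem _ (left_mem_Icc.2 hy.2)⟩
  rintro _ ⟨s, hs, rfl⟩
  exact le_dn hc ⟨hxy.trans hs.1, hs.2⟩

lemma pr_anti {f : ℝ → ℝ} (hc : Continuous f) : AntitoneOn (pr f) (Icc 0 1) :=
  fun _ hx _ hy hxy => min_le_min_left _ (dn_anti hc hx hy hxy)

/-- structure of the regression -/
lemma exists_pr {f : ℝ → ℝ} (hc : Continuous f) (hf : QC f) :
    ∃ τ ∈ Icc (0:ℝ) 1, (∫ x in (0:ℝ)..τ, f x) = τ * mx f ∧ mx f ≤ f τ ∧
      (∀ t ∈ Icc 0 τ, pr f t = mx f) ∧ (∀ t ∈ Ioc τ 1, pr f t = f t) := by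
  obtain ⟨τ, hτ, A, hA, hm, hI, hle, heq, hanti⟩ := exists_tau hc hf
  have hmx : mx f = A := mx_eq hτ hA hm
  refine ⟨τ, hτ, by rw [hmx, hI], by rw [hmx]; exact hle, ?_, ?_⟩
  · intro t ht
    unfold pr
    rw [hmx]
    exact min_eq_left (hle.trans (le_dn hc ⟨ht.2, hτ.2⟩))
  · intro t ht
    have hτ1 : τ < 1 := lt_of_lt_of_le ht.1 ht.2
    have htI : t ∈ Icc τ 1 := ⟨ht.1.le, ht.2⟩
    have hdn : dn f t = f t := by
      apply le_antisymm
      · apply csSup_le ⟨_, mem_image_of_mem _ (left_mem_Icc.2 ht.2)⟩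
        rintro _ ⟨s, hs, rfl⟩
        exact hanti htI ⟨ht.1.le.trans hs.1, hs.2⟩ hs.1
      · exact le_dn hc (left_mem_Icc.2 ht.2)
    unfold pr
    rw [hmx, hdn]
    apply min_eq_right
    rw [← heq hτ1]
    exact hanti (left_mem_Icc.2 hτ.2) htI ht.1.le

lemma integral_split {f v : ℝ → ℝ} (hc : Continuous f) (hv : IntervalIntegrable v volume 0 1)
    {τ A : ℝ} (hτ : τ ∈ Icc (0:ℝ) 1)
    (h1 : ∀ t ∈ Icc 0 τ, pr f t = A) (h2 : ∀ t ∈ Ioc τ 1, pr f t = f t) :
    (∫ x in (0:ℝ)..1, (f x - pr f x) * v x) = ∫ x in (0:ℝ)..τ, (f x - A) * v x := by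
  have hv1 : IntervalIntegrable v volume 0 τ :=
    hv.mono_set (by rw [uIcc_of_le hτ.1, uIcc_of_le zero_le_one]; exact Icc_subset_Icc_right hτ.2)
  have e1 : (∫ x in (0:ℝ)..τ, (f x - pr f x) * v x) = ∫ x in (0:ℝ)..τ, (f x - A) * v x := by
    apply intervalIntegral.integral_congr
    intro x hx
    rw [uIcc_of_le hτ.1] at hx
    simp only [h1 x hx]
  have e2 : (∫ x in τ..1, (f x - pr f x) * v x) = 0 := by
    have : (∫ x in τ..1, (f x - pr f x) * v x) = ∫ x in τ..1, (0:ℝ) := by
      apply intervalIntegral.integral_congr_ae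
      rw [uIoc_of_le hτ.2]
      exact Filter.Eventually.of_forall fun x hx => by rw [h2 x hx]; simp
    rw [this]; simp
  have i1 : IntervalIntegrable (fun x => (f x - pr f x) * v x) volume 0 τ := by
    have : IntervalIntegrable (fun x => (f x - A) * v x) volume 0 τ :=
      hv1.continuousOn_mul (by fun_prop)
    refine this.congr ?_
    rw [uIoc_of_le hτ.1]
    intro x hx
    simp only [h1 x (Ioc_subset_Icc_self hx)]
  have i2 : IntervalIntegrable (fun x => (f x - pr f x) * v x) volume τ 1 := by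
    have : IntervalIntegrable (fun _ : ℝ => (0:ℝ)) volume τ 1 := by simp
    refine this.congr ?_
    rw [uIoc_of_le hτ.2]
    intro x hx
    simp only [h2 x hx]; simp
  rw [← intervalIntegral.integral_add_adjacent_intervals i1 i2, e1, e2, add_zero]

/-- the variational inequality -/
theorem pr_var {f v : ℝ → ℝ} (hc : Continuous f) (hf : QC f)
    (hv : AntitoneOn v (Icc 0 1)) : (∫ x in (0:ℝ)..1, (f x - pr f x) * v x) ≤ 0 := by
  obtain ⟨τ, hτ, hI, hle, h1, h2⟩ := exists_pr hc hf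
  have hvi : IntervalIntegrable v volume 0 1 := by
    apply AntitoneOn.intervalIntegrable
    rwa [uIcc_of_le zero_le_one]
  rw [integral_split hc hvi hτ h1 h2]
  set A := mx f with hA
  have hvi1 : IntervalIntegrable v volume 0 τ :=
    hvi.mono_set (by rw [uIcc_of_le hτ.1, uIcc_of_le zero_le_one]; exact Icc_subset_Icc_right hτ.2)
  -- the switching point
  set S : Set ℝ := {t ∈ Icc 0 τ | A ≤ f t} with hS
  have hSc : IsCompact S := by
    apply isCompact_Icc.of_isClosed_subset _ (fun t ht => ht.1)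
    exact isClosed_Icc.inter (isClosed_le continuous_const hc)
  have hSn : S.Nonempty := ⟨τ, ⟨hτ.1, le_rfl⟩, hle⟩
  set p := sInf S with hp
  have hpS : p ∈ S := hSc.sInf_mem hSn
  have hpt : ∀ t ∈ Icc 0 τ, (f t - A) * (v t - v p) ≤ 0 := by
    intro t ht
    have htI : t ∈ Icc (0:ℝ) 1 := ⟨ht.1, ht.2.trans hτ.2⟩
    have hpI : p ∈ Icc (0:ℝ) 1 := ⟨hpS.1.1, hpS.1.2.trans hτ.2⟩
    rcases lt_or_ge t p with htp | htp
    · have hlt : f t < A := by
        by_contra h
        push Not at h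
        have := csInf_le hSc.bddBelow (show t ∈ S from ⟨ht, h⟩)
        linarith
      have := hv htI hpI htp.le
      nlinarith
    · have hge : A ≤ f t := by
        have := hf _ hpI _ hτ _ ⟨htp, ht.2⟩
        exact (le_min hpS.2 hle).trans this
      have := hv hpI htI htp
      nlinarith
  have key : (∫ x in (0:ℝ)..τ, (f x - A) * v x) = ∫ x in (0:ℝ)..τ, (f x - A) * (v x - v p) := by
    have hz : (∫ x in (0:ℝ)..τ, (f x - A) * v p) = 0 := by
      rw [intervalIntegral.integral_mul_const, intervalIntegral.integral_sub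
        (hc.intervalIntegrable _ _) (by simp), hI]
      simp
    have e : (fun x => (f x - A) * (v x - v p)) = fun x => (f x - A) * v x - (f x - A) * v p := by
      funext x; ring
    rw [e, intervalIntegral.integral_sub (hvi1.continuousOn_mul (by fun_prop))
      ((by fun_prop : Continuous fun x => (f x - A) * v p).intervalIntegrable _ _), hz, sub_zero]
  rw [key, ← neg_nonneg, ← intervalIntegral.integral_neg]
  apply intervalIntegral.integral_nonneg hτ.1
  intro t ht
  linarith [hpt t ht]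

/-- orthogonality -/
theorem pr_orth {f : ℝ → ℝ} (hc : Continuous f) (hf : QC f) :
    (∫ x in (0:ℝ)..1, (f x - pr f x) * pr f x) = 0 := by
  obtain ⟨τ, hτ, hI, hle, h1, h2⟩ := exists_pr hc hf
  have hvi : IntervalIntegrable (pr f) volume 0 1 := by
    apply AntitoneOn.intervalIntegrable
    rw [uIcc_of_le zero_le_one]
    exact pr_anti hc
  rw [integral_split hc hvi hτ h1 h2]
  have e : (∫ x in (0:ℝ)..τ, (f x - mx f) * pr f x) = ∫ x in (0:ℝ)..τ, (f x - mx f) * mx f := by
    apply intervalIntegral.integral_congr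
    intro x hx
    rw [uIcc_of_le hτ.1] at hx
    simp only [h1 x hx]
  rw [e, intervalIntegral.integral_mul_const, intervalIntegral.integral_sub
        (hc.intervalIntegrable _ _) (by simp), hI]
  simp

/-! ### transfer to `unitInterval` -/

open unitInterval

/-- the same regression for functions on `unitInterval` -/
noncomputable def q (g : I → ℝ) (t : I) : ℝ :=
  min (⨆ b : I, ∫ u : I, g (b * u)) (⨆ s : I, g (t ⊔ s))

lemma integral_I (F : ℝ → ℝ) : (∫ x : I, F x) = ∫ x in (0:ℝ)..1, F x := by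
  rw [intervalIntegral.integral_of_le zero_le_one, ← integral_Icc_eq_integral_Ioc]
  exact integral_subtype measurableSet_Icc F

/-- extension -/
noncomputable def ex (g : I → ℝ) : ℝ → ℝ := IccExtend zero_le_one g

lemma ex_val (g : I → ℝ) (x : I) : ex g x = g x := IccExtend_val _ _ _

lemma ex_cont {g : I → ℝ} (hg : Continuous g) : Continuous (ex g) := hg.Icc_extend'

lemma av_ex (g : I → ℝ) (b : I) : av (ex g) b = ∫ u : I, g (b * u) := by
  unfold av
  rw [← integral_I fun u => ex g (b * u)]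
  apply MeasureTheory.integral_congr_ae
  refine Filter.Eventually.of_forall fun u => ?_
  exact ex_val g (b * u)

lemma mx_ex (g : I → ℝ) : mx (ex g) = ⨆ b : I, ∫ u : I, g (b * u) := by
  unfold mx
  rw [Set.image_eq_range]
  exact congrArg sSup (congrArg Set.range (funext fun b => av_ex g b))

lemma dn_ex (g : I → ℝ) (t : I) : dn (ex g) t = ⨆ s : I, g (t ⊔ s) := by
  unfold dn iSup
  congr 1
  ext y
  constructor
  · rintro ⟨s, hs, rfl⟩
    refine ⟨⟨s, t.2.1.trans hs.1, hs.2⟩, ?_⟩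
    have : t ⊔ ⟨s, t.2.1.trans hs.1, hs.2⟩ = (⟨s, t.2.1.trans hs.1, hs.2⟩ : I) :=
      sup_eq_right.2 hs.1
    simp only [this]
    exact (ex_val g _).symm
  · rintro ⟨s, rfl⟩
    exact ⟨((t ⊔ s : I) : ℝ), ⟨le_sup_left (a := t) (b := s), (t ⊔ s).2.2⟩, ex_val g _⟩

lemma pr_ex (g : I → ℝ) (t : I) : pr (ex g) t = q g t := by
  unfold pr q
  rw [mx_ex, dn_ex]

lemma QC.of_I {g : I → ℝ} (hg : Continuous g)
    (hm : ∀ x y z : I, (z : ℝ) = ((x : ℝ) + y) / 2 → (g x + g y) / 2 ≤ g z) : QC (ex g) := by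
  apply QC.of_mid (ex_cont hg)
  intro x hx y hy
  have h := hm ⟨x, hx⟩ ⟨y, hy⟩ ⟨(x + y) / 2, by constructor <;> linarith [hx.1, hx.2, hy.1, hy.2]⟩
    rfl
  rw [← ex_val g, ← ex_val g, ← ex_val g] at h
  exact h

lemma q_anti {g : I → ℝ} (hg : Continuous g) : Antitone (q g) := by
  intro x y hxy
  rw [← pr_ex, ← pr_ex]
  exact pr_anti (ex_cont hg) x.2 y.2 hxy

/-- variational inequality on `unitInterval` -/
theorem q_var {g v : I → ℝ} (hg : Continuous g)
    (hm : ∀ x y z : I, (z : ℝ) = ((x : ℝ) + y) / 2 → (g x + g y) / 2 ≤ g z)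
    (hv : Antitone v) : (∫ x : I, (g x - q g x) * v x) ≤ 0 := by
  have h := pr_var (f := ex g) (v := ex v) (ex_cont hg) (QC.of_I hg hm)
    (fun x hx y hy hxy => by
      have e1 : ex v x = v ⟨x, hx⟩ := ex_val v ⟨x, hx⟩
      have e2 : ex v y = v ⟨y, hy⟩ := ex_val v ⟨y, hy⟩
      rw [e1, e2]; exact hv hxy)
  rw [← integral_I] at h
  simpa only [ex_val, pr_ex] using h

/-- orthogonality on `unitInterval` -/
theorem q_orth {g : I → ℝ} (hg : Continuous g)
    (hm : ∀ x y z : I, (z : ℝ) = ((x : ℝ) + y) / 2 → (g x + g y) / 2 ≤ g z) :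
    (∫ x : I, (g x - q g x) * q g x) = 0 := by
  have h := pr_orth (f := ex g) (ex_cont hg) (QC.of_I hg hm)
  rw [← integral_I] at h
  simpa only [ex_val, pr_ex] using h

end Vale.Agent.P254.Unc.OneD
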