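import Vale.Agent.P254.Unc.Defs2
import Vale.Agent.P254.Unc.OneD

/-! Block P1: the one dimensional regression on the unit interval. -/

open MeasureTheory Set
open scoped NNReal

namespace Vale.Agent.P254.Unc

lemma reg_eq_q (f : unitInterval → ℝ) : reg f = OneD.q f := rfl

lemma mid1_hyp {f : unitInterval → ℝ} (hc : ∀ a b, (f a + f b) / 2 ≤ f (mid1 a b)) :
    ∀ x y z : unitInterval, (z : ℝ) = ((x : ℝ) + y) / 2 → (f x + f y) / 2 ≤ f z := by
  intro x y z hz
  have : z = mid1 x y := Subtype.ext hz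
  rw [this]
  exact hc x y

theorem reg_anti {f : unitInterval → ℝ} (hf : Continuous f) : Antitone (reg f) :=
  OneD.q_anti hf

/-- P1 (file Unc/P1.lean) -/
theorem reg_le (f : unitInterval → ℝ) (hf : Continuous f)
    (hc : ∀ a b, (f a + f b) / 2 ≤ f (mid1 a b)) (v : unitInterval → ℝ) (hv : Antitone v) :
    ∫ t, (f t - reg f t) * v t ≤ 0 :=
  OneD.q_var hf (mid1_hyp hc) hv

/-- P1 -/
theorem reg_eq (f : unitInterval → ℝ) (hf : Continuous f)
    (hc : ∀ a b, (f a + f b) / 2 ≤ f (mid1 a b)) :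
    ∫ t, (f t - reg f t) * reg f t = 0 :=
  OneD.q_orth hf (mid1_hyp hc)

end Vale.Agent.P254.Unc
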