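import Vale.Agent.P254.Unc.P3a

/-! `int_update`, `antitone_of_antiK` are in `P3a.lean` (this file only re-exports it). -/
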