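import Vale.Agent.P254.Unc.P1
import Vale.Agent.P254.Unc.P2
import Vale.Agent.P254.Unc.P3aH

/-! P254, unconditional bodies, leaf P3: the variational inequalities of `Q k`. -/

set_option autoImplicit false

namespace Vale.Agent.P254.Unc

open MeasureTheory
open scoped NNReal

variable {n : ℕ} {M : ℝ≥0}

theorem p3_slice_cont {f : X n → ℝ} (hf : Continuous f) (k : Fin n) (x : X n) :
    Continuous fun s : unitInterval => f (Function.update x k s) :=
  hf.comp (continuous_const.update k continuous_id)

theorem p3_slice_conc {f : X n → ℝ} (hf : Rel f f f) (k : Fin n) (x : X n) (a b : unitInterval) :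
    (f (Function.update x k a) + f (Function.update x k b)) / 2 ≤
      f (Function.update x k (mid1 a b)) := by
  have h := hf (Function.update x k a) (Function.update x k b)
  rw [mid_update] at h
  have e : mid x x = x := by
    funext i
    apply Subtype.ext
    show ((x i : ℝ) + x i) / 2 = x i
    ring
  rwa [e] at h

/-- P3 (from P1, P2, int_update) -/
theorem Q_le (k : Fin n) {f v : X n → ℝ} (hf : Good M f) (hv : AntiK k v) (hvc : Continuous v) :
    ∫ x, (f x - Q k f x) * v x ≤ 0 := by
  have hc := hf.lip.continuous
  have hq := (Q_lip k hf.lip).continuous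
  rw [← int_update k (fun x => (f x - Q k f x) * v x) ((hc.sub hq).mul hvc)]
  refine integral_nonpos fun x => ?_
  have h := reg_le (fun s => f (Function.update x k s)) (p3_slice_cont hc k x)
    (p3_slice_conc hf.conc k x) (fun s => v (Function.update x k s)) (fun s t h => hv x s t h)
  simp only [← Q_update] at h
  exact h

/-- P3 -/
theorem Q_eq (k : Fin n) {f : X n → ℝ} (hf : Good M f) :
    ∫ x, (f x - Q k f x) * Q k f x = 0 := by
  have hc := hf.lip.continuous
  have hq := (Q_lip k hf.lip).continuous
  rw [← int_update k (fun x => (f x - Q k f x) * Q k f x) ((hc.sub hq).mul hq)]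
  have h : ∀ x : X n, ∫ u : unitInterval, (f (Function.update x k u) -
      Q k f (Function.update x k u)) * Q k f (Function.update x k u) = 0 := by
    intro x
    have h := reg_eq (fun s => f (Function.update x k s)) (p3_slice_cont hc k x)
      (p3_slice_conc hf.conc k x)
    simp only [← Q_update] at h
    exact h
  simp only [h, integral_zero]

end Vale.Agent.P254.Unc
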