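import Vale.Agent.P254.Unc.P4bH
import Vale.Agent.P254.Unc.P2
import Vale.Agent.P254.Unc.P3

/-! P254, unconditional bodies, leaf P4b: `Q k` preserves `VV`. -/

set_option autoImplicit false

namespace Vale.Agent.P254.Unc

open scoped NNReal

variable {n : ℕ}

/-- applying `Q k` to a triple in `VV` stays in `VV` -/
theorem Q_mem_VV (k : Fin n) {M : ℝ≥0} {N : ℝ} {β v : Tr n} (hv : v ∈ VV n M N β) :
    (fun i => Q k (v i)) ∈ VV n M N β :=
  Q_mem_VV_of k (fun _ _ _ hz hf hg h => Q_rel k hz hf hg h) (fun _ hf => Q_lip k hf)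
    (fun _ hf _ hN => Q_bdd k hf hN) (fun _ _ hf hv hvc => Q_le k hf hv hvc) hv

end Vale.Agent.P254.Unc
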