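import Vale.Agent.P254.Unc.Defs2

/-! P254-UNC, block P5: the isotonic regression of a triple, from the existence of a minimiser. -/

open MeasureTheory Set
open scoped NNReal

namespace Vale.Agent.P254.Unc

variable {n : ℕ} {M : ℝ≥0}

namespace P5

instance instOpenPosUnit : (volume : Measure unitInterval).IsOpenPosMeasure := by
  refine ⟨fun U hU hne => ?_⟩
  obtain ⟨V, hV, rfl⟩ := isOpen_induced_iff.1 hU
  obtain ⟨x, hx⟩ := hne
  have hx' : (x : ℝ) ∈ closure (Ioo (0 : ℝ) 1) := by
    rw [closure_Ioo (by norm_num : (0 : ℝ) ≠ 1)]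
    exact x.2
  obtain ⟨y, hyV, hy⟩ := mem_closure_iff.1 hx' V hV hx
  have hpos : 0 < volume (V ∩ Ioo (0 : ℝ) 1) := (hV.inter isOpen_Ioo).measure_pos _ ⟨y, hyV, hy⟩
  refine (lt_of_lt_of_le hpos ?_).ne'
  rw [unitInterval.volume_apply]
  refine measure_mono ?_
  rintro t ⟨ht, ht'⟩
  exact ⟨⟨t, ⟨ht'.1.le, ht'.2.le⟩⟩, ht, rfl⟩

instance instOpenPosX : (volume : Measure (X n)).IsOpenPosMeasure :=
  inferInstanceAs (Measure.pi (fun _ => (volume : Measure unitInterval))).IsOpenPosMeasure

instance instProbX : IsProbabilityMeasure (volume : Measure (X n)) :=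
  inferInstanceAs (IsProbabilityMeasure (Measure.pi (fun _ => (volume : Measure unitInterval))))

theorem integrable_of_cont {f : X n → ℝ} (hf : Continuous f) : Integrable f :=
  hf.integrable_of_hasCompactSupport (HasCompactSupport.of_compactSpace f)

theorem int_add3 {f g h : X n → ℝ} (hf : Continuous f) (hg : Continuous g) (hh : Continuous h) :
    ∫ x, (f x + g x + h x) = (∫ x, f x) + (∫ x, g x) + ∫ x, h x := by
  have e1 : ∫ x, (f x + g x + h x) = (∫ x, (f x + g x)) + ∫ x, h x :=
    integral_add (integrable_of_cont (hf.add hg)) (integrable_of_cont hh)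
  have e2 : ∫ x, (f x + g x) = (∫ x, f x) + ∫ x, g x :=
    integral_add (integrable_of_cont hf) (integrable_of_cont hg)
  rw [e1, e2]

theorem good_comb {f g : X n → ℝ} (hf : Good M f) (hg : Good M g) {a b : ℝ} (ha : 0 ≤ a)
    (hb : 0 ≤ b) (hab : a + b = 1) : Good M (fun x => a * f x + b * g x) := by
  constructor
  · refine LipschitzWith.of_dist_le_mul fun x y => ?_
    have h1 := hf.lip.dist_le_mul x y
    have h2 := hg.lip.dist_le_mul x y
    rw [Real.dist_eq] at *
    have : a * f x + b * g x - (a * f y + b * g y) = a * (f x - f y) + b * (g x - g y) := by ring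
    rw [this]
    calc |a * (f x - f y) + b * (g x - g y)|
        ≤ |a * (f x - f y)| + |b * (g x - g y)| := abs_add_le _ _
      _ = a * |f x - f y| + b * |g x - g y| := by
          rw [abs_mul, abs_mul, abs_of_nonneg ha, abs_of_nonneg hb]
      _ ≤ a * (M * dist x y) + b * (M * dist x y) := by gcongr
      _ = M * dist x y := by rw [← add_mul, hab, one_mul]
  · intro x y
    have h1 := mul_le_mul_of_nonneg_left (hf.conc x y) ha
    have h2 := mul_le_mul_of_nonneg_left (hg.conc x y) hb
    simp only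
    linarith

theorem exists_bound {f : X n → ℝ} (hf : Continuous f) : ∃ N : ℝ, ∀ x, |f x| ≤ N := by
  obtain ⟨C, hC⟩ := isCompact_univ.exists_bound_of_continuousOn hf.continuousOn
  exact ⟨C, fun x => by simpa using hC x (mem_univ x)⟩

end P5

open P5

theorem isotonic_triple_of
    (hmin : ∀ {M : ℝ≥0} {N : ℝ} {β : Tr n}, β ∈ BB n M N →
      ∃ u ∈ VV n M N β, ∀ v ∈ VV n M N β, ∑ i, ∫ x, (u i x) ^ 2 ≤ ∑ i, ∫ x, (v i x) ^ 2)
    (hQV : ∀ (k : Fin n) {M : ℝ≥0} {N : ℝ} {β v : Tr n}, v ∈ VV n M N β →
      (fun i => Q k (v i)) ∈ VV n M N β)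
    (hQeq : ∀ (k : Fin n) {M : ℝ≥0} {f : X n → ℝ}, Good M f →
      ∫ x, (f x - Q k f x) * Q k f x = 0)
    (hQanti : ∀ (k : Fin n) {M : ℝ≥0} {f : X n → ℝ}, LipschitzWith M f → AntiK k (Q k f))
    (hanti : ∀ {f : X n → ℝ}, (∀ k, AntiK k f) → Antitone f)
    {f0 f1 z : X n → ℝ} (h0 : Good M f0) (h1 : Good M f1) (hz : Good M z)
    (hR : Rel z f0 f1) :
    ∃ g0 g1 w : X n → ℝ, Good M g0 ∧ Good M g1 ∧ Good M w ∧ Rel w g0 g1 ∧
      IsProj f0 g0 ∧ IsProj f1 g1 ∧ IsProj z w := by
  obtain ⟨N0, hN0⟩ := exists_bound h0.lip.continuous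
  obtain ⟨N1, hN1⟩ := exists_bound h1.lip.continuous
  obtain ⟨N2, hN2⟩ := exists_bound hz.lip.continuous
  set N : ℝ := max N0 (max N1 N2) with hN
  set β : Tr n := ![f0, f1, z] with hβdef
  have hβ : β ∈ BB n M N := by
    refine ⟨?_, ?_, hR⟩
    · intro i
      fin_cases i
      · exact h0
      · exact h1
      · exact hz
    · intro i x
      fin_cases i
      · exact (hN0 x).trans (le_max_left _ _)
      · exact (hN1 x).trans ((le_max_left _ _).trans (le_max_right _ _))
      · exact (hN2 x).trans ((le_max_right _ _).trans (le_max_right _ _))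
  obtain ⟨u, hu, humin⟩ := hmin hβ
  have hug : ∀ i, Good M (u i) := hu.1.1
  have huc : ∀ i, Continuous (u i) := fun i => (hug i).lip.continuous
  have hβc : ∀ i, Continuous (β i) := fun i => (hβ.1 i).lip.continuous
  -- Step 1: `Q k (u i) = u i`
  have hfix : ∀ k i, Q k (u i) = u i := by
    intro k
    have hv := hQV k hu
    have hvg : ∀ i, Good M (Q k (u i)) := hv.1.1
    have hvc : ∀ i, Continuous (Q k (u i)) := fun i => (hvg i).lip.continuous
    have hle := humin _ hv
    have hsq : ∀ i, ∫ x, (u i x) ^ 2 =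
        (∫ x, (Q k (u i) x) ^ 2) + ∫ x, (u i x - Q k (u i) x) ^ 2 := by
      intro i
      have e := hQeq k (hug i)
      have i1 : Continuous (fun x => (Q k (u i) x) ^ 2) := (hvc i).pow 2
      have i2 : Continuous (fun x => (u i x - Q k (u i) x) ^ 2) := ((huc i).sub (hvc i)).pow 2
      have i3 : Continuous (fun x => 2 * ((u i x - Q k (u i) x) * Q k (u i) x)) :=
        continuous_const.mul (((huc i).sub (hvc i)).mul (hvc i))
      have : ∫ x, (u i x) ^ 2 = ∫ x, ((Q k (u i) x) ^ 2 + (u i x - Q k (u i) x) ^ 2 +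
          2 * ((u i x - Q k (u i) x) * Q k (u i) x)) := by
        congr 1; ext x; ring
      rw [this, int_add3 i1 i2 i3, integral_const_mul, e]
      ring
    have hsum : ∑ i, ∫ x, (u i x - Q k (u i) x) ^ 2 ≤ 0 := by
      have : ∑ i, ∫ x, (u i x) ^ 2 =
          (∑ i, ∫ x, (Q k (u i) x) ^ 2) + ∑ i, ∫ x, (u i x - Q k (u i) x) ^ 2 := by
        rw [← Finset.sum_add_distrib]
        exact Finset.sum_congr rfl fun i _ => hsq i
      linarith
    have hnn : ∀ i, 0 ≤ ∫ x, (u i x - Q k (u i) x) ^ 2 := fun i =>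
      integral_nonneg fun x => sq_nonneg _
    intro i
    have hzero : ∫ x, (u i x - Q k (u i) x) ^ 2 = 0 := by
      refine le_antisymm ?_ (hnn i)
      exact (Finset.single_le_sum (fun j _ => hnn j) (Finset.mem_univ i)).trans hsum
    have hae := (integral_eq_zero_iff_of_nonneg (fun x => sq_nonneg (u i x - Q k (u i) x))
      (integrable_of_cont (((huc i).sub (hvc i)).pow 2))).1 hzero
    have heq : (fun x => (u i x - Q k (u i) x) ^ 2) = fun _ => (0:ℝ) :=
      Continuous.ae_eq_iff_eq volume (((huc i).sub (hvc i)).pow 2) continuous_const |>.1 hae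
    ext x
    have := congrFun heq x
    have h2 : u i x - Q k (u i) x = 0 := by
      exact pow_eq_zero_iff (two_ne_zero) |>.1 this
    linarith
  have hA : ∀ i, Antitone (u i) := by
    intro i
    refine hanti fun k => ?_
    have := hQanti k (hug i).lip
    rwa [hfix k i] at this
  -- Step 2: variational inequality
  have hβV : β ∈ VV n M N β := ⟨hβ, fun i ρ _ _ => by simp⟩
  have hterm : ∀ i, ∫ x, (β i x - u i x) * u i x ≤ 0 := fun i =>
    hu.2 i (u i) (hA i) ⟨M, (hug i).lip⟩
  have hS : 0 ≤ ∑ i, ∫ x, (β i x - u i x) * u i x := by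
    by_contra hneg
    push Not at hneg
    set S := ∑ i, ∫ x, (β i x - u i x) * u i x with hSdef
    set T := ∑ i, ∫ x, (β i x - u i x) ^ 2 with hTdef
    have hT : 0 ≤ T := Finset.sum_nonneg fun i _ => integral_nonneg fun x => sq_nonneg _
    -- the convex combination
    have hconv : ∀ t : ℝ, 0 ≤ t → t ≤ 1 → 0 ≤ 2 * t * S + t ^ 2 * T := by
      intro t ht0 ht1
      have hmem : (fun i x => (1 - t) * u i x + t * β i x) ∈ VV n M N β := by
        refine ⟨⟨?_, ?_, ?_⟩, ?_⟩
        · intro i
          exact good_comb (hug i) (hβ.1 i) (by linarith) ht0 (by ring)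
        · intro i x
          have a1 := hu.1.2.1 i x
          have a2 := hβ.2.1 i x
          calc |(1 - t) * u i x + t * β i x| ≤ |(1 - t) * u i x| + |t * β i x| := abs_add_le _ _
            _ = (1 - t) * |u i x| + t * |β i x| := by
                rw [abs_mul, abs_mul, abs_of_nonneg ht0, abs_of_nonneg (by linarith : 0 ≤ 1 - t)]
            _ ≤ (1 - t) * N + t * N := by
                have : 0 ≤ 1 - t := by linarith
                gcongr
            _ = N := by ring
        · intro x y
          have a1 := hu.1.2.2 x y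
          have a2 := hβ.2.2 x y
          have b1 := mul_le_mul_of_nonneg_left a1 (by linarith : 0 ≤ 1 - t)
          have b2 := mul_le_mul_of_nonneg_left a2 ht0
          simp only
          linarith
        · intro i ρ hρ hρl
          have a1 := hu.2 i ρ hρ hρl
          have : ∫ x, (β i x - ((1 - t) * u i x + t * β i x)) * ρ x
              = (1 - t) * ∫ x, (β i x - u i x) * ρ x := by
            rw [← integral_const_mul]
            congr 1; ext x; ring
          rw [this]
          exact mul_nonpos_of_nonneg_of_nonpos (by linarith) a1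
      have hle := humin _ hmem
      have hexp : ∀ i, ∫ x, ((1 - t) * u i x + t * β i x) ^ 2 = (∫ x, (u i x) ^ 2) +
          2 * t * (∫ x, (β i x - u i x) * u i x) + t ^ 2 * ∫ x, (β i x - u i x) ^ 2 := by
        intro i
        have i1 : Continuous (fun x => (u i x) ^ 2) := (huc i).pow 2
        have i2 : Continuous (fun x => (2 * t) * ((β i x - u i x) * u i x)) :=
          continuous_const.mul (((hβc i).sub (huc i)).mul (huc i))
        have i3 : Continuous (fun x => t ^ 2 * (β i x - u i x) ^ 2) :=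
          continuous_const.mul (((hβc i).sub (huc i)).pow 2)
        have : ∫ x, ((1 - t) * u i x + t * β i x) ^ 2 = ∫ x, ((u i x) ^ 2 +
            (2 * t) * ((β i x - u i x) * u i x) + t ^ 2 * (β i x - u i x) ^ 2) := by
          congr 1; ext x; ring
        rw [this, int_add3 i1 i2 i3, integral_const_mul, integral_const_mul]
      simp only [hexp] at hle
      rw [Finset.sum_add_distrib, Finset.sum_add_distrib, ← Finset.mul_sum, ← Finset.mul_sum]
        at hle
      linarith
    -- choose a small t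
    have hT1 : 0 < T + 1 := by linarith
    have hSneg : 0 < -S := by linarith
    set t := min 1 (-S / (T + 1)) with htdef
    have ht0 : 0 < t := lt_min one_pos (div_pos hSneg hT1)
    have ht1 : t ≤ 1 := min_le_left _ _
    have ht2 : t * (T + 1) ≤ -S := by
      have : t ≤ -S / (T + 1) := min_le_right _ _
      rwa [le_div_iff₀ hT1] at this
    have h3 := hconv t ht0.le ht1
    have h4 : t * T ≤ -S := by nlinarith
    nlinarith
  have hzero : ∀ i, ∫ x, (β i x - u i x) * u i x = 0 := by
    have hs0 : ∑ i, ∫ x, (β i x - u i x) * u i x = 0 :=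
      le_antisymm (Finset.sum_nonpos fun i _ => hterm i) hS
    intro i
    exact (Finset.sum_eq_zero_iff_of_nonpos fun j _ => hterm j).1 hs0 i (Finset.mem_univ i)
  have hproj : ∀ i, IsProj (β i) (u i) := fun i => ⟨hA i, hu.2 i, hzero i⟩
  exact ⟨u 0, u 1, u 2, hug 0, hug 1, hug 2, hu.1.2.2, hproj 0, hproj 1, hproj 2⟩

end Vale.Agent.P254.Unc
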