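import Vale.Agent.P254.Unc.Defs2

/-! Statement sheet (not imported by anything; every theorem is to be proved in its own file
`Vale/Agent/P254/Unc/<Block>.lean`, same namespace, same name). -/

open MeasureTheory Set
open scoped NNReal

namespace Vale.Agent.P254.Unc

variable {n : ℕ} {M : ℝ≥0}

/-! ### Block P : the projection -/

/-- P1 (file Unc/P1.lean) -/
theorem reg_le (f : unitInterval → ℝ) (hf : Continuous f)
    (hc : ∀ a b, (f a + f b) / 2 ≤ f (mid1 a b)) (v : unitInterval → ℝ) (hv : Antitone v) :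
    ∫ t, (f t - reg f t) * v t ≤ 0 := sorry

/-- P1 -/
theorem reg_eq (f : unitInterval → ℝ) (hf : Continuous f)
    (hc : ∀ a b, (f a + f b) / 2 ≤ f (mid1 a b)) :
    ∫ t, (f t - reg f t) * reg f t = 0 := sorry

/-- P2 (file Unc/P2.lean) -/
theorem Q_rel (k : Fin n) {z f g : X n → ℝ} (hz : LipschitzWith M z) (hf : LipschitzWith M f)
    (hg : LipschitzWith M g) (h : Rel z f g) : Rel (Q k z) (Q k f) (Q k g) := sorry

/-- P2 -/
theorem Q_lip (k : Fin n) {f : X n → ℝ} (hf : LipschitzWith M f) : LipschitzWith M (Q k f) :=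
  sorry

/-- P2 -/
theorem Q_bdd (k : Fin n) {f : X n → ℝ} (hf : LipschitzWith M f) {N : ℝ} (hN : ∀ x, |f x| ≤ N) :
    ∀ x, |Q k f x| ≤ N := sorry

/-- P2 -/
theorem Q_antiK (k : Fin n) {f : X n → ℝ} (hf : LipschitzWith M f) : AntiK k (Q k f) := sorry

/-- P2 -/
theorem Q_update (k : Fin n) (f : X n → ℝ) (x : X n) (t : unitInterval) :
    Q k f (Function.update x k t) = reg (fun s => f (Function.update x k s)) t := sorry

/-- P3 (file Unc/P3.lean) -/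
theorem int_update (k : Fin n) (F : X n → ℝ) (hF : Continuous F) :
    ∫ x, ∫ u : unitInterval, F (Function.update x k u) = ∫ x, F x := sorry

/-- P3 -/
theorem antitone_of_antiK {f : X n → ℝ} (h : ∀ k, AntiK k f) : Antitone f := sorry

/-- P3 (from P1, P2, int_update) -/
theorem Q_le (k : Fin n) {f v : X n → ℝ} (hf : Good M f) (hv : AntiK k v) (hvc : Continuous v) :
    ∫ x, (f x - Q k f x) * v x ≤ 0 := sorry

/-- P3 -/
theorem Q_eq (k : Fin n) {f : X n → ℝ} (hf : Good M f) :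
    ∫ x, (f x - Q k f x) * Q k f x = 0 := sorry

/-- P4 (file Unc/P4.lean): compactness (Arzela-Ascoli in `C(X n, ℝ)`), then minimise -/
theorem exists_min_VV {M : ℝ≥0} {N : ℝ} {β : Tr n} (hβ : β ∈ BB n M N) :
    ∃ u ∈ VV n M N β, ∀ v ∈ VV n M N β, ∑ i, ∫ x, (u i x) ^ 2 ≤ ∑ i, ∫ x, (v i x) ^ 2 := sorry

/-- P4: applying `Q k` to a triple in `VV` stays in `VV` (from P2, P3) -/
theorem Q_mem_VV (k : Fin n) {M : ℝ≥0} {N : ℝ} {β v : Tr n} (hv : v ∈ VV n M N β) :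
    (fun i => Q k (v i)) ∈ VV n M N β := sorry

/-- P5 (file Unc/P5.lean): assembly. `u` = minimiser of `∑ ∫ u_i²` on `VV n M N β`, `β=(f0,f1,z)`.
`∫ (Q k u_i)² = ∫ u_i² - ∫ (u_i - Q k u_i)²` (Q_eq), so `Q k u_i = u_i` for all `k` (continuity), so
`u_i` is antitone; `β ∈ VV`, convexity of `VV`: `∑ ∫ u_i (β_i - u_i) ≥ 0`, each term `≤ 0`. -/
theorem isotonic_triple {f0 f1 z : X n → ℝ} (h0 : Good M f0) (h1 : Good M f1) (hz : Good M z)
    (hR : Rel z f0 f1) :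
    ∃ g0 g1 w : X n → ℝ, Good M g0 ∧ Good M g1 ∧ Good M w ∧ Rel w g0 g1 ∧
      IsProj f0 g0 ∧ IsProj f1 g1 ∧ IsProj z w := sorry

/-! ### Block D : CX from UNC -/

/-- D1 (file Unc/D1.lean) -/
theorem IsProj.dens_le {f g : X n → ℝ} (h : IsProj f g) (hf : Continuous f) (hg : Continuous g)
    {ρ : X n → ℝ} (hρ : Dens n ρ) : ∫ x, f x * ρ x ≤ g 0 := sorry

/-- D1 -/
theorem IsProj.exists_dens {f g : X n → ℝ} (h : IsProj f g) (hf : Continuous f)
    (hg : LipschitzWith M g) {ε : ℝ} (hε : 0 < ε) : ∃ ρ, Dens n ρ ∧ g 0 - ε ≤ ∫ x, f x * ρ x :=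
  sorry

/-- D1: near maximising convex closed lower sets -/
theorem IsProj.exists_set {f g : X n → ℝ} (h : IsProj f g) (hf : Continuous f)
    (hg : Good M g) {ε : ℝ} (hε : 0 < ε) :
    ∃ L : Set (X n), IsClosed L ∧ L.Nonempty ∧ IsLowerSet L ∧
      (∀ x ∈ L, ∀ y ∈ L, mid x y ∈ L) ∧ 0 < (volume L).toReal ∧
      (g 0 - ε) * (volume L).toReal ≤ ∫ x in L, f x := sorry

/-- D1: Lipschitz antitone densities close to the uniform density of a closed lower set -/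
theorem exists_dens_approx (L : Set (X n)) (hL : IsClosed L) (hlow : IsLowerSet L)
    (hpos : 0 < (volume L).toReal) (S : Finset (X n → ℝ)) (hS : ∀ f ∈ S, Continuous f)
    {ε : ℝ} (hε : 0 < ε) :
    ∃ ρ, Dens n ρ ∧ ∀ f ∈ S, |∫ x, f x * ρ x - (∫ x in L, f x) / (volume L).toReal| ≤ ε := sorry

/-- D2: the main step -/
theorem cxs_of_unc (n : ℕ) (h : UNC n) : CXs n := sorry

/-- D3 (file Unc/D3.lean): remove strong concavity and normalisation -/
theorem cx_of_cxs (n : ℕ) (h : CXs n) : CX n := sorry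

/-! ### Block E : UNC (n+1) from CX n, and transfer to `ℝⁿ` -/

/-- E0 (file Unc/E0.lean) -/
theorem unc_zero : UNC 0 := sorry

/-- E1 (file Unc/E1.lean) -/
theorem unc_succ (n : ℕ) (h : CX n) : UNC (n + 1) := sorry

/-- E2 (file Unc/E2.lean) -/
theorem unc_real {n : ℕ} (h : UNC n) (K : Set (Fin n → ℝ)) (hK : IsCompact K)
    (hc : Convex ℝ K) (hne : K.Nonempty) (hpos : ∀ x ∈ K, ∀ k, 0 ≤ x k)
    (hlow : ∀ x ∈ K, ∀ y : Fin n → ℝ, (∀ k, 0 ≤ y k ∧ y k ≤ x k) → y ∈ K) :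
    ∏ k : Fin n, (2 * ∫ x in K, x k) ≤ (volume K).toReal ^ (n + 1) := sorry

/-! ### Block F -/

/-- F1 (file Unc/F1.lean): Berwald (needs Brunn-Minkowski, see Vale/Agent/P237/BM.lean) -/
theorem berwald_two {n : ℕ} (K : Set (Fin n → ℝ)) (hK : IsCompact K)
    (hc : Convex ℝ K) (hne : (interior K).Nonempty) (hpos : ∀ x ∈ K, ∀ k, 0 ≤ x k)
    (hlow : ∀ x ∈ K, ∀ y : Fin n → ℝ, (∀ k, 0 ≤ y k ∧ y k ≤ x k) → y ∈ K) (k : Fin n) :
    ((n : ℝ) + 2) * ((volume K).toReal * ∫ x in K, x k ^ 2) ≤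
      2 * ((n : ℝ) + 1) * (∫ x in K, x k) ^ 2 := sorry

/-- F2 (file Unc/F2.lean) -/
theorem num_ineq (n : ℕ) (hn : 2 ≤ n) : (n + 1) ^ (2 * n + 1) < 8 ^ n * (n.factorial) ^ 2 := sorry

end Vale.Agent.P254.Unc
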